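import Vale.Agent.P054.T2.H930.Germ3

/-!
# Jets (P054, T2): dimension of `k[X]/J_{n+1}` and of polynomials of degree at most `n`
-/

set_option autoImplicit false
set_option linter.unusedSectionVars false

open MvPolynomial

namespace Vale.Agent.P054.T2.H930

theorem card_degree_le (e n : ℕ) :
    Nat.card {d : Fin e →₀ ℕ | (d.sum fun _ x => x) ≤ n} = (n + e).choose e := by
  classical
  have h1 : Nat.card {d : Fin e →₀ ℕ | (d.sum fun _ x => x) ≤ n}
      = Nat.card (Finset.finsuppAntidiag (Finset.univ : Finset (Fin (e + 1))) n) := by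
    apply Nat.card_congr
    refine ⟨fun d => ⟨Finsupp.cons (n - d.1.sum fun _ x => x) d.1, ?_⟩,
      fun g => ⟨Finsupp.tail g.1, ?_⟩, ?_, ?_⟩
    · rw [Finset.mem_finsuppAntidiag]
      refine ⟨?_, Finset.subset_univ _⟩
      rw [Fin.sum_univ_succ]
      simp only [Finsupp.cons_zero, Finsupp.cons_succ]
      have h2 := d.2
      rw [Set.mem_ofPred_eq, Finsupp.sum_fintype _ _ (fun _ => rfl)] at h2
      rw [Finsupp.sum_fintype _ _ (fun _ => rfl)]
      omega
    · have h2 := (Finset.mem_finsuppAntidiag.1 g.2).1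
      rw [Fin.sum_univ_succ] at h2
      rw [Set.mem_ofPred_eq, Finsupp.sum_fintype _ _ (fun _ => rfl)]
      simp only [Finsupp.tail_apply]
      omega
    · intro d
      apply Subtype.ext
      simp
    · intro g
      apply Subtype.ext
      simp only
      have h2 := (Finset.mem_finsuppAntidiag.1 g.2).1
      rw [Fin.sum_univ_succ] at h2
      ext i
      refine Fin.cases ?_ (fun j => ?_) i
      · rw [Finsupp.cons_zero, Finsupp.sum_fintype _ _ (fun _ => rfl)]
        simp only [Finsupp.tail_apply]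
        omega
      · rw [Finsupp.cons_succ, Finsupp.tail_apply]
  rw [h1, Nat.card_eq_fintype_card, Fintype.card_coe, Finset.card_finsuppAntidiag_nat_eq_choose]
  rw [Finset.card_univ, Fintype.card_fin]
  have : e + 1 + n - 1 = n + e := by omega
  rw [this, Nat.choose_symm_add]

theorem finrank_restrictTotalDegree (k : Type*) [Field k] (e n : ℕ) :
    Module.finrank k (restrictTotalDegree (Fin e) k n) = (n + e).choose e := by
  rw [← card_degree_le e n]
  exact Module.finrank_eq_nat_card_basis (basisRestrictSupport k _)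

variable {k : Type*} [Field k] {σ : Type*} [Fintype σ] [DecidableEq σ]

/-- the jet space `k[X]/J_{n+1}` has dimension `choose (n+e) e` -/
theorem finrank_quot_J {c : ℕ} (p : σ → k) (f : Fin c → MvPolynomial σ k)
    (hf : ∀ i, eval p (f i) = 0) (hind : LinearIndependent k (fun i => grad p (f i))) (n : ℕ) :
    Module.finrank k (MvPolynomial σ k ⧸ J p f (n + 1))
      = (n + (Fintype.card σ - c)).choose (Fintype.card σ - c) := by
  classical
  obtain ⟨e, he, a, ζ, h1, h2, h3⟩ := exists_jets p f hf hind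
  have hec : Fintype.card σ - c = e := by omega
  rw [hec, ← finrank_restrictTotalDegree k e n]
  symm
  let T : restrictTotalDegree (Fin e) k n →ₗ[k] (MvPolynomial σ k ⧸ J p f (n + 1)) :=
    ((Ideal.Quotient.mkₐ k (J p f (n + 1))).toLinearMap ∘ₗ (aeval ζ).toLinearMap) ∘ₗ
      (restrictTotalDegree (Fin e) k n).subtype
  have hdeg : ∀ A : MvPolynomial (Fin e) k, A ∈ restrictTotalDegree (Fin e) k n ↔
      ∀ d ∈ A.support, d.degree < n + 1 := by
    intro A
    rw [mem_restrictTotalDegree, totalDegree, Finset.sup_le_iff]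
    refine forall₂_congr (fun d _ => ?_)
    rw [Nat.lt_succ_iff]
    rfl
  refine LinearEquiv.finrank_eq (LinearEquiv.ofBijective T ⟨?_, ?_⟩)
  · rw [← LinearMap.ker_eq_bot, LinearMap.ker_eq_bot']
    intro A hA
    apply Subtype.ext
    refine h3 (n + 1) A.1 ((hdeg A.1).1 A.2) ?_
    exact Ideal.Quotient.eq_zero_iff_mem.1 hA
  · intro y
    obtain ⟨F, rfl⟩ := Ideal.Quotient.mk_surjective y
    obtain ⟨A, hA, hA'⟩ := h2 (n + 1) F
    refine ⟨⟨A, (hdeg A).2 hA⟩, ?_⟩
    have h4 : Ideal.Quotient.mk (J p f (n + 1)) (aeval ζ A) = Ideal.Quotient.mk _ F := by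
      rw [Ideal.Quotient.eq]
      have := Ideal.neg_mem_iff _ |>.2 hA'
      rwa [neg_sub] at this
    exact h4

theorem finite_quot_J {c : ℕ} (p : σ → k) (f : Fin c → MvPolynomial σ k)
    (hf : ∀ i, eval p (f i) = 0) (hind : LinearIndependent k (fun i => grad p (f i))) (n : ℕ) :
    Module.Finite k (MvPolynomial σ k ⧸ J p f n) := by
  rcases n with _ | n
  · rw [J_zero]
    have : Subsingleton (MvPolynomial σ k ⧸ (⊤ : Ideal (MvPolynomial σ k))) :=
      Ideal.Quotient.subsingleton_iff.2 rfl
    infer_instance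
  · apply Module.finite_of_finrank_pos
    rw [finrank_quot_J p f hf hind n]
    exact Nat.choose_pos (by omega)

/-- the whole chain is the germ ideal -/
theorem germChain_top {c : ℕ} (p : σ → k) (f : Fin c → MvPolynomial σ k) {j : ℕ} (hj : c ≤ j) :
    germChain p f j = germ p f := by
  unfold germChain germ
  refine iInf_congr (fun n => ?_)
  unfold J
  congr 2
  ext x
  constructor
  · rintro ⟨m, rfl⟩
    exact ⟨_, rfl⟩
  · rintro ⟨i, rfl⟩
    exact ⟨⟨i.1, by have := i.2; omega⟩, rfl⟩

end Vale.Agent.P054.T2.H930
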