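import Vale.Agent.P054.T2.H930.Germ2

/-!
# Formal germs (P054, T2, leaf [F]), part 3: consequences (coordinate free)
-/

set_option autoImplicit false
set_option linter.unusedSectionVars false

open MvPolynomial

namespace Vale.Agent.P054.T2.H930

variable {k : Type*} [Field k] {σ : Type*} [Fintype σ] [DecidableEq σ]

theorem J_zero {c : ℕ} (p : σ → k) (f : Fin c → MvPolynomial σ k) : J p f 0 = ⊤ := by
  unfold J
  rw [pow_zero, Ideal.one_eq_top, sup_top_eq]

theorem J_anti {c : ℕ} (p : σ → k) (f : Fin c → MvPolynomial σ k) {m n : ℕ} (h : m ≤ n) :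
    J p f n ≤ J p f m := sup_le_sup_left (Ideal.pow_le_pow_right h) _

theorem span_le_J {c : ℕ} (p : σ → k) (f : Fin c → MvPolynomial σ k) (n : ℕ) :
    Ideal.span (Set.range f) ≤ J p f n := le_sup_left

theorem pow_le_J {c : ℕ} (p : σ → k) (f : Fin c → MvPolynomial σ k) (n : ℕ) :
    (mx p) ^ n ≤ J p f n := le_sup_right

theorem J_mono {c c' : ℕ} (p : σ → k) (f : Fin c → MvPolynomial σ k)
    (f' : Fin c' → MvPolynomial σ k) (h : Set.range f ⊆ Set.range f') (n : ℕ) :
    J p f n ≤ J p f' n := sup_le_sup_right (Ideal.span_mono h) _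

theorem J_one {c : ℕ} (p : σ → k) (f : Fin c → MvPolynomial σ k) (hf : ∀ i, eval p (f i) = 0) :
    J p f 1 = mx p := by
  unfold J
  rw [pow_one, sup_eq_right, Ideal.span_le]
  rintro _ ⟨i, rfl⟩
  exact hf i

theorem germ_le_J {c : ℕ} (p : σ → k) (f : Fin c → MvPolynomial σ k) (n : ℕ) :
    germ p f ≤ J p f n := iInf_le _ n

theorem mem_germ {c : ℕ} {p : σ → k} {f : Fin c → MvPolynomial σ k} {F : MvPolynomial σ k} :
    F ∈ germ p f ↔ ∀ n, F ∈ J p f n := by
  unfold germ
  rw [Ideal.mem_iInf]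

theorem f_mem_germ {c : ℕ} (p : σ → k) (f : Fin c → MvPolynomial σ k) (i : Fin c) :
    f i ∈ germ p f :=
  mem_germ.2 (fun n => span_le_J p f n (Ideal.subset_span ⟨i, rfl⟩))

theorem germ_mono {c c' : ℕ} (p : σ → k) (f : Fin c → MvPolynomial σ k)
    (f' : Fin c' → MvPolynomial σ k) (h : Set.range f ⊆ Set.range f') :
    germ p f ≤ germ p f' := iInf_mono (fun n => J_mono p f f' h n)

theorem eval_eq_zero_of_mem_germ {c : ℕ} {p : σ → k} {f : Fin c → MvPolynomial σ k}
    (hf : ∀ i, eval p (f i) = 0) {F : MvPolynomial σ k} (hF : F ∈ germ p f) : eval p F = 0 := by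
  have := germ_le_J p f 1 hF
  rw [J_one p f hf] at this
  exact this

theorem germ_le_mx {c : ℕ} {p : σ → k} {f : Fin c → MvPolynomial σ k}
    (hf : ∀ i, eval p (f i) = 0) : germ p f ≤ mx p :=
  fun _ hF => eval_eq_zero_of_mem_germ hf hF

/-! ### gradients -/

theorem grad_add (p : σ → k) (F G : MvPolynomial σ k) : grad p (F + G) = grad p F + grad p G := by
  funext j; simp [grad]

theorem grad_mul (p : σ → k) (F G : MvPolynomial σ k) :
    grad p (F * G) = eval p F • grad p G + eval p G • grad p F := by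
  funext j
  simp only [grad, pderiv_mul, map_add, map_mul, Pi.add_apply, Pi.smul_apply, smul_eq_mul]
  ring

theorem grad_of_mem_sq {p : σ → k} {F : MvPolynomial σ k} (hF : F ∈ (mx p) ^ 2) : grad p F = 0 := by
  rw [pow_two] at hF
  induction hF using Submodule.mul_induction_on' with
  | mem_mul_mem a ha b hb =>
    rw [grad_mul, mem_mx.1 ha, mem_mx.1 hb, zero_smul, zero_smul, add_zero]
  | add a _ b _ ha hb => rw [grad_add, ha, hb, add_zero]

theorem grad_mem_of_mem_span {c : ℕ} {p : σ → k} {f : Fin c → MvPolynomial σ k}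
    (hf : ∀ i, eval p (f i) = 0) {F : MvPolynomial σ k} (hF : F ∈ Ideal.span (Set.range f)) :
    grad p F ∈ Submodule.span k (Set.range (fun i => grad p (f i))) := by
  refine Submodule.span_induction (p := fun F _ => grad p F ∈
    Submodule.span k (Set.range (fun i => grad p (f i)))) ?_ ?_ ?_ ?_ hF
  · rintro _ ⟨i, rfl⟩
    exact Submodule.subset_span ⟨i, rfl⟩
  · have : grad p (0 : MvPolynomial σ k) = 0 := by funext j; simp [grad]
    rw [this]; exact Submodule.zero_mem _
  · intro x y _ _ hx hy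
    rw [grad_add]
    exact Submodule.add_mem _ hx hy
  · intro a x hx hx'
    rw [smul_eq_mul, grad_mul]
    have hx0 : eval p x = 0 := by
      have h1 : Ideal.span (Set.range f) ≤ mx p := by
        rw [Ideal.span_le]
        rintro _ ⟨i, rfl⟩
        exact hf i
      exact h1 hx
    rw [hx0, zero_smul, add_zero]
    exact Submodule.smul_mem _ _ hx'

/-- (F3) second order: `F ∈ J_2` iff `F(p) = 0` and the gradient is in the span of the gradients -/
theorem mem_J_two_iff {c : ℕ} {p : σ → k} {f : Fin c → MvPolynomial σ k}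
    (hf : ∀ i, eval p (f i) = 0) {F : MvPolynomial σ k} :
    F ∈ J p f 2 ↔ eval p F = 0 ∧
      grad p F ∈ Submodule.span k (Set.range (fun i => grad p (f i))) := by
  constructor
  · intro h
    refine ⟨?_, ?_⟩
    · have := J_anti p f (by omega : 1 ≤ 2) h
      rw [J_one p f hf] at this
      exact this
    · obtain ⟨a, ha, r, hr, rfl⟩ := Submodule.mem_sup.1 h
      rw [grad_add, grad_of_mem_sq hr, add_zero]
      exact grad_mem_of_mem_span hf ha
  · rintro ⟨h0, h1⟩
    obtain ⟨a, ha⟩ := (Submodule.mem_span_range_iff_exists_fun k).1 h1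
    have h2 := taylor_mem p (F - ∑ i, C (a i) * f i)
    have h3 : eval p (F - ∑ i, C (a i) * f i) = 0 := by
      rw [map_sub, h0, map_sum]
      simp [hf]
    have h4 : grad p (F - ∑ i, C (a i) * f i) = 0 := by
      have h5 : grad p (F - ∑ i, C (a i) * f i) = grad p F - ∑ i, a i • grad p (f i) := by
        funext j
        simp [grad]
      rw [h5, ha, sub_self]
    rw [h3, h4] at h2
    simp only [map_zero, sub_zero, Pi.zero_apply, zero_mul, Finset.sum_const_zero] at h2
    have h6 : F = ∑ i, C (a i) * f i + (F - ∑ i, C (a i) * f i) := by ring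
    rw [h6]
    refine Ideal.add_mem _ (Ideal.sum_mem _ fun i _ => Ideal.mul_mem_left _ _ ?_) (pow_le_J p f 2 h2)
    exact span_le_J p f 2 (Ideal.subset_span ⟨i, rfl⟩)

theorem grad_mem_of_mem_germ {c : ℕ} {p : σ → k} {f : Fin c → MvPolynomial σ k}
    (hf : ∀ i, eval p (f i) = 0) {F : MvPolynomial σ k} (hF : F ∈ germ p f) :
    grad p F ∈ Submodule.span k (Set.range (fun i => grad p (f i))) :=
  ((mem_J_two_iff hf).1 (germ_le_J p f 2 hF)).2

/-! ### primality -/

theorem germ_eq_ker {c : ℕ} {p : σ → k} {f : Fin c → MvPolynomial σ k} {e : ℕ}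
    (φ : MvPolynomial σ k →ₐ[k] MvPowerSeries (Fin e) k)
    (h : ∀ n F, φ F ∈ (ordI n : Ideal (MvPowerSeries (Fin e) k)) ↔ F ∈ J p f n) :
    germ p f = RingHom.ker φ := by
  ext F
  rw [mem_germ]
  constructor
  · intro hF
    exact eq_zero_of_mem_ordI (fun n => (h n F).2 (hF n))
  · intro hF n
    rw [← h n]
    have : φ F = 0 := hF
    rw [this]; exact Ideal.zero_mem _

theorem germ_isPrime {c : ℕ} {p : σ → k} {f : Fin c → MvPolynomial σ k}
    (hf : ∀ i, eval p (f i) = 0) (hind : LinearIndependent k (fun i => grad p (f i))) :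
    (germ p f).IsPrime := by
  obtain ⟨e, -, φ, -, -, -, -, -, h, -⟩ := exists_germ p f hf hind
  rw [germ_eq_ker φ h]
  have : IsDomain (MvPowerSeries (Fin e) k) := NoZeroDivisors.to_isDomain _
  exact RingHom.ker_isPrime φ.toRingHom

/-- orders add up: `F ∉ J_{a+1}`, `G ∉ J_{b+1}` imply `F G ∉ J_{a+b+1}` -/
theorem mul_notMem_J {c : ℕ} {p : σ → k} {f : Fin c → MvPolynomial σ k}
    (hf : ∀ i, eval p (f i) = 0) (hind : LinearIndependent k (fun i => grad p (f i)))
    {a b : ℕ} {F G : MvPolynomial σ k} (hF : F ∉ J p f (a + 1)) (hG : G ∉ J p f (b + 1)) :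
    F * G ∉ J p f (a + b + 1) := by
  obtain ⟨e, -, φ, -, -, -, -, -, h, -⟩ := exists_germ p f hf hind
  rw [← h, mem_ordI, not_le] at hF hG ⊢
  rw [map_mul, MvPowerSeries.order_mul]
  push_cast at hF hG ⊢
  have h1 : (φ F).order ≤ (a : ℕ∞) := Order.lt_add_one_iff_of_not_isMax (by simp) |>.1 hF
  have h2 : (φ G).order ≤ (b : ℕ∞) := Order.lt_add_one_iff_of_not_isMax (by simp) |>.1 hG
  exact lt_of_le_of_lt (add_le_add h1 h2) (by
    have : ((a : ℕ∞) + b) = ((a + b : ℕ) : ℕ∞) := by push_cast; rfl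
    rw [this]
    have h3 : ((a + b : ℕ) : ℕ∞) + 1 = ((a + b + 1 : ℕ) : ℕ∞) := by push_cast; rfl
    rw [h3]
    exact_mod_cast Nat.lt_succ_self _)

theorem J_mul_mem {c : ℕ} {p : σ → k} {f : Fin c → MvPolynomial σ k} {a b : ℕ}
    {F G : MvPolynomial σ k} (hF : F ∈ J p f a) (hG : G ∈ J p f b) : F * G ∈ J p f (a + b) := by
  obtain ⟨x, hx, r, hr, rfl⟩ := Submodule.mem_sup.1 hF
  obtain ⟨y, hy, s, hs, rfl⟩ := Submodule.mem_sup.1 hG
  have : (x + r) * (y + s) = (x * (y + s) + y * r) + r * s := by ring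
  rw [this]
  refine Ideal.add_mem _ (Ideal.add_mem _ ?_ ?_) ?_
  · exact span_le_J p f _ (Ideal.mul_mem_right _ _ hx)
  · exact span_le_J p f _ (Ideal.mul_mem_right _ _ hy)
  · refine pow_le_J p f _ ?_
    rw [pow_add]
    exact Ideal.mul_mem_mul hr hs

theorem derivation_mem_pow {p : σ → k}
    (D : Derivation k (MvPolynomial σ k) (MvPolynomial σ k)) (n : ℕ)
    {r : MvPolynomial σ k} (hr : r ∈ (mx p) ^ (n + 1)) : D r ∈ (mx p) ^ n := by
  induction n generalizing r with
  | zero => rw [pow_zero, Ideal.one_eq_top]; trivial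
  | succ n ih =>
    rw [pow_succ] at hr
    refine Submodule.mul_induction_on hr ?_ ?_
    · intro a ha b hb
      rw [Derivation.leibniz, smul_eq_mul, smul_eq_mul]
      refine Ideal.add_mem _ (Ideal.mul_mem_right _ _ ha) ?_
      rw [pow_succ, mul_comm b (D a)]
      exact Ideal.mul_mem_mul (ih ha) hb
    · intro a b ha hb
      rw [map_add]; exact Ideal.add_mem _ ha hb

/-- (F5) a derivation lowers the order by at most one, if it kills `f` to the order considered -/
theorem derivation_mem_J {c : ℕ} {p : σ → k} {f : Fin c → MvPolynomial σ k} {n : ℕ}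
    (D : Derivation k (MvPolynomial σ k) (MvPolynomial σ k)) (hD : ∀ i, D (f i) ∈ J p f n)
    {F : MvPolynomial σ k} (hF : F ∈ J p f (n + 1)) : D F ∈ J p f n := by
  obtain ⟨x, hx, r, hr, rfl⟩ := Submodule.mem_sup.1 hF
  rw [map_add]
  refine Ideal.add_mem _ ?_ ?_
  · refine Submodule.span_induction (p := fun F _ => D F ∈ J p f n) ?_ ?_ ?_ ?_ hx
    · rintro _ ⟨i, rfl⟩
      exact hD i
    · rw [map_zero]; exact Ideal.zero_mem _
    · intro x y _ _ hx hy
      rw [map_add]; exact Ideal.add_mem _ hx hy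
    · intro a x hx hx'
      rw [smul_eq_mul, Derivation.leibniz, smul_eq_mul, smul_eq_mul]
      exact Ideal.add_mem _ (Ideal.mul_mem_left _ _ hx')
        (Ideal.mul_mem_right _ _ (span_le_J p f n hx))
  · exact pow_le_J p f n (derivation_mem_pow D n hr)

theorem derivation_mem_germ {c : ℕ} {p : σ → k} {f : Fin c → MvPolynomial σ k}
    (D : Derivation k (MvPolynomial σ k) (MvPolynomial σ k)) (hD : ∀ i, D (f i) ∈ germ p f)
    {F : MvPolynomial σ k} (hF : F ∈ germ p f) : D F ∈ germ p f :=
  mem_germ.2 (fun n => derivation_mem_J D (fun i => germ_le_J p f n (hD i))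
    (germ_le_J p f (n + 1) hF))

/-- (F4) local coordinates and jets: every polynomial is, modulo `J_n`, a unique polynomial of
degree `< n` in `e` affine forms vanishing at `p`. -/
theorem exists_jets {c : ℕ} (p : σ → k) (f : Fin c → MvPolynomial σ k)
    (hf : ∀ i, eval p (f i) = 0) (hind : LinearIndependent k (fun i => grad p (f i))) :
    ∃ e : ℕ, e + c = Fintype.card σ ∧
      ∃ (a : Fin e → σ → k) (ζ : Fin e → MvPolynomial σ k),
        (∀ l, ζ l = ∑ j, C (a l j) * (X j - C (p j))) ∧
        (∀ n F, ∃ A : MvPolynomial (Fin e) k, (∀ d ∈ A.support, d.degree < n) ∧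
          F - aeval ζ A ∈ J p f n) ∧
        (∀ n (A : MvPolynomial (Fin e) k), (∀ d ∈ A.support, d.degree < n) →
          aeval ζ A ∈ J p f n → A = 0) := by
  obtain ⟨e, he, φ, a, ζ, h1, h2, h3, h4, h5⟩ := exists_germ p f hf hind
  refine ⟨e, he, a, ζ, h1, h5, ?_⟩
  intro n A hA hAJ
  rw [← h4, h2] at hAJ
  ext d
  by_cases hd : d ∈ A.support
  · have := mem_ordI'.1 hAJ d (hA d hd)
    rw [MvPolynomial.coeff_coe] at this
    rw [this, coeff_zero]
  · rw [notMem_support_iff.1 hd, coeff_zero]

/-- chain of germ ideals of the first `j` equations -/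
noncomputable def germChain {c : ℕ} (p : σ → k) (f : Fin c → MvPolynomial σ k) (j : ℕ) :
    Ideal (MvPolynomial σ k) :=
  germ p (fun i : Fin (min j c) => f (Fin.castLE (min_le_right _ _) i))

theorem germChain_isPrime {c : ℕ} {p : σ → k} {f : Fin c → MvPolynomial σ k}
    (hf : ∀ i, eval p (f i) = 0) (hind : LinearIndependent k (fun i => grad p (f i))) (j : ℕ) :
    (germChain p f j).IsPrime := by
  apply germ_isPrime
  · intro i; exact hf _
  · exact hind.comp _ (Fin.castLE_injective _)

theorem germChain_mono {c : ℕ} (p : σ → k) (f : Fin c → MvPolynomial σ k) {i j : ℕ} (h : i ≤ j) :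
    germChain p f i ≤ germChain p f j := by
  apply germ_mono
  rintro _ ⟨m, rfl⟩
  refine ⟨⟨m.1, lt_of_lt_of_le m.2 (min_le_min_right _ h)⟩, ?_⟩
  rfl

theorem mem_germChain_succ {c : ℕ} (p : σ → k) (f : Fin c → MvPolynomial σ k) (j : Fin c) :
    f j ∈ germChain p f (j.1 + 1) := by
  have hj : j.1 < min (j.1 + 1) c := by have := j.2; omega
  exact f_mem_germ p (fun i : Fin (min (j.1 + 1) c) => f (Fin.castLE (min_le_right _ _) i)) ⟨j.1, hj⟩

theorem notMem_germChain {c : ℕ} {p : σ → k} {f : Fin c → MvPolynomial σ k}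
    (hf : ∀ i, eval p (f i) = 0) (hind : LinearIndependent k (fun i => grad p (f i)))
    (j : Fin c) : f j ∉ germChain p f j.1 := by
  intro hmem
  have h1 := grad_mem_of_mem_germ (f := fun i : Fin (min j.1 c) =>
    f (Fin.castLE (min_le_right _ _) i)) (fun i => hf _) hmem
  have h2 := hind.notMem_span_image (s := {i : Fin c | i.1 < j.1}) (x := j) (by simp)
  apply h2
  refine Submodule.span_mono ?_ h1
  rintro _ ⟨m, rfl⟩
  refine ⟨Fin.castLE (min_le_right _ _) m, ?_, rfl⟩
  have := m.2
  simp only [Set.mem_ofPred_eq, Fin.val_castLE]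
  omega

theorem germChain_zero {c : ℕ} (p : σ → k) (f : Fin c → MvPolynomial σ k) :
    germChain p f 0 = ⊥ := by
  have hp : (germChain p f 0) = RingHom.ker (AlgHom.id k (MvPolynomial σ k)) := by
    unfold germChain
    have hf' : ∀ i : Fin (min 0 c), eval p ((fun i : Fin (min 0 c) => f (Fin.castLE (min_le_right _ _) i)) i) = 0 := by
      intro i; exact absurd i.2 (by simp)
    have hind' : LinearIndependent k (fun i : Fin (min 0 c) =>
        grad p ((fun i : Fin (min 0 c) => f (Fin.castLE (min_le_right _ _) i)) i)) := by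
      have : IsEmpty (Fin (min 0 c)) := ⟨fun i => absurd i.2 (by simp)⟩
      exact linearIndependent_empty_type
    ext F
    rw [mem_germ]
    constructor
    · intro h
      -- F ∈ mx^n for all n
      have h1 : ∀ n, F ∈ (mx p) ^ n := by
        intro n
        have h2 := h n
        unfold J at h2
        have h3 : Ideal.span (Set.range (fun i : Fin (min 0 c) =>
            f (Fin.castLE (min_le_right _ _) i))) = ⊥ := by
          rw [Ideal.span_eq_bot]
          rintro _ ⟨i, rfl⟩
          exact absurd i.2 (by simp)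
        rw [h3, bot_sup_eq] at h2
        exact h2
      let b : Module.Basis σ k (σ → k) := Pi.basisFun k σ
      have h4 : ∀ n, thC p b F ∈ (idealOfVars σ k) ^ n := by
        intro n
        rw [← thC_map_mx p b, ← Ideal.map_pow]
        exact Ideal.mem_map_of_mem _ (h1 n)
      have h5 : thC p b F = 0 := by
        ext d
        rw [coeff_zero]
        exact (mem_pow_idealOfVars_iff' _ _).1 (h4 (d.degree + 1)) d (Nat.lt_succ_self _)
      have h6 : F = 0 := by
        have := congrArg (thC p b).symm h5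
        simpa using this
      rw [h6]; simp
    · intro h n
      have : F = 0 := h
      rw [this]; exact Ideal.zero_mem _
  rw [hp]
  ext F
  simp [RingHom.mem_ker]

end Vale.Agent.P054.T2.H930
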