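import Vale.Agent.P054.T2.H930.GermMap

/-!
# Block systems: independence of the gradients of combined systems; germs of the pieces inside
-/

set_option autoImplicit false
set_option linter.unusedSectionVars false

open MvPolynomial

namespace Vale.Agent.P054.T2.H930

variable {k : Type*} [Field k]

/-- block-triangular independence -/
theorem linInd_append {A B : Type*} {m n : ℕ} (v : Fin (m + n) → (A ⊕ B → k))
    (h0 : ∀ i : Fin m, ∀ b, v (Fin.castAdd n i) (Sum.inr b) = 0)
    (h1 : LinearIndependent k (fun i : Fin m => fun a => v (Fin.castAdd n i) (Sum.inl a)))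
    (h2 : LinearIndependent k (fun i : Fin n => fun b => v (Fin.natAdd m i) (Sum.inr b))) :
    LinearIndependent k v := by
  rw [Fintype.linearIndependent_iff] at *
  intro g hg
  have hsum : ∀ x, ∑ i : Fin m, g (Fin.castAdd n i) * v (Fin.castAdd n i) x
      + ∑ i : Fin n, g (Fin.natAdd m i) * v (Fin.natAdd m i) x = 0 := by
    intro x
    have := congrFun hg x
    rw [Finset.sum_apply, Fin.sum_univ_add] at this
    simpa using this
  have e2 : ∀ i : Fin n, g (Fin.natAdd m i) = 0 := by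
    apply h2
    funext b
    have := hsum (Sum.inr b)
    rw [Finset.sum_eq_zero (fun i _ => by rw [h0 i b, mul_zero]), zero_add] at this
    rw [Finset.sum_apply]
    simpa using this
  have e1 : ∀ i : Fin m, g (Fin.castAdd n i) = 0 := by
    apply h1
    funext a
    have := hsum (Sum.inl a)
    rw [Finset.sum_eq_zero (s := (Finset.univ : Finset (Fin n))) (fun i _ => by rw [e2 i, zero_mul]),
      add_zero] at this
    rw [Finset.sum_apply]
    simpa using this
  intro i
  refine Fin.addCases e1 e2 i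

variable {A B C' : Type*} [Fintype A] [DecidableEq A] [Fintype B] [DecidableEq B] [Fintype C']
  [DecidableEq C']

theorem grad_rename_inl (p : A ⊕ B → k) (f : MvPolynomial A k) :
    grad p (rename Sum.inl f) = Sum.elim (grad (p ∘ Sum.inl) f) (fun _ => 0) := by
  funext x
  rcases x with a | b
  · simp only [grad, Sum.elim_inl]
    rw [pderiv_rename Sum.inl_injective, eval_rename]
  · simp only [grad, Sum.elim_inr]
    rw [pderiv_eq_zero_of_notMem_vars, map_zero]
    intro hmem
    have := vars_rename Sum.inl f hmem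
    rw [Finset.mem_image] at this
    obtain ⟨y, _, hy⟩ := this
    exact absurd hy (by simp)

/-- two blocks: equations in `a` with independent gradients, then equations whose `b`-gradients are
independent. -/
theorem grad_block_linInd {m n : ℕ} (p : A ⊕ B → k) (F : Fin (m + n) → MvPolynomial (A ⊕ B) k)
    (f : Fin m → MvPolynomial A k) (hF : ∀ i, F (Fin.castAdd n i) = rename Sum.inl (f i))
    (hf : LinearIndependent k (fun i => grad (p ∘ Sum.inl) (f i)))
    (hh : LinearIndependent k (fun i : Fin n => fun b =>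
      eval p (pderiv (Sum.inr b) (F (Fin.natAdd m i))))) :
    LinearIndependent k (fun i => grad p (F i)) := by
  refine linInd_append _ ?_ ?_ hh
  · intro i b
    rw [hF, grad_rename_inl, Sum.elim_inr]
  · have : (fun i : Fin m => fun a => grad p (F (Fin.castAdd n i)) (Sum.inl a))
        = fun i => grad (p ∘ Sum.inl) (f i) := by
      funext i a
      rw [hF, grad_rename_inl, Sum.elim_inl]
    rw [this]
    exact hf

/-- the germ of the first block is contained in the germ of the whole system -/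
theorem germ_block_le {m n : ℕ} (p : A ⊕ B → k) (F : Fin (m + n) → MvPolynomial (A ⊕ B) k)
    (f : Fin m → MvPolynomial A k) (hF : ∀ i, F (Fin.castAdd n i) = rename Sum.inl (f i)) :
    germ (p ∘ Sum.inl) f ≤ (germ p F).comap (rename Sum.inl) :=
  germ_le_comap_rename' Sum.inl p (fun i => ⟨Fin.castAdd n i, (hF i).symm⟩)

/-- the system of `Z⁺` : `f` (in `g`), then the vertical equations of `hat X₁` (in `(g,s)`), then
those of `hat X₂` (in `(g,r)`). -/
noncomputable def sysZ {c₀ c₁ c₂ : ℕ} (f : Fin c₀ → MvPolynomial A k)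
    (h : Fin c₁ → MvPolynomial (A ⊕ B) k) (h' : Fin c₂ → MvPolynomial (A ⊕ C') k) :
    Fin (c₀ + (c₁ + c₂)) → MvPolynomial (A ⊕ (B ⊕ C')) k :=
  Fin.append (fun i => rename Sum.inl (f i))
    (Fin.append (fun i => rename (Sum.map id Sum.inl) (h i))
      (fun i => rename (Sum.map id Sum.inr) (h' i)))

omit [Fintype A] [DecidableEq A] [Fintype B] [DecidableEq B] [Fintype C'] [DecidableEq C'] in
theorem sysZ_cases {c₀ c₁ c₂ : ℕ} (f : Fin c₀ → MvPolynomial A k)
    (h : Fin c₁ → MvPolynomial (A ⊕ B) k) (h' : Fin c₂ → MvPolynomial (A ⊕ C') k)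
    (i : Fin (c₀ + (c₁ + c₂))) :
    (∃ j, sysZ f h h' i = rename Sum.inl (f j)) ∨
    (∃ j, sysZ f h h' i = rename (Sum.map id Sum.inl) (h j)) ∨
      ∃ j, sysZ f h h' i = rename (Sum.map id Sum.inr) (h' j) := by
  refine Fin.addCases (fun i => Or.inl ⟨i, ?_⟩) (fun i => ?_) i
  · simp [sysZ]
  · refine Fin.addCases (fun i => Or.inr (Or.inl ⟨i, ?_⟩)) (fun i => Or.inr (Or.inr ⟨i, ?_⟩)) i
    · simp [sysZ]
    · simp [sysZ]

omit [Fintype A] [DecidableEq A] [Fintype B] [DecidableEq B] [Fintype C'] [DecidableEq C'] in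
theorem sysZ_f {c₀ c₁ c₂ : ℕ} (f : Fin c₀ → MvPolynomial A k)
    (h : Fin c₁ → MvPolynomial (A ⊕ B) k) (h' : Fin c₂ → MvPolynomial (A ⊕ C') k) (j : Fin c₀) :
    sysZ f h h' (Fin.castAdd _ j) = rename Sum.inl (f j) := by simp [sysZ]

omit [Fintype A] [DecidableEq A] [Fintype B] [DecidableEq B] [Fintype C'] [DecidableEq C'] in
theorem sysZ_h {c₀ c₁ c₂ : ℕ} (f : Fin c₀ → MvPolynomial A k)
    (h : Fin c₁ → MvPolynomial (A ⊕ B) k) (h' : Fin c₂ → MvPolynomial (A ⊕ C') k) (j : Fin c₁) :
    sysZ f h h' (Fin.natAdd _ (Fin.castAdd _ j)) = rename (Sum.map id Sum.inl) (h j) := by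
  simp [sysZ]

omit [Fintype A] [DecidableEq A] [Fintype B] [DecidableEq B] [Fintype C'] [DecidableEq C'] in
theorem sysZ_h' {c₀ c₁ c₂ : ℕ} (f : Fin c₀ → MvPolynomial A k)
    (h : Fin c₁ → MvPolynomial (A ⊕ B) k) (h' : Fin c₂ → MvPolynomial (A ⊕ C') k) (j : Fin c₂) :
    sysZ f h h' (Fin.natAdd _ (Fin.natAdd _ j)) = rename (Sum.map id Sum.inr) (h' j) := by
  simp [sysZ]

theorem pderiv_rename_notMem {X Y : Type*} (jj : X → Y) (G : MvPolynomial X k) (y : Y)
    (hy : y ∉ Set.range jj) : pderiv y (rename jj G) = 0 := by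
  classical
  apply pderiv_eq_zero_of_notMem_vars
  intro hmem
  have := vars_rename jj G hmem
  rw [Finset.mem_image] at this
  obtain ⟨x, _, hx⟩ := this
  exact hy ⟨x, hx⟩

/-- zeros and independent gradients of the system of `Z⁺` -/
theorem sysZ_eval {c₀ c₁ c₂ : ℕ} (f : Fin c₀ → MvPolynomial A k)
    (h : Fin c₁ → MvPolynomial (A ⊕ B) k) (h' : Fin c₂ → MvPolynomial (A ⊕ C') k)
    (p : A ⊕ (B ⊕ C') → k) (hf : ∀ i, eval (p ∘ Sum.inl) (f i) = 0)
    (hh : ∀ i, eval (p ∘ Sum.map id Sum.inl) (h i) = 0)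
    (hh' : ∀ i, eval (p ∘ Sum.map id Sum.inr) (h' i) = 0) (i : Fin (c₀ + (c₁ + c₂))) :
    eval p (sysZ f h h' i) = 0 := by
  rcases sysZ_cases f h h' i with ⟨j, hj⟩ | ⟨j, hj⟩ | ⟨j, hj⟩
  · rw [hj, eval_rename]; exact hf j
  · rw [hj, eval_rename]; exact hh j
  · rw [hj, eval_rename]; exact hh' j

theorem sysZ_linInd {c₀ c₁ c₂ : ℕ} (f : Fin c₀ → MvPolynomial A k)
    (h : Fin c₁ → MvPolynomial (A ⊕ B) k) (h' : Fin c₂ → MvPolynomial (A ⊕ C') k)
    (p : A ⊕ (B ⊕ C') → k)
    (hf : LinearIndependent k (fun i => grad (p ∘ Sum.inl) (f i)))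
    (hh : LinearIndependent k (fun i => fun b =>
      eval (p ∘ Sum.map id Sum.inl) (pderiv (Sum.inr b) (h i))))
    (hh' : LinearIndependent k (fun i => fun b =>
      eval (p ∘ Sum.map id Sum.inr) (pderiv (Sum.inr b) (h' i)))) :
    LinearIndependent k (fun i => grad p (sysZ f h h' i)) := by
  have injl : Function.Injective (Sum.map id Sum.inl : A ⊕ B → A ⊕ (B ⊕ C')) :=
    Function.Injective.sumMap Function.injective_id Sum.inl_injective
  have injr : Function.Injective (Sum.map id Sum.inr : A ⊕ C' → A ⊕ (B ⊕ C')) :=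
    Function.Injective.sumMap Function.injective_id Sum.inr_injective
  refine grad_block_linInd p (sysZ f h h') f (fun i => sysZ_f f h h' i) hf ?_
  refine linInd_append (A := B) (B := C') _ ?_ ?_ ?_
  · intro i b
    rw [sysZ_h, pderiv_rename_notMem, map_zero]
    rintro ⟨x, hx⟩
    rcases x with x | x <;> simp at hx
  · have : (fun i : Fin c₁ => fun b => eval p (pderiv (Sum.inr (Sum.inl b))
        (sysZ f h h' (Fin.natAdd c₀ (Fin.castAdd c₂ i)))))
        = fun i => fun b => eval (p ∘ Sum.map id Sum.inl) (pderiv (Sum.inr b) (h i)) := by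
      funext i b
      rw [sysZ_h]
      have := pderiv_rename injl (Sum.inr b) (h i)
      have e : (Sum.map id Sum.inl (Sum.inr b) : A ⊕ (B ⊕ C')) = Sum.inr (Sum.inl b) := rfl
      rw [e] at this
      rw [this, eval_rename]
    rw [this]
    exact hh
  · have : (fun i : Fin c₂ => fun b => eval p (pderiv (Sum.inr (Sum.inr b))
        (sysZ f h h' (Fin.natAdd c₀ (Fin.natAdd c₁ i)))))
        = fun i => fun b => eval (p ∘ Sum.map id Sum.inr) (pderiv (Sum.inr b) (h' i)) := by
      funext i b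
      rw [sysZ_h']
      have := pderiv_rename injr (Sum.inr b) (h' i)
      have e : (Sum.map id Sum.inr (Sum.inr b) : A ⊕ (B ⊕ C')) = Sum.inr (Sum.inr b) := rfl
      rw [e] at this
      rw [this, eval_rename]
    rw [this]
    exact hh'

/-- the hat germs are contained in the germ of `Z⁺` -/
theorem germ_hat1_le {c₀ c₁ c₂ : ℕ} (f : Fin c₀ → MvPolynomial A k)
    (h : Fin c₁ → MvPolynomial (A ⊕ B) k) (h' : Fin c₂ → MvPolynomial (A ⊕ C') k)
    (p : A ⊕ (B ⊕ C') → k) :
    germ (p ∘ Sum.map id Sum.inl)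
      (Fin.append (fun i => rename Sum.inl (f i)) h : Fin (c₀ + c₁) → MvPolynomial (A ⊕ B) k)
      ≤ (germ p (sysZ f h h')).comap (rename (Sum.map id Sum.inl)) := by
  apply germ_le_comap_rename'
  intro i
  refine Fin.addCases (fun i => ?_) (fun i => ?_) i
  · refine ⟨Fin.castAdd _ i, ?_⟩
    rw [sysZ_f, Fin.append_left, rename_rename]
    rfl
  · refine ⟨Fin.natAdd _ (Fin.castAdd _ i), ?_⟩
    rw [sysZ_h, Fin.append_right]

theorem germ_hat2_le {c₀ c₁ c₂ : ℕ} (f : Fin c₀ → MvPolynomial A k)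
    (h : Fin c₁ → MvPolynomial (A ⊕ B) k) (h' : Fin c₂ → MvPolynomial (A ⊕ C') k)
    (p : A ⊕ (B ⊕ C') → k) :
    germ (p ∘ Sum.map id Sum.inr)
      (Fin.append (fun i => rename Sum.inl (f i)) h' : Fin (c₀ + c₂) → MvPolynomial (A ⊕ C') k)
      ≤ (germ p (sysZ f h h')).comap (rename (Sum.map id Sum.inr)) := by
  apply germ_le_comap_rename'
  intro i
  refine Fin.addCases (fun i => ?_) (fun i => ?_) i
  · refine ⟨Fin.castAdd _ i, ?_⟩
    rw [sysZ_f, Fin.append_left, rename_rename]
    rfl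
  · refine ⟨Fin.natAdd _ (Fin.natAdd _ i), ?_⟩
    rw [sysZ_h', Fin.append_right]

end Vale.Agent.P054.T2.H930
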