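import Vale.Agent.P054.T2.H930.Jets

/-!
# [RENG] germ ideals under algebra maps (renaming, substitution of constants, restriction to leaves)
-/

set_option autoImplicit false
set_option linter.unusedSectionVars false

open MvPolynomial

namespace Vale.Agent.P054.T2.H930

variable {k : Type*} [Field k] {σ τ : Type*} [Fintype σ] [DecidableEq σ] [Fintype τ]
  [DecidableEq τ]

omit [Fintype σ] [DecidableEq σ] [Fintype τ] [DecidableEq τ] in
theorem mx_pow_le_comap (ψ : MvPolynomial σ k →ₐ[k] MvPolynomial τ k) {p : σ → k} {q : τ → k}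
    (hev : ∀ G, eval q (ψ G) = eval p G) (n : ℕ) :
    (mx p) ^ n ≤ ((mx q) ^ n).comap ψ := by
  have h1 : mx p ≤ (mx q).comap ψ := by
    intro G hG
    rw [Ideal.mem_comap, mem_mx, hev]
    exact hG
  exact (Ideal.pow_right_mono h1 n).trans (Ideal.le_comap_pow ψ n)

/-- **germ ideals are functorial**: if `ψ` maps the point `q` to the point `p` and the system `F` into
the germ ideal of `F'` at `q`, then it maps the germ ideal of `F` at `p` into that of `F'` at `q`. -/
theorem germ_le_comap {c c' : ℕ} (ψ : MvPolynomial σ k →ₐ[k] MvPolynomial τ k) {p : σ → k}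
    {q : τ → k} (hev : ∀ G, eval q (ψ G) = eval p G) {F : Fin c → MvPolynomial σ k}
    {F' : Fin c' → MvPolynomial τ k} (hF : ∀ i, ψ (F i) ∈ germ q F') :
    germ p F ≤ (germ q F').comap ψ := by
  intro G hG
  rw [Ideal.mem_comap, mem_germ]
  intro n
  obtain ⟨a, ha, r, hr, rfl⟩ := Submodule.mem_sup.1 (germ_le_J p F n hG)
  rw [map_add]
  refine Ideal.add_mem _ ?_ ?_
  · have h1 : Ideal.span (Set.range F) ≤ (J q F' n).comap ψ := by
      rw [Ideal.span_le]
      rintro _ ⟨i, rfl⟩
      exact germ_le_J q F' n (hF i)
    exact h1 ha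
  · exact pow_le_J q F' n (mx_pow_le_comap ψ hev n hr)

theorem J_le_comap {c c' : ℕ} (ψ : MvPolynomial σ k →ₐ[k] MvPolynomial τ k) {p : σ → k}
    {q : τ → k} (hev : ∀ G, eval q (ψ G) = eval p G) {F : Fin c → MvPolynomial σ k}
    {F' : Fin c' → MvPolynomial τ k} (n : ℕ) (hF : ∀ i, ψ (F i) ∈ J q F' n) :
    J p F n ≤ (J q F' n).comap ψ := by
  intro G hG
  obtain ⟨a, ha, r, hr, rfl⟩ := Submodule.mem_sup.1 hG
  rw [Ideal.mem_comap, map_add]
  refine Ideal.add_mem _ ?_ ?_
  · have h1 : Ideal.span (Set.range F) ≤ (J q F' n).comap ψ := by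
      rw [Ideal.span_le]
      rintro _ ⟨i, rfl⟩
      exact hF i
    exact h1 ha
  · exact pow_le_J q F' n (mx_pow_le_comap ψ hev n hr)

/-- renaming: the germ of a subsystem in fewer variables is contained in the germ -/
theorem germ_le_comap_rename {c c' : ℕ} (j : σ → τ) (q : τ → k) {F : Fin c → MvPolynomial σ k}
    {F' : Fin c' → MvPolynomial τ k} (hF : ∀ i, rename j (F i) ∈ germ q F') :
    germ (q ∘ j) F ≤ (germ q F').comap (rename j) :=
  germ_le_comap (rename j) (fun G => by rw [eval_rename]) hF

theorem germ_le_comap_rename' {c c' : ℕ} (j : σ → τ) (q : τ → k) {F : Fin c → MvPolynomial σ k}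
    {F' : Fin c' → MvPolynomial τ k} (hF : ∀ i, ∃ i', rename j (F i) = F' i') :
    germ (q ∘ j) F ≤ (germ q F').comap (rename j) :=
  germ_le_comap_rename j q (fun i => by
    obtain ⟨i', hi'⟩ := hF i
    rw [hi']
    exact f_mem_germ q F' i')

/-- the germ ideal depends only on the ideal generated, locally: if the two systems are contained in
each other's germ ideals the germ ideals agree -/
theorem germ_eq_of_mem {c c' : ℕ} {p : σ → k} {F : Fin c → MvPolynomial σ k}
    {F' : Fin c' → MvPolynomial σ k} (h : ∀ i, F i ∈ germ p F') (h' : ∀ i, F' i ∈ germ p F) :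
    germ p F = germ p F' :=
  le_antisymm (germ_le_comap (AlgHom.id k _) (fun _ => rfl) h)
    (germ_le_comap (AlgHom.id k _) (fun _ => rfl) h')

theorem germ_le_of_mem {c c' : ℕ} {p : σ → k} {F : Fin c → MvPolynomial σ k}
    {F' : Fin c' → MvPolynomial σ k} (h : ∀ i, F i ∈ germ p F') : germ p F ≤ germ p F' :=
  germ_le_comap (AlgHom.id k _) (fun _ => rfl) h

/-- a germ of the same codimension contained in another one is equal to it: the systems `F`, `F'`
have the same number of equations, both with independent gradients, and `F` vanishes on the germ of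
`F'`. -/
theorem germ_eq_of_le {c : ℕ} {p : σ → k} {F F' : Fin c → MvPolynomial σ k}
    (hF0 : ∀ i, eval p (F i) = 0) (hF0' : ∀ i, eval p (F' i) = 0)
    (hind : LinearIndependent k (fun i => grad p (F i)))
    (hind' : LinearIndependent k (fun i => grad p (F' i)))
    (h : ∀ i, F i ∈ germ p F') : germ p F = germ p F' := by
  have hJ : ∀ n, J p F n = J p F' n := by
    intro n
    have hle : J p F n ≤ J p F' n :=
      J_le_comap (AlgHom.id k _) (fun _ => rfl) n (fun i => germ_le_J p F' n (h i))
    rcases n with _ | n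
    · rw [J_zero, J_zero]
    · -- equality of dimensions of the quotients
      have h1 := finrank_quot_J p F hF0 hind n
      have h2 := finrank_quot_J p F' hF0' hind' n
      have := finite_quot_J p F hF0 hind (n + 1)
      have := finite_quot_J p F' hF0' hind' (n + 1)
      let T : (MvPolynomial σ k ⧸ J p F (n + 1)) →ₐ[k] (MvPolynomial σ k ⧸ J p F' (n + 1)) :=
        Ideal.Quotient.factorₐ k hle
      have hsurj : Function.Surjective T := Ideal.Quotient.factor_surjective hle
      have hinj : Function.Injective T := by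
        have := (LinearMap.injective_iff_surjective_of_finrank_eq_finrank (f := T.toLinearMap)
          (by rw [h1, h2])).2 hsurj
        exact this
      refine le_antisymm hle (fun G hG => ?_)
      have h3 : T (Ideal.Quotient.mk _ G) = T 0 := by
        rw [map_zero]
        exact Ideal.Quotient.eq_zero_iff_mem.2 hG
      exact Ideal.Quotient.eq_zero_iff_mem.1 (hinj h3)
  unfold germ
  exact iInf_congr hJ

end Vale.Agent.P054.T2.H930
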