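import Vale.Agent.P054.T2.H930.TanMain
import Vale.Agent.P054.T2.H930.Block

/-!
# [GLUE-B1] one good edge: germ of `Z⁺`, its local coordinates and the splitting of the derivations

`ZData` = what section A delivers for one family of edges (`E1 ⊆ E0`): the common systems
`f` (of `X`, in `g`), `h` (vertical equations of `hat X₁`), `h'` (vertical equations of `hat X₂`),
ranks, GOOD for both hats and the tangent data of the leaves.  Everything else is proved here.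
-/

set_option autoImplicit false
set_option linter.unusedSectionVars false

open MvPolynomial Module

namespace Vale.Agent.P054.T2.H930

open Vale.Agent.P054.T2.H686 Vale.Agent.P054.T2.H580

variable {k : Type*} [Field k] {n : ℕ}

theorem constantCoeff_of_J {σ : Type*} [Fintype σ] [DecidableEq σ] {c e : ℕ} {p : σ → k}
    {F : Fin c → MvPolynomial σ k} (hF : ∀ i, eval p (F i) = 0)
    (φ : MvPolynomial σ k →ₐ[k] MvPowerSeries (Fin e) k)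
    (h : ∀ n G, φ G ∈ (ordI n : Ideal (MvPowerSeries (Fin e) k)) ↔ G ∈ J p F n)
    (G : MvPolynomial σ k) : MvPowerSeries.constantCoeff (φ G) = eval p G := by
  have h1 : G - C (eval p G) ∈ J p F 1 := by
    rw [J_one p F hF, mem_mx]; simp
  rw [← h 1] at h1
  have h2 := mem_ordI'.1 h1 0 (by simp)
  rw [map_sub, map_sub] at h2
  have h3 : φ (C (eval p G)) = algebraMap k _ (eval p G) := by
    rw [← MvPolynomial.algebraMap_eq]; exact φ.commutes _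
  rw [h3] at h2
  have h4 : MvPowerSeries.coeff (0 : Fin e →₀ ℕ)
      (algebraMap k (MvPowerSeries (Fin e) k) (eval p G)) = eval p G := by
    rw [MvPowerSeries.algebraMap_apply]
    simp
  rw [h4, sub_eq_zero] at h2
  rw [← h2]
  simp

/-- zeros of the system of `Z⁺` at an edge -/
theorem edge_eval {c₀ c₁ c₂ : ℕ} (f : Fin c₀ → MvPolynomial (Crd n) k)
    (h : Fin c₁ → MvPolynomial (Crd n ⊕ Pt n) k) (h' : Fin c₂ → MvPolynomial (Crd n ⊕ Pt n) k)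
    (s r : (Fin (n + 1) → k) × (Fin (n + 1) → k)) (h0 : s.1 0 ≠ r.1 0) (hq : Qf (s - r) = 0)
    (hf : ∀ i, eval (meet s r) (f i) = 0)
    (hh : ∀ i, eval (hatPt s (mu s r)) (h i) = 0)
    (hh' : ∀ i, eval (hatPt r (mu r s)) (h' i) = 0) (i : Fin (c₀ + (c₁ + c₂))) :
    eval (edgePt s r) (sysZ f h h' i) = 0 := by
  refine sysZ_eval f h h' (edgePt s r) ?_ ?_ ?_ i
  · exact hf
  · intro i
    have := hh i
    rw [← edgePt_comp_j1 s r] at this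
    exact this
  · intro i
    have := hh' i
    rw [← edgePt_comp_j2 h0 hq] at this
    exact this

/-- independence of the gradients of the system of `Z⁺` at an edge -/
theorem edge_linInd {c₀ c₁ c₂ : ℕ} (f : Fin c₀ → MvPolynomial (Crd n) k)
    (h : Fin c₁ → MvPolynomial (Crd n ⊕ Pt n) k) (h' : Fin c₂ → MvPolynomial (Crd n ⊕ Pt n) k)
    (s r : (Fin (n + 1) → k) × (Fin (n + 1) → k)) (h0 : s.1 0 ≠ r.1 0) (hq : Qf (s - r) = 0)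
    (hf : LinearIndependent k (fun i => grad (meet s r) (f i)))
    (hh : LinearIndependent k (fun i => fun b =>
      eval (hatPt s (mu s r)) (pderiv (Sum.inr b) (h i))))
    (hh' : LinearIndependent k (fun i => fun b =>
      eval (hatPt r (mu r s)) (pderiv (Sum.inr b) (h' i)))) :
    LinearIndependent k (fun i => grad (edgePt s r) (sysZ f h h' i)) := by
  refine sysZ_linInd f h h' (edgePt s r) ?_ ?_ ?_
  · exact hf
  · have := hh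
    rw [← edgePt_comp_j1 s r] at this
    exact this
  · have := hh'
    rw [← edgePt_comp_j2 h0 hq] at this
    exact this

theorem edge_hat1_le {c₀ c₁ c₂ : ℕ} (f : Fin c₀ → MvPolynomial (Crd n) k)
    (h : Fin c₁ → MvPolynomial (Crd n ⊕ Pt n) k) (h' : Fin c₂ → MvPolynomial (Crd n ⊕ Pt n) k)
    (s r : (Fin (n + 1) → k) × (Fin (n + 1) → k)) (P : MvPolynomial (Crd n ⊕ Pt n) k)
    (hP : P ∈ germ (hatPt s (mu s r)) (Fin.append (fun i => rename Sum.inl (f i)) h)) :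
    rename (j1 n) P ∈ germ (edgePt s r) (sysZ f h h') := by
  rw [← edgePt_comp_j1 s r] at hP
  exact germ_hat1_le f h h' (edgePt s r) hP

theorem edge_hat2_le {c₀ c₁ c₂ : ℕ} (f : Fin c₀ → MvPolynomial (Crd n) k)
    (h : Fin c₁ → MvPolynomial (Crd n ⊕ Pt n) k) (h' : Fin c₂ → MvPolynomial (Crd n ⊕ Pt n) k)
    (s r : (Fin (n + 1) → k) × (Fin (n + 1) → k)) (h0 : s.1 0 ≠ r.1 0) (hq : Qf (s - r) = 0)
    (P : MvPolynomial (Crd n ⊕ Pt n) k)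
    (hP : P ∈ germ (hatPt r (mu r s)) (Fin.append (fun i => rename Sum.inl (f i)) h')) :
    rename (j2 n) P ∈ germ (edgePt s r) (sysZ f h h') := by
  rw [← edgePt_comp_j2 h0 hq] at hP
  exact germ_hat2_le f h h' (edgePt s r) hP

/-- The output of section A: `E0` all edges (systems vanish there), `E1 ⊆ E0` the edges where the
leaf ranks are exact, `E2 ⊆ E1` the edges at which GOOD holds relatively to the points of `E1`. -/
structure ZData (k : Type*) [Field k] (n : ℕ)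
    (E0 E1 E2 : Finset (((Fin (n + 1) → k) × (Fin (n + 1) → k)) ×
      ((Fin (n + 1) → k) × (Fin (n + 1) → k))))
    (wt : Crd n ⊕ Pt n → ℕ) (N c₀ c₁ c₂ σ₁ σ₂ : ℕ) where
  adj : ∀ e ∈ E0, e.1.1 0 ≠ e.2.1 0 ∧ Qf (e.1 - e.2) = 0
  sub : E1 ⊆ E0
  sub' : E2 ⊆ E1
  wt_pos : ∀ x, 1 ≤ wt (Sum.inl x)
  wt_le : ∀ x, wt x ≤ N
  leaf₁ : ∀ e ∈ E1, ∃ W : Submodule k (Fin n → k), σ₁ ≤ finrank k W ∧
      ∀ G : MvPolynomial (Fin n) k, G.totalDegree ≤ N →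
        (∀ e' ∈ E0, e'.1 = e.1 → eval (mu e'.1 e'.2) G = 0) →
        ∀ w ∈ W, ∑ i, w i * eval (mu e.1 e.2) (pderiv i G) = 0
  leaf₂ : ∀ e ∈ E1, ∃ W : Submodule k (Fin n → k), σ₂ ≤ finrank k W ∧
      ∀ G : MvPolynomial (Fin n) k, G.totalDegree ≤ N →
        (∀ e' ∈ E0, e'.2 = e.2 → eval (mu e'.1 e'.2) G = 0) →
        ∀ w ∈ W, ∑ i, w i * eval (mu e.1 e.2) (pderiv i G) = 0
  f : Fin c₀ → MvPolynomial (Crd n) k
  h : Fin c₁ → MvPolynomial (Crd n ⊕ Pt n) k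
  h' : Fin c₂ → MvPolynomial (Crd n ⊕ Pt n) k
  f_mem : ∀ i, rename Sum.inl (f i) ∈ Vw k wt N
  h_mem : ∀ i, h i ∈ Vw k wt N
  h'_mem : ∀ i, h' i ∈ Vw k wt N
  f_zero : ∀ i, ∀ e ∈ E0, eval (meet e.1 e.2) (f i) = 0
  h_zero : ∀ i, ∀ e ∈ E0, eval (hatPt e.1 (mu e.1 e.2)) (h i) = 0
  h'_zero : ∀ i, ∀ e ∈ E0, eval (hatPt e.2 (mu e.2 e.1)) (h' i) = 0
  f_ind : ∀ e ∈ E2, LinearIndependent k (fun i => grad (meet e.1 e.2) (f i))
  h_ind : ∀ e ∈ E2, LinearIndependent k (fun i => fun b =>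
      eval (hatPt e.1 (mu e.1 e.2)) (pderiv (Sum.inr b) (h i)))
  h'_ind : ∀ e ∈ E2, LinearIndependent k (fun i => fun b =>
      eval (hatPt e.2 (mu e.2 e.1)) (pderiv (Sum.inr b) (h' i)))
  good₁ : ∀ e ∈ E2, ∀ P ∈ Vw k wt ((2 * n + 2) * N + 2 * N),
      (∀ e' ∈ E1, eval (hatPt e'.1 (mu e'.1 e'.2)) P = 0) →
        P ∈ germ (hatPt e.1 (mu e.1 e.2)) (Fin.append (fun i => rename Sum.inl (f i)) h)
  good₂ : ∀ e ∈ E2, ∀ P ∈ Vw k wt ((2 * n + 2) * N + 2 * N),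
      (∀ e' ∈ E1, eval (hatPt e'.2 (mu e'.2 e'.1)) P = 0) →
        P ∈ germ (hatPt e.2 (mu e.2 e.1)) (Fin.append (fun i => rename Sum.inl (f i)) h')
  tight : 2 * n + 1 ≤ c₀ + (σ₁ + σ₂)
  le₁ : σ₁ ≤ 2 * n + 1
  le₂ : σ₂ ≤ 2 * n + 1

namespace ZData

variable {E0 E1 E2 : Finset (((Fin (n + 1) → k) × (Fin (n + 1) → k)) ×
      ((Fin (n + 1) → k) × (Fin (n + 1) → k)))}
    {wt : Crd n ⊕ Pt n → ℕ} {N c₀ c₁ c₂ σ₁ σ₂ : ℕ}

theorem mem0 (Z : ZData k n E0 E1 E2 wt N c₀ c₁ c₂ σ₁ σ₂) {e} (he : e ∈ E2) : e ∈ E0 :=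
  Z.sub (Z.sub' he)

/-- the system of `Z⁺` -/
noncomputable def F (Z : ZData k n E0 E1 E2 wt N c₀ c₁ c₂ σ₁ σ₂) :
    Fin (c₀ + (c₁ + c₂)) → MvPolynomial (Crd n ⊕ (Pt n ⊕ Pt n)) k := sysZ Z.f Z.h Z.h'

theorem F_zero (Z : ZData k n E0 E1 E2 wt N c₀ c₁ c₂ σ₁ σ₂) {e} (he : e ∈ E0) (i) :
    eval (edgePt e.1 e.2) (Z.F i) = 0 :=
  edge_eval Z.f Z.h Z.h' e.1 e.2 (Z.adj e he).1 (Z.adj e he).2 (fun i => Z.f_zero i e he)
    (fun i => Z.h_zero i e he) (fun i => Z.h'_zero i e he) i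

theorem F_ind (Z : ZData k n E0 E1 E2 wt N c₀ c₁ c₂ σ₁ σ₂) {e} (he : e ∈ E2) :
    LinearIndependent k (fun i => grad (edgePt e.1 e.2) (Z.F i)) :=
  edge_linInd Z.f Z.h Z.h' e.1 e.2 (Z.adj e (Z.mem0 he)).1 (Z.adj e (Z.mem0 he)).2 (Z.f_ind e he)
    (Z.h_ind e he) (Z.h'_ind e he)

theorem good1 (Z : ZData k n E0 E1 E2 wt N c₀ c₁ c₂ σ₁ σ₂) {e} (he : e ∈ E2)
    {P : MvPolynomial (Crd n ⊕ Pt n) k} (hP : P ∈ Vw k wt ((2 * n + 2) * N + 2 * N))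
    (hP0 : ∀ e' ∈ E1, eval (hatPt e'.1 (mu e'.1 e'.2)) P = 0) :
    rename (j1 n) P ∈ germ (edgePt e.1 e.2) Z.F :=
  edge_hat1_le Z.f Z.h Z.h' e.1 e.2 P (Z.good₁ e he P hP hP0)

theorem good2 (Z : ZData k n E0 E1 E2 wt N c₀ c₁ c₂ σ₁ σ₂) {e} (he : e ∈ E2)
    {P : MvPolynomial (Crd n ⊕ Pt n) k} (hP : P ∈ Vw k wt ((2 * n + 2) * N + 2 * N))
    (hP0 : ∀ e' ∈ E1, eval (hatPt e'.2 (mu e'.2 e'.1)) P = 0) :
    rename (j2 n) P ∈ germ (edgePt e.1 e.2) Z.F :=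
  edge_hat2_le Z.f Z.h Z.h' e.1 e.2 (Z.adj e (Z.mem0 he)).1 (Z.adj e (Z.mem0 he)).2 P
    (Z.good₂ e he P hP hP0)

theorem incP_mem (Z : ZData k n E0 E1 E2 wt N c₀ c₁ c₂ σ₁ σ₂) (i) :
    incP k n i ∈ Vw k wt ((2 * n + 2) * N + 2 * N) :=
  Vw_mono wt (by omega)
    (incP_mem_Vw wt (g := N) (t := N) (fun x => Z.wt_le _) (fun y => Z.wt_le _) i)

theorem inc1 (Z : ZData k n E0 E1 E2 wt N c₀ c₁ c₂ σ₁ σ₂) {e} (he : e ∈ E2) (i) :
    rename (j1 n) (incP k n i) ∈ germ (edgePt e.1 e.2) Z.F :=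
  Z.good1 he (Z.incP_mem i) (fun _ _ => eval_incP _ _ i)

theorem inc2 (Z : ZData k n E0 E1 E2 wt N c₀ c₁ c₂ σ₁ σ₂) {e} (he : e ∈ E2) (i) :
    rename (j2 n) (incP k n i) ∈ germ (edgePt e.1 e.2) Z.F :=
  Z.good2 he (Z.incP_mem i) (fun _ _ => eval_incP _ _ i)

/-- **the splitting at an edge**, for every germ map of the system of `Z⁺` -/
theorem split (Z : ZData k n E0 E1 E2 wt N c₀ c₁ c₂ σ₁ σ₂) {e₀} (he₀ : e₀ ∈ E2) {e : ℕ}
    (he : e + (c₀ + (c₁ + c₂)) = Fintype.card (Crd n ⊕ (Pt n ⊕ Pt n)))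
    (φ : MvPolynomial (Crd n ⊕ (Pt n ⊕ Pt n)) k →ₐ[k] MvPowerSeries (Fin e) k)
    (hJ : ∀ m G, φ G ∈ (ordI m : Ideal (MvPowerSeries (Fin e) k)) ↔
      G ∈ J (edgePt e₀.1 e₀.2) Z.F m)
    (a : Fin e → Crd n ⊕ (Pt n ⊕ Pt n) → k)
    (ha : ∀ l, φ (∑ j, C (a l j) * (MvPolynomial.X j - C (edgePt e₀.1 e₀.2 j)))
      = MvPowerSeries.X l)
    {L : Type*} [Field L] (ι : MvPowerSeries (Fin e) k →+* L) (hι : Function.Injective ι)
    (l : Fin e) :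
    ∃ α : Fin e → L,
      (∀ x : Pt n, ∑ m, α m * ι (MvPowerSeries.pderiv k m
        (φ (MvPolynomial.X (Sum.inr (Sum.inr x))))) = 0) ∧
      (∀ x : Pt n, ∑ m, α m * ι (MvPowerSeries.pderiv k m (φ (MvPolynomial.X (Sum.inr (Sum.inl x)))))
        = ι (MvPowerSeries.pderiv k l (φ (MvPolynomial.X (Sum.inr (Sum.inl x)))))) := by
  have hker := germ_eq_ker φ hJ
  have hmem : ∀ P, P ∈ germ (edgePt e₀.1 e₀.2) Z.F → φ P = 0 := by
    intro P hP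
    rw [hker] at hP
    exact hP
  have hcc := constantCoeff_of_J (fun i => Z.F_zero (Z.mem0 he₀) i) φ hJ
  refine split_at_edge E0 E1 Z.adj Z.sub wt Z.wt_pos Z.leaf₁ Z.leaf₂ Z.f Z.h Z.h' Z.f_mem Z.h_mem
    Z.h'_mem Z.f_zero Z.h_zero Z.h'_zero e₀.1 e₀.2 (Z.mem0 he₀)
    Z.F he ?_ (Z.F_ind he₀) φ hcc a ha
    (fun P hP hP0 => hmem _ (Z.good1 he₀ hP hP0)) (fun P hP hP0 => hmem _ (Z.good2 he₀ hP hP0))
    Z.wt_le (Z.f_ind e₀ he₀) Z.tight Z.le₁ Z.le₂ ι hι l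
  intro i
  rcases sysZ_cases Z.f Z.h Z.h' i with ⟨j, hj⟩ | ⟨j, hj⟩ | ⟨j, hj⟩
  · exact Or.inl ⟨j, hj⟩
  · exact Or.inr (Or.inl ⟨j, hj⟩)
  · exact Or.inr (Or.inr ⟨j, hj⟩)

/-- existence of the germ map at an edge of `E2` -/
theorem exists_germ (Z : ZData k n E0 E1 E2 wt N c₀ c₁ c₂ σ₁ σ₂) {e₀} (he₀ : e₀ ∈ E2) :
    ∃ e : ℕ, e + (c₀ + (c₁ + c₂)) = Fintype.card (Crd n ⊕ (Pt n ⊕ Pt n)) ∧
      ∃ (φ : MvPolynomial (Crd n ⊕ (Pt n ⊕ Pt n)) k →ₐ[k] MvPowerSeries (Fin e) k)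
        (a : Fin e → Crd n ⊕ (Pt n ⊕ Pt n) → k),
        (∀ l, φ (∑ j, C (a l j) * (MvPolynomial.X j - C (edgePt e₀.1 e₀.2 j)))
          = MvPowerSeries.X l) ∧
        (∀ i, φ (Z.F i) = 0) ∧
        (∀ m G, φ G ∈ (ordI m : Ideal (MvPowerSeries (Fin e) k)) ↔
          G ∈ J (edgePt e₀.1 e₀.2) Z.F m) ∧
        (∀ G, MvPowerSeries.constantCoeff (φ G) = eval (edgePt e₀.1 e₀.2) G) ∧
        (∀ P, P ∈ germ (edgePt e₀.1 e₀.2) Z.F ↔ φ P = 0) := by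
  obtain ⟨e, he, φ, a, ζ, h1, h2, h3, h4, h5⟩ :=
    H930.exists_germ (edgePt e₀.1 e₀.2) Z.F (fun i => Z.F_zero (Z.mem0 he₀) i) (Z.F_ind he₀)
  have hker := germ_eq_ker φ h4
  refine ⟨e, he, φ, a, ?_, h3, h4, constantCoeff_of_J (fun i => Z.F_zero (Z.mem0 he₀) i) φ h4, ?_⟩
  · intro l
    rw [← h1 l]
    have := h2 (MvPolynomial.X l)
    rw [aeval_X, MvPolynomial.coe_X] at this
    exact this
  · intro P
    rw [hker]; exact Iff.rfl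

end ZData

end Vale.Agent.P054.T2.H930
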