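import Vale.Agent.P054.T2.H930.Tan3
import Vale.Agent.P054.T2.H686.Leaf
import Vale.Agent.P054.T2.H580.Filt

/-!
# [TAN-INST]: (T1) and (T4) on the real coordinates `(u,b,z)`, `(ζ,θ)` of 686
-/

set_option autoImplicit false
set_option linter.unusedSectionVars false

open MvPolynomial Module

namespace Vale.Agent.P054.T2.H930

open Vale.Agent.P054.T2.H686 Vale.Agent.P054.T2.H580

/-- index type of the coordinates `(ζ, θ)` of a point of `Σ` -/
abbrev Pt (n : ℕ) := Fin (n + 1) ⊕ Fin (n + 1)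

variable {k : Type*} [Field k] {n : ℕ}

/-- coordinates of the point `s = (ζ, θ)` -/
def ptc (s : (Fin (n + 1) → k) × (Fin (n + 1) → k)) : Pt n → k := Sum.elim s.1 s.2

/-- the point `(g, s)` with `g` on the leaf of `s` at `u` -/
def hatPt (s : (Fin (n + 1) → k) × (Fin (n + 1) → k)) (u : Fin n → k) : Crd n ⊕ Pt n → k :=
  Sum.elim (leaf s u) (ptc s)

/-- the point `(g, s, r)` of an edge -/
noncomputable def edgePt (s r : (Fin (n + 1) → k) × (Fin (n + 1) → k)) :
    Crd n ⊕ (Pt n ⊕ Pt n) → k :=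
  Sum.elim (meet s r) (Sum.elim (ptc s) (ptc r))

/-- `(g, s) ↪ (g, s, r)` -/
def j1 (n : ℕ) : Crd n ⊕ Pt n → Crd n ⊕ (Pt n ⊕ Pt n) := Sum.map id Sum.inl

/-- `(g, r) ↪ (g, s, r)` -/
def j2 (n : ℕ) : Crd n ⊕ Pt n → Crd n ⊕ (Pt n ⊕ Pt n) := Sum.map id Sum.inr

theorem j1_injective (n : ℕ) : Function.Injective (j1 n) :=
  Function.Injective.sumMap Function.injective_id Sum.inl_injective

theorem j2_injective (n : ℕ) : Function.Injective (j2 n) :=
  Function.Injective.sumMap Function.injective_id Sum.inr_injective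

theorem edgePt_comp_j1 (s r : (Fin (n + 1) → k) × (Fin (n + 1) → k)) :
    edgePt s r ∘ j1 n = hatPt s (mu s r) := by
  funext x
  rcases x with x | x <;> rfl

theorem edgePt_comp_j2 {s r : (Fin (n + 1) → k) × (Fin (n + 1) → k)} (h0 : s.1 0 ≠ r.1 0)
    (hq : Qf (s - r) = 0) : edgePt s r ∘ j2 n = hatPt r (mu r s) := by
  funext x
  rcases x with x | x
  · change meet s r x = meet r s x
    rw [meet_comm h0 hq]
  · rfl

/-- the incidence polynomials of `(g, s)` -/
noncomputable def incP (k : Type*) [Field k] (n : ℕ) :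
    Fin n ⊕ Unit → MvPolynomial (Crd n ⊕ Pt n) k
  | Sum.inl i => X (Sum.inl (Sum.inr (Sum.inl i))) - X (Sum.inr (Sum.inl i.succ))
      + X (Sum.inr (Sum.inl 0)) * X (Sum.inl (Sum.inl i))
  | Sum.inr _ => X (Sum.inl (Sum.inr (Sum.inr ()))) + X (Sum.inr (Sum.inr 0))
      + ∑ i : Fin n, X (Sum.inr (Sum.inr i.succ)) * X (Sum.inl (Sum.inl i))

theorem eval_incP (s : (Fin (n + 1) → k) × (Fin (n + 1) → k)) (u : Fin n → k) (i : Fin n ⊕ Unit) :
    eval (hatPt s u) (incP k n i) = 0 := by
  rcases i with i | i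
  · simp only [incP, map_add, map_sub, map_mul, eval_X, hatPt, ptc, Sum.elim_inl, Sum.elim_inr,
      leaf]
    ring
  · simp only [incP, map_add, map_mul, eval_X, hatPt, ptc, Sum.elim_inl, Sum.elim_inr,
      leaf, map_sum]
    ring

theorem incP_mem_Vw (w : Crd n ⊕ Pt n → ℕ) {g t : ℕ} (hg : ∀ x, w (Sum.inl x) ≤ g)
    (ht : ∀ y, w (Sum.inr y) ≤ t) (i : Fin n ⊕ Unit) : incP k n i ∈ Vw k w (g + t) := by
  have hgX : ∀ x, (X (Sum.inl x) : MvPolynomial (Crd n ⊕ Pt n) k) ∈ Vw k w g :=
    fun x => Vw_mono w (hg x) (X_mem_Vw w _)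
  have htX : ∀ y, (X (Sum.inr y) : MvPolynomial (Crd n ⊕ Pt n) k) ∈ Vw k w t :=
    fun y => Vw_mono w (ht y) (X_mem_Vw w _)
  have hm : ∀ x y, (X (Sum.inr y) * X (Sum.inl x) : MvPolynomial (Crd n ⊕ Pt n) k)
      ∈ Vw k w (g + t) := by
    intro x y
    have := mul_mem_Vw w (htX y) (hgX x)
    rwa [add_comm] at this
  rcases i with i | i
  · exact Submodule.add_mem _ (Submodule.sub_mem _ (Vw_mono w (by omega) (hgX _))
      (Vw_mono w (by omega) (htX _))) (hm _ _)
  · exact Submodule.add_mem _ (Submodule.add_mem _ (Vw_mono w (by omega) (hgX _))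
      (Vw_mono w (by omega) (htX _))) (Submodule.sum_mem _ (fun i _ => hm _ _))

/-- transversality of two leaves, in the form used by `exists_split` -/
theorem inc_inj {L : Type*} [Field L] {e : ℕ}
    (φ : MvPolynomial (Crd n ⊕ (Pt n ⊕ Pt n)) k →ₐ[k] MvPowerSeries (Fin e) k)
    (ι : MvPowerSeries (Fin e) k →+* L)
    (h0 : ι (φ (X (Sum.inr (Sum.inl (Sum.inl 0))))) ≠ ι (φ (X (Sum.inr (Sum.inr (Sum.inl 0))))))
    (g : Crd n → L)
    (hg : ∀ i, ∑ x, cf φ ι ((Sum.elim (fun i => rename (j1 n) (incP k n i))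
      (fun i => rename (j2 n) (incP k n i)) :
        (Fin n ⊕ Unit) ⊕ (Fin n ⊕ Unit) → MvPolynomial (Crd n ⊕ (Pt n ⊕ Pt n)) k) i)
          (Sum.inl x) * g x = 0) : g = 0 := by
  classical
  have key : ∀ (j : Crd n ⊕ Pt n → Crd n ⊕ (Pt n ⊕ Pt n)) (jp : Pt n → Pt n ⊕ Pt n)
      (_ : ∀ x, j (Sum.inl x) = Sum.inl x) (_ : ∀ y, j (Sum.inr y) = Sum.inr (jp y)),
      (∀ i, ∑ x, cf φ ι (rename j (incP k n i)) (Sum.inl x) * g x = 0) →
      (∀ i : Fin n, g (Sum.inr (Sum.inl i))
        + ι (φ (X (Sum.inr (jp (Sum.inl 0))))) * g (Sum.inl i) = 0) ∧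
      (g (Sum.inr (Sum.inr ()))
        + ∑ i : Fin n, ι (φ (X (Sum.inr (jp (Sum.inr i.succ))))) * g (Sum.inl i) = 0) := by
    intro j jp hj1 hj2 hall
    refine ⟨fun i => ?_, ?_⟩
    · have h1 := hall (Sum.inl i)
      simp only [incP, map_add, map_sub, map_mul, rename_X, hj1, hj2, cf, pderiv_X,
        Derivation.leibniz, smul_eq_mul, Fintype.sum_sum_type, Finset.univ_unique,
        Finset.sum_singleton] at h1
      simp only [Pi.single_apply, Sum.inl.injEq, Sum.inr.injEq, reduceCtorEq, if_false,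
        map_zero, mul_zero, add_zero, sub_zero, zero_mul, zero_add] at h1
      have h2 : ∀ x : Fin n, ι (φ (X (Sum.inr (jp (Sum.inl 0))))) *
          ι (φ (if i = x then (1 : MvPolynomial (Crd n ⊕ (Pt n ⊕ Pt n)) k) else 0)) * g (Sum.inl x)
          = if i = x then ι (φ (X (Sum.inr (jp (Sum.inl 0))))) * g (Sum.inl x) else 0 := by
        intro x; by_cases h : i = x <;> simp [h]
      have h3 : ∀ x : Fin n,
          ι (φ (if i = x then (1 : MvPolynomial (Crd n ⊕ (Pt n ⊕ Pt n)) k) else 0))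
            * g (Sum.inr (Sum.inl x)) = if i = x then g (Sum.inr (Sum.inl x)) else 0 := by
        intro x; by_cases h : i = x <;> simp [h]
      rw [Finset.sum_congr rfl (fun x _ => h2 x), Finset.sum_congr rfl (fun x _ => h3 x),
        Finset.sum_ite_eq, Finset.sum_ite_eq] at h1
      simp only [Finset.mem_univ, if_true] at h1
      rw [add_comm]
      exact h1
    · have h1 := hall (Sum.inr ())
      simp only [incP, map_add, map_mul, map_sum, rename_X, hj1, hj2, cf, pderiv_X,
        Derivation.leibniz, smul_eq_mul, Fintype.sum_sum_type, Finset.univ_unique,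
        Finset.sum_singleton] at h1
      simp only [Pi.single_apply, Sum.inl.injEq, Sum.inr.injEq, reduceCtorEq, if_false,
        map_zero, mul_zero, add_zero, zero_mul, zero_add, Finset.sum_const_zero] at h1
      have h2 : ∀ x : Fin n, (∑ y : Fin n, ι (φ (X (Sum.inr (jp (Sum.inr y.succ))))) *
          ι (φ (if y = x then (1 : MvPolynomial (Crd n ⊕ (Pt n ⊕ Pt n)) k) else 0)))
            * g (Sum.inl x)
          = ι (φ (X (Sum.inr (jp (Sum.inr x.succ))))) * g (Sum.inl x) := by
        intro x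
        congr 1
        rw [Finset.sum_eq_single x]
        · simp
        · intro b _ hb; simp [hb]
        · intro h; exact absurd (Finset.mem_univ _) h
      rw [Finset.sum_congr rfl (fun x _ => h2 x)] at h1
      simp only [PUnit.default_eq_unit, if_true, map_one, one_mul] at h1
      rw [add_comm]
      exact h1
  obtain ⟨a1, a2⟩ := key (j1 n) Sum.inl (fun _ => rfl) (fun _ => rfl) (fun i => hg (Sum.inl i))
  obtain ⟨b1, b2⟩ := key (j2 n) Sum.inr (fun _ => rfl) (fun _ => rfl) (fun i => hg (Sum.inr i))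
  have hu : ∀ i : Fin n, g (Sum.inl i) = 0 := by
    intro i
    have h1 : (ι (φ (X (Sum.inr (Sum.inl (Sum.inl 0)))))
        - ι (φ (X (Sum.inr (Sum.inr (Sum.inl 0)))))) * g (Sum.inl i) = 0 := by
      linear_combination a1 i - b1 i
    rcases mul_eq_zero.1 h1 with h | h
    · exact absurd (sub_eq_zero.1 h) h0
    · exact h
  funext x
  rcases x with i | i | i
  · exact hu i
  · have := a1 i
    rw [hu i, mul_zero, add_zero] at this
    exact this
  · have h1 : ∑ i : Fin n, ι (φ (X (Sum.inr (Sum.inl (Sum.inr i.succ))))) * g (Sum.inl i) = 0 :=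
      Finset.sum_eq_zero (fun i _ => by rw [hu i, mul_zero])
    rw [h1, add_zero] at a2
    exact a2

/-! ### pull-back of `k[g,s]` to the leaf of `s` -/

/-- restriction to `{(g, s) : g ∈ S_s}`, `s` fixed -/
noncomputable def pull1 (s : (Fin (n + 1) → k) × (Fin (n + 1) → k)) :
    MvPolynomial (Crd n ⊕ Pt n) k →ₐ[k] MvPolynomial (Fin n) k :=
  aeval (Sum.elim (fun x => pull s (X x)) (fun y => C (ptc s y)))

theorem eval_pull1 (s : (Fin (n + 1) → k) × (Fin (n + 1) → k)) (u : Fin n → k)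
    (P : MvPolynomial (Crd n ⊕ Pt n) k) : eval u (pull1 s P) = eval (hatPt s u) P := by
  have : ((aeval u : MvPolynomial (Fin n) k →ₐ[k] k).comp (pull1 s)) =
      (aeval (hatPt s u) : MvPolynomial (Crd n ⊕ Pt n) k →ₐ[k] k) := by
    apply algHom_ext
    intro x
    rcases x with x | y
    · have h1 := eval_pull s u (X x)
      rw [eval_X] at h1
      simp only [AlgHom.comp_apply, pull1, aeval_X, Sum.elim_inl, hatPt]
      rw [aeval_eq_eval]
      exact h1
    · simp [pull1, hatPt]
  have h := congrArg (fun φ : MvPolynomial (Crd n ⊕ Pt n) k →ₐ[k] k => φ P) this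
  simpa [AlgHom.comp_apply, aeval_eq_eval] using h

theorem totalDegree_map_le_of_Vw {A B : Type*} (w : A → ℕ)
    (ψ : MvPolynomial A k →ₐ[k] MvPolynomial B k) (hψ : ∀ x, (ψ (X x)).totalDegree ≤ w x)
    {N : ℕ} {P : MvPolynomial A k} (hP : P ∈ Vw k w N) : (ψ P).totalDegree ≤ N := by
  rw [mem_Vw] at hP
  conv_lhs => rw [P.as_sum, map_sum]
  refine (totalDegree_finsetSum _ _).trans (Finset.sup_le fun m hm => ?_)
  have h1 : ψ (monomial m (coeff m P)) =
      C (coeff m P) * ∏ x ∈ m.support, (ψ (X x)) ^ (m x) := by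
    rw [monomial_eq, map_mul, Finsupp.prod, map_prod]
    simp only [map_pow]
    congr 1
    exact ψ.commutes _
  rw [h1]
  refine (totalDegree_mul _ _).trans ?_
  rw [totalDegree_C, zero_add]
  refine (totalDegree_finsetProd _ _).trans ?_
  refine le_trans (Finset.sum_le_sum fun x _ => (totalDegree_pow _ _).trans
    (Nat.mul_le_mul_left _ (hψ x))) ?_
  refine le_trans (le_of_eq ?_) (hP m hm)
  rw [Finsupp.weight_apply, Finsupp.sum]
  exact Finset.sum_congr rfl (fun x _ => rfl)

theorem totalDegree_pull1_le (s : (Fin (n + 1) → k) × (Fin (n + 1) → k))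
    (w : Crd n ⊕ Pt n → ℕ) (hw : ∀ x, 1 ≤ w (Sum.inl x)) {N : ℕ}
    {P : MvPolynomial (Crd n ⊕ Pt n) k} (hP : P ∈ Vw k w N) :
    (pull1 s P).totalDegree ≤ N := by
  refine totalDegree_map_le_of_Vw w (pull1 s) ?_ hP
  intro x
  rcases x with x | y
  · unfold pull1
    rw [aeval_X, Sum.elim_inl]
    exact (totalDegree_linear_le s x).trans (hw x)
  · unfold pull1
    rw [aeval_X, Sum.elim_inr, totalDegree_C]
    exact Nat.zero_le _

/-- chain rule along the leaf -/
theorem sum_pderiv_pull1 (s : (Fin (n + 1) → k) × (Fin (n + 1) → k)) (u w : Fin n → k)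
    (P : MvPolynomial (Crd n ⊕ Pt n) k) :
    ∑ i, w i * eval u (pderiv i (pull1 s P)) =
      ∑ x, leafDir s w x * eval (hatPt s u) (pderiv (Sum.inl x) P) := by
  classical
  have h1 : ∀ i, pderiv i (pull1 s P) = ∑ x, pull1 s (pderiv (Sum.inl x) P)
      * pderiv i (pull s (X x)) := by
    intro i
    rw [chain_rule (pderiv i) (pull1 s) P, Fintype.sum_sum_type]
    have h2 : ∑ y : Pt n, pull1 s (pderiv (Sum.inr y) P) * pderiv i (pull1 s (X (Sum.inr y))) = 0 := by
      apply Finset.sum_eq_zero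
      intro y _
      have : pull1 s (X (Sum.inr y)) = C (ptc s y) := by
        unfold pull1; rw [aeval_X, Sum.elim_inr]
      rw [this, pderiv_C, mul_zero]
    rw [h2, add_zero]
    refine Finset.sum_congr rfl (fun x _ => ?_)
    have : pull1 s (X (Sum.inl x)) = pull s (X x) := by
      unfold pull1; rw [aeval_X, Sum.elim_inl]
    rw [this]
  have h3 : ∀ x, ∑ i, w i * eval u (pderiv i (pull s (X x))) = leafDir s w x := by
    intro x
    rw [sum_pderiv_pull s u w (X x), Finset.sum_eq_single x]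
    · rw [pderiv_X_self, map_one, mul_one]
    · intro b _ hb
      rw [pderiv_X_of_ne (Ne.symm hb), map_zero, mul_zero]
    · intro h; exact absurd (Finset.mem_univ _) h
  have h4 : ∀ i, w i * eval u (pderiv i (pull1 s P))
      = ∑ x, (w i * eval u (pderiv i (pull s (X x)))) * eval (hatPt s u) (pderiv (Sum.inl x) P) := by
    intro i
    rw [h1 i, map_sum, Finset.mul_sum]
    refine Finset.sum_congr rfl (fun x _ => ?_)
    rw [map_mul, eval_pull1]
    ring
  rw [Finset.sum_congr rfl (fun i _ => h4 i), Finset.sum_comm]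
  refine Finset.sum_congr rfl (fun x _ => ?_)
  rw [← Finset.sum_mul, h3]

/-- rank of covectors killed by a subspace of leaf directions -/
theorem rank_add_le_of_leafDir {I : Type*} [Finite I]
    (s : (Fin (n + 1) → k) × (Fin (n + 1) → k)) (c : I → Crd n → k)
    (W : Submodule k (Fin n → k))
    (hW : ∀ i, ∀ w ∈ W, ∑ x, leafDir s w x * c i x = 0) :
    (Matrix.of c).rank + finrank k W ≤ Fintype.card (Crd n) := by
  have h1 := finrank_Ksub c
  have h2 : W.map (leafDir s) ≤ Ksub c := by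
    rintro _ ⟨w, hw, rfl⟩ i
    rw [← hW i w hw]
    exact Finset.sum_congr rfl (fun x _ => mul_comm _ _)
  have h3 : finrank k (W.map (leafDir s)) = finrank k W :=
    (Submodule.equivMapOfInjective (leafDir s) (leafDir_injective s) W).finrank_eq.symm
  have h4 := Submodule.finrank_mono h2
  omega

end Vale.Agent.P054.T2.H930
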