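import Mathlib

/-!
# [TAN] (T1), (T3): rank over the germ from rank at the points; fibre product splitting
-/

set_option autoImplicit false

open Module

namespace Vale.Agent.P054.T2.H930

theorem exists_sel {L : Type*} [Field L] {ι V : Type*} [Finite ι] [AddCommGroup V] [Module L V]
    (v : ι → V) (ρ : ℕ)
    (hv : ρ ≤ finrank L (Submodule.span L (Set.range v))) : ∃ f : Fin ρ → ι,
        LinearIndependent L (fun i => v (f i)) := by
  obtain ⟨κ, a, ha, hspan, hli⟩ := exists_linearIndependent' L v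
  have hfin : Finite κ := Finite.of_injective a ha
  have hft := Fintype.ofFinite κ
  have hcard : Fintype.card κ = finrank L (Submodule.span L (Set.range v)) := by
    rw [← hspan]
    exact (finrank_span_eq_card hli).symm
  have hle : Fintype.card (Fin ρ) ≤ Fintype.card κ := by
    rw [Fintype.card_fin, hcard]; exact hv
  obtain ⟨b⟩ := Function.Embedding.nonempty_of_card_le hle
  exact ⟨fun i => a (b i), hli.comp _ b.injective⟩

/-- a matrix of rank at least `ρ` has a nonzero `ρ × ρ` minor -/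
theorem exists_minor {L : Type*} [Field L] {m n : Type*} [Finite m] [Fintype n]
    (A : Matrix m n L) (ρ : ℕ) (h : ρ ≤ A.rank) :
    ∃ (f : Fin ρ → m) (g : Fin ρ → n), (A.submatrix f g).det ≠ 0 := by
  classical
  obtain ⟨f, hf⟩ := exists_sel (L := L) A.row ρ (by rw [← A.rank_eq_finrank_span_row]; exact h)
  have hf' : LinearIndependent L (A.submatrix f id).row := hf
  have h2 : (A.submatrix f id).rank = ρ := by
    rw [hf'.rank_matrix, Fintype.card_fin]
  obtain ⟨g, hg⟩ := exists_sel (L := L) (A.submatrix f id).col ρ (by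
    rw [← Matrix.rank_eq_finrank_span_cols, h2])
  refine ⟨f, g, ?_⟩
  have hg' : LinearIndependent L (A.submatrix f g).col := hg
  have h3 : IsUnit (A.submatrix f g) := by
    rw [← Matrix.linearIndependent_cols_iff_isUnit]
    exact hg'
  exact ((Matrix.isUnit_iff_isUnit_det _).1 h3).ne_zero

theorem det_mem {R k : Type*} [CommRing R] [CommRing k] [Algebra k R] (V : ℕ → Submodule k R)
    (h1 : 1 ∈ V 0) (hmul : ∀ a b x y, x ∈ V a → y ∈ V b → x * y ∈ V (a + b)) (δ : ℕ) {n : ℕ}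
    (M : Matrix (Fin n) (Fin n) R) (hM : ∀ i j, M i j ∈ V δ) : M.det ∈ V (n * δ) := by
  classical
  rw [Matrix.det_apply]
  refine Submodule.sum_mem _ (fun τ _ => ?_)
  have hprod : ∏ i, M (τ i) i ∈ V (n * δ) := by
    have key : ∀ s : Finset (Fin n), ∏ i ∈ s, M (τ i) i ∈ V (s.card * δ) := by
      intro s
      induction s using Finset.induction_on with
      | empty => simpa using h1
      | insert a s ha ih =>
        rw [Finset.prod_insert ha, Finset.card_insert_of_notMem ha]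
        have := hmul _ _ _ _ (hM (τ a) a) ih
        have e : δ + s.card * δ = (s.card + 1) * δ := by ring
        rwa [e] at this
    have := key Finset.univ
    simpa using this
  rcases Int.units_eq_one_or (Equiv.Perm.sign τ) with hs | hs
  · rw [hs, one_smul]; exact hprod
  · rw [hs, Units.neg_smul, one_smul]; exact Submodule.neg_mem _ hprod

/-- **(T1)** rank over the germ from rank at the points -/
theorem rank_le_of_points {R k L ι : Type*} [CommRing R] [Field k] [Algebra k R] [Field L]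
    (ev : ι → R →+* k) (E : Set ι) (φ : R →+* L) (V : ℕ → Submodule k R)
    (h1 : 1 ∈ V 0) (hmul : ∀ a b x y, x ∈ V a → y ∈ V b → x * y ∈ V (a + b))
    {m n : Type*} [Fintype m] [Fintype n] (M : Matrix m n R) (δ ρ : ℕ)
    (hM : ∀ i j, M i j ∈ V δ)
    (hgood : ∀ F ∈ V ((ρ + 1) * δ), (∀ e ∈ E, ev e F = 0) → φ F = 0)
    (hr : ∀ e ∈ E, (M.map (ev e)).rank ≤ ρ) : (M.map φ).rank ≤ ρ := by
  classical
  by_contra hlt
  push Not at hlt
  obtain ⟨f, g, hdet⟩ := exists_minor (M.map φ) (ρ + 1) hlt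
  apply hdet
  have h2 : ((M.map φ).submatrix f g).det = φ (M.submatrix f g).det := by
    rw [RingHom.map_det]; rfl
  rw [h2]
  apply hgood
  · exact det_mem V h1 hmul δ _ (fun i j => hM _ _)
  · intro e he
    rw [RingHom.map_det]
    by_contra hne
    have h3 : (M.map (ev e)).submatrix f g = (ev e).mapMatrix (M.submatrix f g) := rfl
    have h4 : ((M.map (ev e)).submatrix f g).rank = ρ + 1 := by
      rw [h3, Matrix.rank_of_det_ne_zero hne, Fintype.card_fin]
    have h5 := hr e he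
    have h6 : ((M.map (ev e)).submatrix f g).rank ≤ (M.map (ev e)).rank :=
      Matrix.rank_submatrix_le (M.map (ev e)) f g
    omega

/-- **(T3)** fibre product splitting -/
theorem fibre_split {L G S S' : Type*} [Field L] [AddCommGroup G] [Module L G]
    [FiniteDimensional L G] [AddCommGroup S] [Module L S] [AddCommGroup S'] [Module L S']
    (T1 : Submodule L (G × S)) (T2 : Submodule L (G × S')) (Θ D D' : Submodule L G)
    (hT1' : ∀ g s, (g, s) ∈ T1 → g ∈ Θ) (hT2' : ∀ g s, (g, s) ∈ T2 → g ∈ Θ)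
    (hD : ∀ g, (g, (0 : S)) ∈ T1 → g ∈ D) (hD' : ∀ g, (g, (0 : S')) ∈ T2 → g ∈ D')
    (hDD : ∀ g, g ∈ D → g ∈ D' → g = 0) (σ₁ σ₂ : ℕ)
    (h1 : σ₁ ≤ finrank L (T1.comap (LinearMap.inl L G S)))
    (h2 : σ₂ ≤ finrank L (T2.comap (LinearMap.inl L G S')))
    (hΘ : finrank L Θ ≤ σ₁ + σ₂)
    (g : G) (s : S) (s' : S') (hgs : (g, s) ∈ T1) (hgs' : (g, s') ∈ T2) :
    ∃ g₁ g₂, g₁ + g₂ = g ∧ (g₁, s) ∈ T1 ∧ (g₁, (0 : S')) ∈ T2 ∧
      (g₂, (0 : S)) ∈ T1 ∧ (g₂, s') ∈ T2 := by
  set K1 := T1.comap (LinearMap.inl L G S) with hK1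
  set K2 := T2.comap (LinearMap.inl L G S') with hK2
  have m1 : ∀ g, g ∈ K1 ↔ (g, (0 : S)) ∈ T1 := fun g => Iff.rfl
  have m2 : ∀ g, g ∈ K2 ↔ (g, (0 : S')) ∈ T2 := fun g => Iff.rfl
  have hdis : K1 ⊓ K2 = ⊥ := by
    rw [eq_bot_iff]
    rintro x ⟨hx1, hx2⟩
    exact (Submodule.mem_bot L).2 (hDD x (hD x ((m1 x).1 hx1)) (hD' x ((m2 x).1 hx2)))
  have hle : K1 ⊔ K2 ≤ Θ := by
    refine sup_le ?_ ?_
    · intro x hx; exact hT1' x 0 ((m1 x).1 hx)
    · intro x hx; exact hT2' x 0 ((m2 x).1 hx)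
  have hsum : finrank L (K1 ⊔ K2 : Submodule L G) = finrank L K1 + finrank L K2 := by
    have := Submodule.finrank_sup_add_finrank_inf_eq K1 K2
    rw [hdis, finrank_bot, add_zero] at this
    exact this
  have heq : K1 ⊔ K2 = Θ := Submodule.eq_of_le_of_finrank_le hle (by omega)
  have hg : g ∈ K1 ⊔ K2 := by rw [heq]; exact hT1' g s hgs
  obtain ⟨g₂, hg₂, g₁, hg₁, hsumg⟩ := Submodule.mem_sup.1 hg
  have a1 : (g₂, (0 : S)) ∈ T1 := (m1 _).1 hg₂
  have a2 : (g₁, (0 : S')) ∈ T2 := (m2 _).1 hg₁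
  refine ⟨g₁, g₂, by rw [← hsumg]; abel, ?_, a2, a1, ?_⟩
  · have := T1.sub_mem hgs a1
    have e : (g, s) - (g₂, (0 : S)) = (g₁, s) := by
      rw [← hsumg]; ext <;> simp
    rwa [e] at this
  · have := T2.sub_mem hgs' a2
    have e : (g, s') - (g₁, (0 : S')) = (g₂, s') := by
      rw [← hsumg]; ext <;> simp
    rwa [e] at this

end Vale.Agent.P054.T2.H930
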