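import Vale.Agent.P054.T2.H930.Germ3
import Vale.Agent.P054.T2.H930.Tan1

/-!
# [TAN] (T2): the tangent space of the germ over the fraction field is spanned by the derivations
-/

set_option autoImplicit false
set_option linter.unusedSectionVars false

open MvPolynomial Module

namespace Vale.Agent.P054.T2.H930

/-- chain rule for a derivation composed with an algebra map on polynomials -/
theorem chain_rule {k A X : Type*} [CommRing k] [CommRing A] [Algebra k A] [Fintype X]
    (D : Derivation k A A) (φ : MvPolynomial X k →ₐ[k] A) (F : MvPolynomial X k) :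
    D (φ F) = ∑ j, φ (pderiv j F) * D (φ (MvPolynomial.X j)) := by
  classical
  induction F using MvPolynomial.induction_on with
  | C a =>
    have h1 : φ (C a) = algebraMap k A a := by
      rw [← MvPolynomial.algebraMap_eq]; exact φ.commutes a
    rw [h1, Derivation.map_algebraMap]
    simp
  | add a b ha hb =>
    simp only [map_add, ha, hb, add_mul, Finset.sum_add_distrib]
  | mul_X a i ha =>
    rw [map_mul, Derivation.leibniz, ha]
    simp only [pderiv_mul, pderiv_X, map_add, map_mul, add_mul, Finset.sum_add_distrib, smul_eq_mul,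
      Pi.single_apply]
    have h3 : ∑ x, φ (pderiv x a) * φ (MvPolynomial.X i) * D (φ (MvPolynomial.X x))
        = φ (MvPolynomial.X i) * ∑ x, φ (pderiv x a) * D (φ (MvPolynomial.X x)) := by
      rw [Finset.mul_sum]
      exact Finset.sum_congr rfl (fun x _ => by ring)
    have h4 : ∑ x, φ a * φ (if i = x then (1 : MvPolynomial X k) else 0) * D (φ (MvPolynomial.X x))
        = φ a * D (φ (MvPolynomial.X i)) := by
      rw [Finset.sum_eq_single i]
      · simp
      · intro b _ hb; simp [Ne.symm hb]
      · intro h; exact absurd (Finset.mem_univ _) h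
    rw [h4, h3]; ring

variable {k : Type*} [Field k] {X : Type*} [Fintype X] [DecidableEq X]

/-- **(T2)** over the fraction field of `k[[y_1..y_e]]` the kernel of the gradients of the system is
spanned by the velocity vectors `(∂_l φ(X_j))_j`. -/
theorem tangent_eq {c : ℕ} (p : X → k) (F : Fin c → MvPolynomial X k) {e : ℕ}
    (he : e + c = Fintype.card X)
    (hind : LinearIndependent k (fun i => grad p (F i)))
    (φ : MvPolynomial X k →ₐ[k] MvPowerSeries (Fin e) k)
    (hφ0 : ∀ G, MvPowerSeries.constantCoeff (φ G) = eval p G)
    (hφF : ∀ i, φ (F i) = 0)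
    (a : Fin e → X → k)
    (ha : ∀ l, φ (∑ j, C (a l j) * (MvPolynomial.X j - C (p j))) = MvPowerSeries.X l)
    {L : Type*} [Field L] (ι : MvPowerSeries (Fin e) k →+* L) (hι : Function.Injective ι)
    (τ : X → L) (hτ : ∀ i, ∑ j, ι (φ (pderiv j (F i))) * τ j = 0) :
    ∃ α : Fin e → L, ∀ j, τ j = ∑ l, α l * ι (MvPowerSeries.pderiv k l (φ (MvPolynomial.X j))) := by
  classical
  -- matrix of gradients over `L`
  let M : Matrix (Fin c) X (MvPolynomial X k) := Matrix.of (fun i j => pderiv j (F i))
  let ML : Matrix (Fin c) X L := M.map (ι.comp φ.toRingHom)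
  have hrank : c ≤ ML.rank := by
    have h1 : (M.map (eval p)).rank = c := by
      have : LinearIndependent k (M.map (eval p)).row := hind
      rw [this.rank_matrix, Fintype.card_fin]
    obtain ⟨f, g, hdet⟩ := exists_minor (M.map (eval p)) c h1.ge
    have h2 : (ML.submatrix f g).det ≠ 0 := by
      have h3 : (ML.submatrix f g).det = ι (φ ((M.submatrix f g).det)) := by
        rw [show φ ((M.submatrix f g).det) = φ.toRingHom ((M.submatrix f g).det) from rfl,
          RingHom.map_det, RingHom.map_det]
        rfl
      rw [h3]
      intro h0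
      have h4 : φ ((M.submatrix f g).det) = 0 := by
        apply hι; rw [h0, map_zero]
      have h5 := hφ0 ((M.submatrix f g).det)
      rw [h4, map_zero, RingHom.map_det] at h5
      exact hdet h5.symm
    have h6 : (ML.submatrix f g).rank = c := by
      rw [Matrix.rank_of_det_ne_zero h2, Fintype.card_fin]
    have h7 := Matrix.rank_submatrix_le ML f g
    omega
  -- kernel
  let W : Submodule L (X → L) := LinearMap.ker ML.mulVecLin
  have hWfin : finrank L W ≤ e := by
    have h1 := LinearMap.finrank_range_add_finrank_ker ML.mulVecLin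
    rw [Module.finrank_fintype_fun_eq_card] at h1
    have h2 : finrank L (LinearMap.range ML.mulVecLin) = ML.rank := rfl
    have h3 : finrank L W = finrank L (LinearMap.ker ML.mulVecLin) := rfl
    omega
  let d : Fin e → X → L := fun l j => ι (MvPowerSeries.pderiv k l (φ (MvPolynomial.X j)))
  have hdW : ∀ l, d l ∈ W := by
    intro l
    rw [LinearMap.mem_ker]
    ext i
    have h1 := chain_rule (MvPowerSeries.pderiv k l) φ (F i)
    rw [hφF, map_zero] at h1
    have h2 := congrArg ι h1
    rw [map_zero, map_sum] at h2
    rw [Matrix.mulVecLin_apply, Matrix.mulVec, dotProduct, Pi.zero_apply, h2]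
    refine Finset.sum_congr rfl (fun j _ => ?_)
    rw [map_mul]; rfl
  have hdind : LinearIndependent L d := by
    rw [Fintype.linearIndependent_iff]
    intro g hg m
    have h1 : ∀ l, ∑ j, ι (algebraMap k _ (a m j)) * d l j = if m = l then 1 else 0 := by
      intro l
      have h2 : MvPowerSeries.pderiv k l (φ (∑ j, C (a m j) * (MvPolynomial.X j - C (p j))))
          = ∑ j, algebraMap k (MvPowerSeries (Fin e) k) (a m j)
            * MvPowerSeries.pderiv k l (φ (MvPolynomial.X j)) := by
        rw [map_sum, map_sum]
        refine Finset.sum_congr rfl (fun j _ => ?_)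
        have h3 : φ (C (a m j) * (MvPolynomial.X j - C (p j)))
            = algebraMap k _ (a m j) * (φ (MvPolynomial.X j) - algebraMap k _ (p j)) := by
          rw [map_mul, map_sub, MvPolynomial.algHom_C, MvPolynomial.algHom_C]
        rw [h3, Derivation.leibniz, Derivation.map_algebraMap, smul_zero, add_zero, map_sub,
          Derivation.map_algebraMap, sub_zero, smul_eq_mul]
      rw [ha, MvPowerSeries.pderiv_X] at h2
      have h4 := congrArg ι h2
      rw [map_sum] at h4
      have h5 : ∑ j, ι (algebraMap k _ (a m j)) * d l j
          = ∑ j, ι (algebraMap k (MvPowerSeries (Fin e) k) (a m j)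
            * MvPowerSeries.pderiv k l (φ (MvPolynomial.X j))) := by
        refine Finset.sum_congr rfl (fun j _ => ?_)
        rw [map_mul]
      rw [h5, ← h4, Pi.single_apply]
      by_cases h : m = l
      · simp [h]
      · simp [h]
    have h2 : ∑ j, ι (algebraMap k _ (a m j)) * (∑ l, g l • d l) j = g m := by
      have h3 : ∀ j, ι (algebraMap k (MvPowerSeries (Fin e) k) (a m j)) * (∑ l, g l • d l) j
          = ∑ l, g l * (ι (algebraMap k _ (a m j)) * d l j) := by
        intro j
        rw [Finset.sum_apply, Finset.mul_sum]
        refine Finset.sum_congr rfl (fun l _ => ?_)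
        rw [Pi.smul_apply, smul_eq_mul]; ring
      rw [Finset.sum_congr rfl (fun j _ => h3 j), Finset.sum_comm]
      have h4 : ∀ l, ∑ j, g l * (ι (algebraMap k _ (a m j)) * d l j)
          = if m = l then g l else 0 := by
        intro l
        rw [← Finset.mul_sum, h1]
        by_cases h : m = l
        · simp [h]
        · simp [h]
      rw [Finset.sum_congr rfl (fun l _ => h4 l), Finset.sum_ite_eq]
      simp
    rw [hg] at h2
    simpa using h2.symm
  have hspan : Submodule.span L (Set.range d) = W := by
    apply Submodule.eq_of_le_of_finrank_le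
    · rw [Submodule.span_le]
      rintro _ ⟨l, rfl⟩
      exact hdW l
    · rw [finrank_span_eq_card hdind, Fintype.card_fin]
      exact hWfin
  have hτW : τ ∈ W := by
    rw [LinearMap.mem_ker]
    ext i
    rw [Matrix.mulVecLin_apply, Matrix.mulVec, dotProduct, Pi.zero_apply]
    exact hτ i
  rw [← hspan] at hτW
  obtain ⟨α, hα⟩ := (Submodule.mem_span_range_iff_exists_fun L).1 hτW
  refine ⟨α, fun j => ?_⟩
  rw [← hα, Finset.sum_apply]
  rfl

end Vale.Agent.P054.T2.H930
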