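import Vale.Agent.P054.T2.H930.HatVert
import Vale.Agent.P054.T2.H580.UniHat

/-!
# One hat over a uniform set: exceptional set of [GOOD] and of the vertical independence
-/

set_option autoImplicit false
set_option linter.unusedSectionVars false

open MvPolynomial Module Finset

namespace Vale.Agent.P054.T2.H930

open Vale.Agent.P054.T2.H580 (Vw wh hilbF rkF Par kap IsFilt)
open Vale.Agent.P054.T2.H307 (van pts mem_van mem_pts van_mono IsUnif IsFam gfr core core_subset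
  fib mem_fib fib_mono fib_subset self_mem_fib)

variable {ι κ K : Type*} [Field K] [CharZero K] [Infinite K]
variable {c : κ → Finset ι → ι → ℕ} {J : Finset κ} {β : ℕ} {E' : Finset ι} {v : κ → ℕ}
variable {γ ρ : Type*} [Fintype γ] [Fintype ρ] [DecidableEq γ] [DecidableEq ρ]

/-- lower bound for the points of dense sets, weights `1`, one fibre, in the form of `hat_vert` -/
theorem lower_dense {N k C₁ L K₀ q : ℕ} (hP : Par N k β C₁ L K₀ q J.card)
    (h : IsUnif c J β E' v) (hE : E'.Nonempty)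
    (hmono : ∀ j ∈ J, ∀ A B : Finset ι, A ⊆ B → B ⊆ E' → ∀ e ∈ A, c j B e ≤ c j A e)
    (hN : Fintype.card γ ≤ N) {x : ι → γ → K} {idxF : ℕ → κ} {KF : ℕ} (hKF : KF ≤ K₀)
    (hFF : IsFam c J idxF KF x (fun _ => ()) (restrictTotalDegree γ K) 1 (β ^ L))
    (k₀ i : ℕ) (hki : k₀ + i ≤ KF)
    (hw : ∀ j, k₀ ≤ j → j < k₀ + i → v (idxF j) = v (idxF k₀))
    {B : Finset ι} (hB : B ⊆ E') {r : ℕ} (hr : r ≤ q) (hd : E'.card < r * B.card) :
    (∏ j ∈ range (v (idxF k₀)), (β ^ L) ^ kap (k₀ + 1) (fun j => v (idxF j)) j) *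
        ((β ^ L) ^ i * (β ^ L) ^ k₀) ^ (Fintype.card γ - v (idxF k₀)) ≤
      (β ^ L) ^ (N * N + 1) *
        rkF (restrictTotalDegree γ K) (pts x B) ((β ^ L) ^ i * (β ^ L) ^ k₀) := by
  classical
  have hb1 := hP.b_gt_one
  have hVT := H580.isFilt_total (k := K) (σ := γ)
  have hderT : ∀ n (i : γ) (F : MvPolynomial γ K), F ∈ restrictTotalDegree γ K n →
      pderiv i F ∈ restrictTotalDegree γ K n := by
    intro n i F hF
    rw [← H580.Vw_one_eq] at hF ⊢
    exact H580.Vw_mono _ (by omega) (H580.pderiv_mem_Vw _ hF i)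
  have hXT : ∀ i : γ, (X i : MvPolynomial γ K) ∈ restrictTotalDegree γ K 1 := by
    intro i
    rw [← H580.Vw_one_eq]
    exact H580.X_mem_Vw _ i
  have hFk : IsFam c J idxF (k₀ + i) x (fun _ => ()) (restrictTotalDegree γ K) 1 (β ^ L) :=
    fun j hj => hFF j (hj.trans hki)
  obtain ⟨e, he⟩ := H580.core_nonempty hP h hmono hB hr hd
  have h1 := H580.fam_lower hP hVT hderT hXT hN (hki.trans hKF) hFk he
  have h2 : 1 ≤ rkF (restrictTotalDegree γ K)
      (pts x (fib (fun _ => ()) (core c J v B (K₀ * (L * k))) ())) 1 :=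
    H580.one_le_rkF hVT (H307.pts_nonempty ⟨e, self_mem_fib he⟩) _
  have hmon : ∀ k l : ℕ, k ≤ l → l ≤ k₀ → v (idxF k) ≤ v (idxF l) := fun k l hkl hl =>
    h.fam_mono hE hP.beta_gt_one hVT.mono hb1.le hFF hkl (by omega)
  have hcγ : v (idxF k₀) ≤ Fintype.card γ := H580.fam_le_card h hE hFF (by omega)
  have s1 : (∑ j ∈ range (v (idxF k₀)), kap (k₀ + 1) (fun j => v (idxF j)) j) +
      (k₀ + i) * (Fintype.card γ - v (idxF k₀)) =
      ∑ k ∈ range (k₀ + i), (Fintype.card γ - v (idxF k)) := by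
    have := H580.sum_kap_window (Fintype.card γ) (k₀ + 1) (k₀ + i) (fun j => v (idxF j)) (by omega)
      (fun k l hkl hl => hmon k l hkl (by omega)) (by simpa using hcγ)
      (fun k h1 h2 => by simpa using hw k (by simpa using h1) h2)
    simpa using this
  have e1 : (∏ j ∈ range (v (idxF k₀)), (β ^ L) ^ kap (k₀ + 1) (fun j => v (idxF j)) j) *
        ((β ^ L) ^ i * (β ^ L) ^ k₀) ^ (Fintype.card γ - v (idxF k₀)) =
      (β ^ L) ^ (∑ k ∈ range (k₀ + i), (Fintype.card γ - v (idxF k))) := by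
    rw [← s1, Finset.prod_pow_eq_pow_sum, pow_add]
    congr 1
    rw [← pow_add, ← pow_mul]
    congr 1
    ring
  have e2 : (1 : ℕ) * (β ^ L) ^ (k₀ + i) = (β ^ L) ^ i * (β ^ L) ^ k₀ := by
    rw [one_mul, pow_add, mul_comm]
  have hloss := hP.loss (M₁ := 0) (M₂ := Fintype.card γ) (M₃ := 0) (K₁ := k₀ + i) (K₂ := 0)
    (Nat.zero_le N) hN (Nat.zero_le N) (hki.trans hKF) (Nat.zero_le K₀)
  simp only [pow_zero, one_mul, mul_one] at hloss
  rw [e2] at h1
  rw [e1]
  have hB2 : fib (fun _ : ι => ()) B ((fun _ : ι => ()) e) = B := H307.fib_unit B ()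
  rw [hB2] at h1
  calc (β ^ L) ^ (∑ k ∈ range (k₀ + i), (Fintype.card γ - v (idxF k)))
      ≤ (β ^ L) ^ (∑ k ∈ range (k₀ + i), (Fintype.card γ - v (idxF k))) *
        rkF (restrictTotalDegree γ K)
          (pts x (fib (fun _ => ()) (core c J v B (K₀ * (L * k))) ())) 1 :=
        Nat.le_mul_of_pos_right _ h2
    _ ≤ _ := h1
    _ ≤ _ := by
        refine Nat.mul_le_mul_right _ ?_
        calc ((C₁ ^ (Fintype.card γ) * (Fintype.card γ).factorial) ^ L) ^ (k₀ + i) *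
              (β ^ L) ^ (Fintype.card γ * Fintype.card γ)
            ≤ β ^ L * (β ^ L) ^ (N * N) := Nat.mul_le_mul hloss
              (Nat.pow_le_pow_right (by omega) (Nat.mul_le_mul hN hN))
          _ = (β ^ L) ^ (N * N + 1) := by rw [pow_succ]; ring

/-- **[HAT-PACK].**  One hat over a uniform set: outside `Y` (`r |Y| ≤ |E'|`) the vertical
gradients of `hh` are independent, and every polynomial of level `b ^ (k₀ + i₀ + 1)` which
vanishes on the dense set `E1` is in the germ prime. -/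
theorem hat_pack {N k C₁ L K₀ q : ℕ} (hP : Par N k β C₁ L K₀ q J.card)
    (h : IsUnif c J β E' v) (hE : E'.Nonempty)
    (hmono : ∀ j ∈ J, ∀ A B : Finset ι, A ⊆ B → B ⊆ E' → ∀ e ∈ A, c j B e ≤ c j A e)
    (hN0 : 0 < N) (hN : Fintype.card γ + (Fintype.card γ + Fintype.card ρ) ≤ N)
    (hN' : Fintype.card ρ + (Fintype.card γ + Fintype.card ρ) ≤ N)
    (k₀ i₀ i₁ Wg : ℕ) {x : ι → γ ⊕ ρ → K} {idxF idxH : ℕ → κ}
    (hFF : IsFam c J idxF K₀ (fun e => x e ∘ Sum.inl) (fun _ => ()) (restrictTotalDegree γ K) 1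
      (β ^ L))
    (hFH : IsFam c J idxH K₀ x (fun _ => ()) (Vw K (wh γ ρ ((β ^ L) ^ k₀))) ((β ^ L) ^ k₀) (β ^ L))
    (hwF : ∀ i, k₀ ≤ i → i ≤ k₀ + Wg → v (idxF i) = v (idxF k₀))
    (hwH : ∀ i, i₀ ≤ i → i ≤ i₁ → v (idxH i) = v (idxH i₀))
    (hkW : k₀ + Wg ≤ K₀) (hi₁ : i₁ ≤ K₀) (hgeo : i₀ + 1 + 2 * (N * N) + 2 ≤ i₁)
    (hlong : i₀ * N + (N * N + 3) ≤ Wg)
    {m : ℕ} (hm : v (idxH i₀) = v (idxF k₀) + m)
    (g : Fin (v (idxF k₀)) → MvPolynomial γ K) (hh : Fin m → MvPolynomial (γ ⊕ ρ) K)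
    (hg : ∀ j : Fin (v (idxF k₀)), g j ∈ van (fun e => x e ∘ Sum.inl) E' (restrictTotalDegree γ K
      ((β ^ L) ^ kap (k₀ + 1) (fun j => v (idxF j)) (j : ℕ))))
    (hhv : ∀ j : Fin m, hh j ∈ van x E' (Vw K (wh γ ρ ((β ^ L) ^ k₀))
        ((β ^ L) ^ (k₀ + kap (i₀ + 1) (fun j => v (idxH j)) (v (idxF k₀) + j)))))
    (hind : ∀ e ∈ E', LinearIndependent K (fun i => H930.grad (x e)
      ((Fin.append (fun i => rename Sum.inl (g i)) hh :
        Fin (v (idxF k₀) + m) → MvPolynomial (γ ⊕ ρ) K) i)))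
    {E1 : Finset ι} (hE1 : E1 ⊆ E') (hE1c : E'.card ≤ 2 * E1.card) (r : ℕ)
    (hr : 8 * (N + 1) * (Fintype.card ρ ^ Fintype.card ρ + 1) * (r + 1) ≤ q) :
    ∃ Y ⊆ E', r * Y.card ≤ E'.card ∧ ∀ e ∈ E1, e ∉ Y →
      LinearIndependent K (fun (i : Fin m) (b : ρ) => eval (x e) (pderiv (Sum.inr b) (hh i))) ∧
      ∀ P ∈ Vw K (wh γ ρ ((β ^ L) ^ k₀)) ((β ^ L) ^ (k₀ + (i₀ + 1))),
        (∀ a ∈ E1, eval (x a) P = 0) → P ∈ H930.germ (x e)
          (Fin.append (fun i => rename Sum.inl (g i)) hh :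
            Fin (v (idxF k₀) + m) → MvPolynomial (γ ⊕ ρ) K) := by
  classical
  set f : Fin (v (idxF k₀) + m) → MvPolynomial (γ ⊕ ρ) K :=
    Fin.append (fun i => rename Sum.inl (g i)) hh with hf
  have hb1 := hP.b_gt_one
  have hW1 : 1 ≤ (β ^ L) ^ k₀ := Nat.one_le_pow _ _ hb1.le
  have hD1 : 1 ≤ (β ^ L) ^ i₀ := Nat.one_le_pow _ _ hb1.le
  have hVT := H580.isFilt_total (k := K) (σ := γ)
  have hVH := H580.isFilt_Vw (k := K) (wh γ ρ ((β ^ L) ^ k₀)) (H580.wh_ne_zero hW1)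
  have hmonF : ∀ k l : ℕ, k ≤ l → l ≤ k₀ → v (idxF k) ≤ v (idxF l) := fun k l hkl hl =>
    h.fam_mono hE hP.beta_gt_one hVT.mono hb1.le hFF hkl (by omega)
  have hmonH : ∀ k l : ℕ, k ≤ l → l ≤ i₀ → v (idxH k) ≤ v (idxH l) := fun k l hkl hl =>
    h.fam_mono hE hP.beta_gt_one hVH.mono hb1.le hFH hkl (by omega)
  have hcγ : v (idxF k₀) ≤ Fintype.card γ := H580.fam_le_card h hE hFF (by omega)
  have hcardH : Fintype.card (γ ⊕ ρ) = Fintype.card γ + Fintype.card ρ := Fintype.card_sum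
  have hcH : v (idxF k₀) + m ≤ Fintype.card γ + Fintype.card ρ := by
    rw [← hm, ← hcardH]
    exact H580.fam_le_card h hE hFH (by omega)
  have hfibE : ∀ s : Unit, fib (fun _ : ι => ()) E' s = E' := fun s => H307.fib_unit E' s
  have hfibA : ∀ (A : Finset ι) (e : ι), fib (fun _ : ι => ()) A ((fun _ : ι => ()) e) = A :=
    fun A e => H307.fib_unit A _
  have hcard_arr : v (idxF k₀) + m ≤ N ∧ m ≤ N := by constructor <;> omega
  -- the two parts as elements of `van`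
  have hF1 : ∀ j : Fin (v (idxF k₀)), f (Fin.castAdd m j) ∈ van x E'
      (Vw K (wh γ ρ ((β ^ L) ^ k₀)) ((β ^ L) ^ kap (k₀ + 1) (fun j => v (idxF j)) (j : ℕ))) := by
    intro j
    rw [hf, Fin.append_left]
    refine mem_van.2 ⟨H580.rename_mem_Vw_of_total _ Sum.inl (fun _ => rfl)
      (mem_van.1 (hg j)).1, ?_⟩
    intro e he
    rw [eval_rename]
    exact (mem_van.1 (hg j)).2 e he
  have hF2 : ∀ j : Fin m, f (Fin.natAdd (v (idxF k₀)) j) ∈ van x E'
      (Vw K (wh γ ρ ((β ^ L) ^ k₀))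
        ((β ^ L) ^ (k₀ + kap (i₀ + 1) (fun j => v (idxH j)) (v (idxF k₀) + j)))) := by
    intro j
    rw [hf, Fin.append_right]
    exact hhv j
  have hge : ∀ i ≤ i₀, v (idxF k₀) ≤ v (idxH i) := by
    have h1 := (H580.hat_sys (S := Unit) h hE hP.beta_gt_one hb1 k₀ (p := fun _ => ()) hFF hFH
      (by omega) (fun _ => g) (fun s j => by rw [hfibE]; exact hg j) (fun e he => by
        have h2 := (hind e he).comp (Fin.castAdd m) (Fin.castAdd_injective _ _)
        rw [Fintype.linearIndependent_iff] at h2 ⊢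
        intro w hw
        apply h2 w
        funext y
        have h3 := hw
        rcases y with y | y
        · have h4 := congrFun h3 y
          simp only [Function.comp_apply, Finset.sum_apply, Pi.smul_apply, hf, Fin.append_left,
            grad_rename_inl, Sum.elim_inl, Pi.zero_apply] at h4 ⊢
          exact h4
        · simp only [Function.comp_apply, Finset.sum_apply, Pi.smul_apply, hf, Fin.append_left,
            grad_rename_inl, Sum.elim_inr, Pi.zero_apply, smul_zero, Finset.sum_const_zero])).1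
    intro i hi
    exact h1 i (by omega)
  -- [GOOD] on dense sets
  have hGOOD : ∀ (A : Finset ι), A ⊆ E' → ∀ (r' β' : ℕ), E'.card ≤ r' * A.card →
      2 * (r' * β') ≤ q → β' * (A.filter (fun e => ∃ G ∈ Vw K (wh γ ρ ((β ^ L) ^ k₀))
        ((β ^ L) ^ (k₀ + (i₀ + 1))), (∀ a ∈ A, eval (x a) G = 0) ∧
          G ∉ H930.germ (x e) f)).card ≤ A.card := by
    intro A hA r' β' hr' hq'
    refine H580.hat_GOOD (S := Unit) hP h hE hmono (by omega) k₀ i₀ i₁ (by omega)
      (p := fun _ => ()) (idxF := idxF) (idxH := idxH)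
      (fun j hj => hFF j (by omega)) (fun j hj => hFH j (by omega)) (by omega) hi₁
      (fun i h1 h2 => hwH i h1 h2.le) hm hge (fun _ => f)
      (fun s j => by rw [hfibE]; exact hF1 j) (fun s j => by rw [hfibE]; exact hF2 j) hind hA hr'
      hq' (i₀ + 1) (by omega) _ (Finset.filter_subset _ _) ?_
    intro e he
    obtain ⟨G, h1, h2, h3⟩ := (Finset.mem_filter.1 he).2
    exact ⟨G, h1, fun a ha _ => h2 a ha, h3⟩
  set M := Fintype.card ρ with hM
  have hqN : 8 * (N * (M ^ M * r)) + 8 * (N * r) + 1 ≤ q := by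
    refine le_trans ?_ hr
    have e1 : 8 * (N + 1) * (M ^ M + 1) * (r + 1) = 8 * (N * (M ^ M * r)) + 8 * (N * r) +
      8 * (N * M ^ M) + 8 * N + 8 * ((M ^ M + 1) * (r + 1)) := by ring
    rw [e1]
    have e2 : 1 ≤ (M ^ M + 1) * (r + 1) := Nat.mul_pos (Nat.succ_pos _) (Nat.succ_pos _)
    omega
  -- exceptional set of [GOOD]
  set Y₁ := E1.filter (fun e => ∃ G ∈ Vw K (wh γ ρ ((β ^ L) ^ k₀))
        ((β ^ L) ^ (k₀ + (i₀ + 1))), (∀ a ∈ E1, eval (x a) G = 0) ∧
          G ∉ H930.germ (x e) f) with hY₁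
  have hY₁c : 2 * r * Y₁.card ≤ E'.card := by
    refine (hGOOD E1 hE1 2 (2 * r) hE1c ?_).trans (Finset.card_le_card hE1)
    have : r ≤ N * r := Nat.le_mul_of_pos_left r hN0
    omega
  -- exceptional set of the vertical independence
  have hWD : (β ^ L) ^ k₀ * (β ^ L) ^ i₀ = (β ^ L) ^ (k₀ + i₀) := (pow_add _ _ _).symm
  have hNb : N + 3 ≤ β ^ L := by
    have h1 := hP.hβ
    have h2 := hP.hk
    have h3 : N + 2 ≤ k * (N + 2) := Nat.le_mul_of_pos_left _ h2
    have h4 : β ≤ β ^ L := Nat.le_self_pow hP.hL.ne' _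
    omega
  have hconstb : 2 ^ N * (N + 1) ^ N ≤ β ^ L := by
    have h1 := hP.hconst
    have h4 : β ≤ β ^ L := Nat.le_self_pow hP.hL.ne' _
    refine le_trans ?_ (h1.trans h4)
    calc 2 ^ N * (N + 1) ^ N ≤ 2 ^ N * (N + 2) ^ N :=
          Nat.mul_le_mul_left _ (Nat.pow_le_pow_left (by omega) _)
      _ = (2 * (N + 2)) ^ N := by rw [mul_pow]
      _ ≤ (2 * (N + 2)) ^ N * (C₁ ^ N * N.factorial) ^ (2 * K₀) :=
          Nat.le_mul_of_pos_right _ (Nat.pow_pos (hP.const_pos N))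
  obtain ⟨Y₂, hY₂E, hY₂c, hY₂⟩ := hat_vert E' x hcγ g hh
    (fun j => (β ^ L) ^ kap (k₀ + 1) (fun j => v (idxF j)) j)
    (fun j _ => Nat.one_le_pow _ _ hb1.le) ((β ^ L) ^ k₀) ((β ^ L) ^ i₀) hW1 hD1
    (fun j => (mem_restrictTotalDegree _ _ _).1 (mem_van.1 (hg j)).1)
    (fun j hj => by
      rw [hWD]
      refine Nat.pow_le_pow_right hb1.le ?_
      have := H580.kap_le_of_lt (k₀ + 1) (fun j => v (idxF j))
        (fun k l hkl hl => hmonF k l hkl (by omega)) j k₀ hj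
      omega)
    (fun j => by
      rw [hWD]
      refine H580.Vw_mono _ (Nat.pow_le_pow_right hb1.le ?_) (mem_van.1 (hhv j)).1
      have := H580.kap_le_of_lt (i₀ + 1) (fun j => v (idxH j))
        (fun k l hkl hl => hmonH k l hkl (by omega)) (v (idxF k₀) + j) i₀
        (by rw [hm]; have := j.2; omega)
      omega)
    (fun e he i => by
      refine Fin.addCases (fun i => ?_) (fun i => ?_) i
      · exact (mem_van.1 (hF1 i)).2 e he
      · exact (mem_van.1 (hF2 i)).2 e he)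
    hind (2 * r * N)
    (fun A hA hc => by
      have h1 := hGOOD A hA (2 * r * N) 2 hc.le (by
        have e1 : 2 * (2 * r * N * 2) = 8 * (N * r) := by ring
        omega)
      refine ⟨A \ A.filter (fun e => ∃ G ∈ Vw K (wh γ ρ ((β ^ L) ^ k₀))
        ((β ^ L) ^ (k₀ + (i₀ + 1))), (∀ a ∈ A, eval (x a) G = 0) ∧
          G ∉ H930.germ (x e) f), Finset.sdiff_subset, ?_, ?_⟩
      · rw [Finset.card_sdiff_of_subset (Finset.filter_subset _ _)]
        omega
      · intro e he F hF hF0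
        obtain ⟨h2, h3⟩ := Finset.mem_sdiff.1 he
        by_contra hcon
        refine h3 (Finset.mem_filter.2 ⟨h2, F, ?_, hF0, hcon⟩)
        refine H580.Vw_mono _ ?_ hF
        rw [hWD]
        calc (M + 1) * (β ^ L) ^ (k₀ + i₀) ≤ β ^ L * (β ^ L) ^ (k₀ + i₀) :=
              Nat.mul_le_mul_right _ (by omega)
          _ = (β ^ L) ^ (k₀ + (i₀ + 1)) := by rw [← add_assoc, pow_succ]; ring)
    ((β ^ L) ^ (i₀ * N + (N * N + 3))) ((β ^ L) ^ (N * N + 1))
    (Nat.one_le_pow _ _ hb1.le)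
    (fun A' hA' hc => by
      have h1 := lower_dense hP h hE hmono (by omega) (x := fun e => x e ∘ Sum.inl) le_rfl hFF k₀
        (i₀ * N + (N * N + 3)) (by omega) (fun j h1 h2 => hwF j h1 (by omega)) hA'
        (r := 2 * (2 * r * N) * M ^ M + 1) (by
          have e1 : 2 * (2 * r * N) * M ^ M = 4 * (N * (M ^ M * r)) := by ring
          omega) hc
      have e2 : H307.pts (fun e => x e ∘ Sum.inl) A' =
          A'.image fun e => fun a => x e (Sum.inl a) := H580.pts_eq _ _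
      rw [e2] at h1
      exact h1)
    (by
      have e1 : 2 ^ (Fintype.card γ + (v (idxF k₀) + m)) ≤ 2 ^ N :=
        Nat.pow_le_pow_right (by norm_num) (by omega)
      have e2 : (M + 1 + (v (idxF k₀) + m)) ^ (Fintype.card γ + M) ≤ (N + 1) ^ N :=
        (Nat.pow_le_pow_left (by omega) _).trans (Nat.pow_le_pow_right (by omega) (by omega))
      have e3 : ((β ^ L) ^ i₀) ^ m ≤ (β ^ L) ^ (i₀ * N) := by
        rw [← pow_mul]
        exact Nat.pow_le_pow_right hb1.le (Nat.mul_le_mul_left _ hcard_arr.2)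
      calc 2 ^ (Fintype.card γ + (v (idxF k₀) + m)) * (β ^ L) ^ (N * N + 1) *
            (M + 1 + (v (idxF k₀) + m)) ^ (Fintype.card γ + M) * ((β ^ L) ^ i₀) ^ m
          ≤ 2 ^ N * (β ^ L) ^ (N * N + 1) * (N + 1) ^ N * (β ^ L) ^ (i₀ * N) :=
            Nat.mul_le_mul (Nat.mul_le_mul (Nat.mul_le_mul_right _ e1) e2) e3
        _ = (2 ^ N * (N + 1) ^ N) * ((β ^ L) ^ (N * N + 1) * (β ^ L) ^ (i₀ * N)) := by ring
        _ ≤ β ^ L * ((β ^ L) ^ (N * N + 1) * (β ^ L) ^ (i₀ * N)) :=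
            Nat.mul_le_mul_right _ hconstb
        _ = (β ^ L) ^ (i₀ * N + (N * N + 2)) := by ring
        _ ≤ (β ^ L) ^ (i₀ * N + (N * N + 3)) := Nat.pow_le_pow_right hb1.le (by omega))
  refine ⟨Y₁ ∪ Y₂, Finset.union_subset ((Finset.filter_subset _ _).trans hE1) hY₂E, ?_, ?_⟩
  · have h1 : 2 * r * Y₂.card ≤ E'.card := by
      have h2 : N * (2 * r * Y₂.card) ≤ N * E'.card := by
        calc N * (2 * r * Y₂.card) = 2 * r * N * Y₂.card := by ring
          _ ≤ m * E'.card := hY₂c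
          _ ≤ N * E'.card := Nat.mul_le_mul_right _ hcard_arr.2
      exact Nat.le_of_mul_le_mul_left h2 hN0
    have h3 : r * (Y₁ ∪ Y₂).card ≤ r * (Y₁.card + Y₂.card) :=
      Nat.mul_le_mul_left _ (Finset.card_union_le _ _)
    have h4 : r * (Y₁.card + Y₂.card) = r * Y₁.card + r * Y₂.card := by ring
    have h5 : 2 * r * Y₁.card = 2 * (r * Y₁.card) := by ring
    have h6 : 2 * r * Y₂.card = 2 * (r * Y₂.card) := by ring
    omega
  · intro e he heY
    rw [Finset.mem_union, not_or] at heY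
    refine ⟨hY₂ e (hE1 he) heY.2, ?_⟩
    intro P hP hP0
    by_contra hcon
    exact heY.1 (Finset.mem_filter.2 ⟨he, P, hP, hP0, hcon⟩)

end Vale.Agent.P054.T2.H930
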