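import Vale.Agent.P054.T2.H794.Leaves
import Vale.Agent.P054.T2.H930.HatPack
import Vale.Agent.P054.T2.H580.Inst
import Vale.Agent.P054.T2.H686.EW2

/-!
# [ZPACK]: the data of `Z⁺` from the uniform set of edges
-/

set_option autoImplicit false
set_option linter.unusedSectionVars false

open MvPolynomial Module Finset

namespace Vale.Agent.P054.T2.H930

open Vale.Agent.P054.T2.H580 (Vw wh Par kap US)
open Vale.Agent.P054.T2.H307 (van pts mem_van mem_pts van_mono IsUnif IsFam gfr gr gsp core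
  core_subset core_value core_zero grad_mem_gsp fib mem_fib FI Ed cA JA NN xF xL xH1 xH2 wB)
open Vale.Agent.P054.T2.H794 (AData Cw ZP ZPackS ForAData)
open Vale.Agent.P054.T2.H686 (mu meet Qf Crd meet_comm)

variable {n : ℕ}

/-- annihilator of the gradients of the leaf equations -/
theorem leaf_annih {S : Type*} {p : Ed n ℝ → S} {E' : Finset (Ed n ℝ)} {T σ : ℕ} {e : Ed n ℝ}
    (hgr : gfr xL p (restrictTotalDegree (Fin n) ℝ) T E' e + σ = n) :
    ∃ W : Submodule ℝ (Fin n → ℝ), σ ≤ finrank ℝ W ∧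
      ∀ G : MvPolynomial (Fin n) ℝ, G.totalDegree ≤ T →
        (∀ e' ∈ E', p e' = p e → eval (mu e'.1 e'.2) G = 0) →
        ∀ w ∈ W, ∑ i, w i * eval (mu e.1 e.2) (pderiv i G) = 0 := by
  refine ⟨H686.perp (gsp xL (fib p E' (p e)) (restrictTotalDegree (Fin n) ℝ T) (xL e)), ?_, ?_⟩
  · have h1 := H686.finrank_perp
      (gsp xL (fib p E' (p e)) (restrictTotalDegree (Fin n) ℝ T) (xL e))
    rw [Fintype.card_fin] at h1
    unfold gfr gr at hgr
    omega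
  · intro G hG hG0 w hw
    have hmem : G ∈ van xL (fib p E' (p e)) (restrictTotalDegree (Fin n) ℝ T) :=
      mem_van.2 ⟨(mem_restrictTotalDegree _ _ _).2 hG,
        fun e' he' => hG0 e' (mem_fib.1 he').1 (mem_fib.1 he').2⟩
    exact hw _ (grad_mem_gsp hmem (xL e))

theorem xH1_eq (e : Ed n ℝ) : xH1 e = hatPt e.1 (mu e.1 e.2) := rfl

theorem xH2_eq {e : Ed n ℝ} (h0 : e.1.1 0 ≠ e.2.1 0) (hq : Qf (e.1 - e.2) = 0) :
    xH2 e = hatPt e.2 (mu e.2 e.1) := by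
  show Sum.elim (meet e.1 e.2) (ptc e.2) = Sum.elim (meet e.2 e.1) (ptc e.2)
  rw [meet_comm h0 hq]

theorem zPackS (n : ℕ) : ZPackS n := by
  refine ⟨2 * (NN n * NN n) + NN n + 10,
    8 * (NN n + 1) * (Fintype.card (Pt n) ^ Fintype.card (Pt n) + 1) * (16 + 1),
    fun C hC q hq L K₀ => ⟨0, fun β _ k C₁ k₀ i₀ i₁ Wg E' v A => ?_⟩⟩
  classical
  have U : US n ℝ k β C₁ L K₀ q E' v := ⟨A.par, A.unif, A.ne⟩
  have hC1 : 1 ≤ C := by omega
  have hNN : NN n = 6 * n + 5 := rfl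
  have hcC : Fintype.card (Crd n) = 2 * n + 1 := by simp [Crd]; ring
  have hcP : Fintype.card (Pt n) = 2 * n + 2 := by simp [Pt]; ring
  have hgeo := A.geo
  have hlong := A.long
  have hk := A.hk
  have hi01 : i₀ + C ≤ i₁ := by
    have : i₀ ≤ C * i₀ := Nat.le_mul_of_pos_left _ (by omega)
    omega
  have hi1W : NN n * i₀ + C ≤ Wg := by
    have h1 : NN n * i₀ ≤ C * i₁ := Nat.mul_le_mul (by omega) (by omega)
    omega
  have hi0W : i₀ ≤ Wg := by
    have : i₀ ≤ NN n * i₀ := Nat.le_mul_of_pos_left _ (by omega)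
    omega
  have hi1K : i₁ ≤ K₀ := by have := A.i₁_le_K hC1; omega
  have hk₀K : k₀ ≤ K₀ := A.k₀_le
  have hb1 := A.hb
  -- systems
  obtain ⟨f, hf, hfind⟩ := U.sysF k₀ hk₀K
  obtain ⟨hge1, hsys1⟩ := U.sysHat (ρ := Pt n) (x := xH1) (fun _ => rfl) k₀ hk₀K
    (U.famH1 k₀ hk₀K) f hf hfind
  obtain ⟨hge2, hsys2⟩ := U.sysHat (ρ := Pt n) (x := xH2) (fun _ => rfl) k₀ hk₀K
    (U.famH2 k₀ hk₀K) f hf hfind
  obtain ⟨c₁, hc₁⟩ : ∃ c₁, v (FI.F, k₀) + c₁ = v (FI.H1 k₀, i₀) :=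
    ⟨v (FI.H1 k₀, i₀) - v (FI.F, k₀), by have := hge1 i₀ (by omega); omega⟩
  obtain ⟨c₂, hc₂⟩ : ∃ c₂, v (FI.F, k₀) + c₂ = v (FI.H2 k₀, i₀) :=
    ⟨v (FI.H2 k₀, i₀) - v (FI.F, k₀), by have := hge2 i₀ (by omega); omega⟩
  obtain ⟨F1, hF1a, hF1b, hF1c, hF1d⟩ := hsys1 i₀ (by omega) c₁ hc₁
  obtain ⟨F2, hF2a, hF2b, hF2c, hF2d⟩ := hsys2 i₀ (by omega) c₂ hc₂
  let hh : Fin c₁ → MvPolynomial (Crd n ⊕ Pt n) ℝ := fun j => F1 (Fin.natAdd _ j)
  let hh' : Fin c₂ → MvPolynomial (Crd n ⊕ Pt n) ℝ := fun j => F2 (Fin.natAdd _ j)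
  have happ1 : (Fin.append (fun i => rename Sum.inl (f i)) hh :
      Fin (v (FI.F, k₀) + c₁) → MvPolynomial (Crd n ⊕ Pt n) ℝ) = F1 := by
    funext j
    refine Fin.addCases (fun i => ?_) (fun i => ?_) j
    · rw [Fin.append_left, hF1a]
    · rw [Fin.append_right]
  have happ2 : (Fin.append (fun i => rename Sum.inl (f i)) hh' :
      Fin (v (FI.F, k₀) + c₂) → MvPolynomial (Crd n ⊕ Pt n) ℝ) = F2 := by
    funext j
    refine Fin.addCases (fun i => ?_) (fun i => ?_) j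
    · rw [Fin.append_left, hF2a]
    · rw [Fin.append_right]
  -- the edges with exact values
  set E1 := core (cA n ℝ (β ^ L)) (JA K₀) v E' 1 with hE1
  have hE1sub : E1 ⊆ E' := core_subset _ _
  have hE1c : 16 * E'.card ≤ 16 * E1.card + E'.card := by
    refine A.unif.card_core' U.mono (Finset.Subset.refl _) 1 16 ?_
      (by have := A.hβ1; omega)
    refine le_trans ?_ A.par.hq
    have h1 : 1 ≤ K₀ * (L * k) := Nat.mul_pos (by omega) (Nat.mul_pos A.par.hL A.par.hk)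
    have h16 : 16 ≤ q := by
      refine le_trans ?_ hq
      have e1 : 1 ≤ (NN n + 1) * (Fintype.card (Pt n) ^ Fintype.card (Pt n) + 1) :=
        Nat.mul_pos (Nat.succ_pos _) (Nat.succ_pos _)
      calc 16 ≤ 136 * 1 := by norm_num
        _ ≤ 136 * ((NN n + 1) * (Fintype.card (Pt n) ^ Fintype.card (Pt n) + 1)) :=
            Nat.mul_le_mul_left _ e1
        _ = 8 * (NN n + 1) * (Fintype.card (Pt n) ^ Fintype.card (Pt n) + 1) * (16 + 1) := by
            ring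
    exact Nat.mul_le_mul h16 (Nat.mul_le_mul_right _ h1)
  have hE1d : E'.card ≤ 2 * E1.card := by omega
  -- exceptional sets of the hats
  have hpack : ∀ (x : Ed n ℝ → Crd n ⊕ Pt n → ℝ), (∀ e, x e ∘ Sum.inl = xF e) →
      ∀ (g : ℕ → FI × ℕ), IsFam (cA n ℝ (β ^ L)) (JA K₀) g K₀ x (fun _ => ())
      (Vw ℝ (wh (Crd n) (Pt n) ((β ^ L) ^ k₀))) ((β ^ L) ^ k₀) (β ^ L) →
      (∀ i, i₀ ≤ i → i ≤ i₁ → v (g i) = v (g i₀)) →
      ∀ (m : ℕ) (hm : v (g i₀) = v (FI.F, k₀) + m) (h : Fin m → MvPolynomial (Crd n ⊕ Pt n) ℝ),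
      (∀ j : Fin m, h j ∈ van x E' (Vw ℝ (wh (Crd n) (Pt n) ((β ^ L) ^ k₀))
        ((β ^ L) ^ (k₀ + kap (i₀ + 1) (fun j => v (g j)) (v (FI.F, k₀) + j))))) →
      (∀ e ∈ E', LinearIndependent ℝ (fun i => H930.grad (x e)
        ((Fin.append (fun i => rename Sum.inl (f i)) h :
          Fin (v (FI.F, k₀) + m) → MvPolynomial (Crd n ⊕ Pt n) ℝ) i))) →
      ∃ Y ⊆ E', 16 * Y.card ≤ E'.card ∧ ∀ e ∈ E1, e ∉ Y →
        LinearIndependent ℝ (fun (i : Fin m) (b : Pt n) =>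
          eval (x e) (pderiv (Sum.inr b) (h i))) ∧
        ∀ P ∈ Vw ℝ (wh (Crd n) (Pt n) ((β ^ L) ^ k₀)) ((β ^ L) ^ (k₀ + (i₀ + 1))),
          (∀ a ∈ E1, eval (x a) P = 0) → P ∈ H930.germ (x e)
            (Fin.append (fun i => rename Sum.inl (f i)) h :
              Fin (v (FI.F, k₀) + m) → MvPolynomial (Crd n ⊕ Pt n) ℝ) := by
    intro x hx g hg hgw m hm h hh2 hind
    have hxe : (fun e => x e ∘ Sum.inl) = xF := funext hx
    refine hat_pack (idxF := fun i => (FI.F, i)) (idxH := g) A.par A.unif A.ne U.mono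
      (by omega) (by omega) (by omega) k₀ i₀ i₁ Wg (by rw [hxe]; exact U.famF) hg
      (fun i h1 h2 => A.winF i h1 h2) hgw hk hi1K (by omega)
      (by rw [Nat.mul_comm]; omega) hm f h (fun j => by rw [hxe]; exact hf j) hh2 hind hE1sub
      hE1d 16 hq
  obtain ⟨Y₁, hY₁E, hY₁c, hY₁⟩ := hpack xH1 (fun _ => rfl) (fun i => (FI.H1 k₀, i))
    (U.famH1 k₀ hk₀K) A.winH1 c₁ hc₁.symm hh hF1c (by rw [happ1]; exact hF1d)
  obtain ⟨Y₂, hY₂E, hY₂c, hY₂⟩ := hpack xH2 (fun _ => rfl) (fun i => (FI.H2 k₀, i))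
    (U.famH2 k₀ hk₀K) A.winH2 c₂ hc₂.symm hh' hF2c (by rw [happ2]; exact hF2d)
  set E2 := E1 \ (Y₁ ∪ Y₂) with hE2
  have hE2card : 4 * (E' \ E2).card ≤ E'.card := by
    have h1 : E' \ E2 ⊆ (E' \ E1) ∪ (Y₁ ∪ Y₂) := by
      intro e he
      obtain ⟨h1, h2⟩ := Finset.mem_sdiff.1 he
      rw [Finset.mem_union, Finset.mem_sdiff]
      by_cases h3 : e ∈ E1
      · refine Or.inr ?_
        by_contra h4
        exact h2 (Finset.mem_sdiff.2 ⟨h3, h4⟩)
      · exact Or.inl ⟨h1, h3⟩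
    have h2 := Finset.card_le_card h1
    have h3 := Finset.card_union_le (E' \ E1) (Y₁ ∪ Y₂)
    have h4 := Finset.card_union_le Y₁ Y₂
    have h5 : (E' \ E1).card = E'.card - E1.card := Finset.card_sdiff_of_subset hE1sub
    omega
  have hE2ne : E2.Nonempty := by
    rw [Finset.nonempty_iff_ne_empty]
    intro h0
    rw [h0, Finset.sdiff_empty] at hE2card
    have := A.ne.card_pos
    omega
  have hmem2 : ∀ e ∈ E2, e ∈ E1 ∧ e ∉ Y₁ ∧ e ∉ Y₂ := by
    intro e he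
    obtain ⟨h1, h2⟩ := Finset.mem_sdiff.1 he
    rw [Finset.mem_union, not_or] at h2
    exact ⟨h1, h2⟩
  have hcard_le : ∀ (m : ℕ) (w : Fin m → Pt n → ℝ), LinearIndependent ℝ w → m ≤ 2 * (n + 1) := by
    intro m w hw
    have h1 := hw.fintype_card_le_finrank
    rw [Fintype.card_fin, Module.finrank_fintype_fun_eq_card, hcP] at h1
    omega
  obtain ⟨e₂, he₂⟩ := hE2ne
  have hc₁le : c₁ ≤ 2 * (n + 1) :=
    hcard_le c₁ _ (hY₁ e₂ (hmem2 e₂ he₂).1 (hmem2 e₂ he₂).2.1).1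
  have hc₂le : c₂ ≤ 2 * (n + 1) :=
    hcard_le c₂ _ (hY₂ e₂ (hmem2 e₂ he₂).1 (hmem2 e₂ he₂).2.2).1
  have hW1 : 1 ≤ (β ^ L) ^ k₀ := Nat.one_le_pow _ _ hb1.le
  have hWN : (β ^ L) ^ k₀ ≤ (β ^ L) ^ (k₀ + i₀) := Nat.pow_le_pow_right hb1.le (by omega)
  have hlev : (2 * n + 2) * (β ^ L) ^ (k₀ + i₀) + 2 * (β ^ L) ^ (k₀ + i₀) ≤
      (β ^ L) ^ (k₀ + (i₀ + 1)) := by
    have h1 := A.par.hβ
    have h2 := A.par.hk
    have h3 : NN n + 2 ≤ k * (NN n + 2) := Nat.le_mul_of_pos_left _ h2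
    have h4 : β ≤ β ^ L := Nat.le_self_pow A.par.hL.ne' _
    calc (2 * n + 2) * (β ^ L) ^ (k₀ + i₀) + 2 * (β ^ L) ^ (k₀ + i₀)
        = (2 * n + 4) * (β ^ L) ^ (k₀ + i₀) := by ring
      _ ≤ β ^ L * (β ^ L) ^ (k₀ + i₀) := Nat.mul_le_mul_right _ (by omega)
      _ = (β ^ L) ^ (k₀ + (i₀ + 1)) := by rw [← add_assoc, pow_succ]; ring
  have hmonF : ∀ k l : ℕ, k ≤ l → l < k₀ + 1 → v (FI.F, k) ≤ v (FI.F, l) := fun k l hkl hl =>
    A.unif.fam_mono A.ne A.hβ1 (H580.isFilt_total (k := ℝ) (σ := Crd n)).mono hb1.le U.famF hkl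
      (by omega)
  have hVH := H580.isFilt_Vw (k := ℝ) (wh (Crd n) (Pt n) ((β ^ L) ^ k₀)) (H580.wh_ne_zero hW1)
  have hmonH1 : ∀ k l : ℕ, k ≤ l → l < i₀ + 1 → v (FI.H1 k₀, k) ≤ v (FI.H1 k₀, l) :=
    fun k l hkl hl => A.unif.fam_mono A.ne A.hβ1 hVH.mono hb1.le (U.famH1 k₀ hk₀K) hkl (by omega)
  have hmonH2 : ∀ k l : ℕ, k ≤ l → l < i₀ + 1 → v (FI.H2 k₀, k) ≤ v (FI.H2 k₀, l) :=
    fun k l hkl hl => A.unif.fam_mono A.ne A.hβ1 hVH.mono hb1.le (U.famH2 k₀ hk₀K) hkl (by omega)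
  have hx2 : ∀ e ∈ E', xH2 e = hatPt e.2 (mu e.2 e.1) := fun e he =>
    xH2_eq (A.adj e he).1 (A.adj e he).2
  have hleaf : ∀ {S : Type} (p : Ed n ℝ → S) (g : ℕ → FI × ℕ),
      IsFam (cA n ℝ (β ^ L)) (JA K₀) g K₀ xL p (restrictTotalDegree (Fin n) ℝ) 1 (β ^ L) →
      v (g (k₀ + i₀)) = v (g k₀) → v (g k₀) ≤ n → ∀ e ∈ E1,
      gfr xL p (restrictTotalDegree (Fin n) ℝ) ((β ^ L) ^ (k₀ + i₀)) E' e + (n - v (g k₀)) = n := by
    intro S p g hg hw hle e he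
    have h1 := core_value he (g (k₀ + i₀)) (hg (k₀ + i₀) (by omega)).1
    rw [core_zero, (hg (k₀ + i₀) (by omega)).2, one_mul, hw] at h1
    omega
  have hL1le := U.vL1_le k₀ hk₀K
  have hL2le := U.vL2_le k₀ hk₀K
  have hFle := U.vF_le k₀ hk₀K
  have htight := A.tight
  let Z : ZData ℝ n E' E1 E2 (wB ((β ^ L) ^ k₀)) ((β ^ L) ^ (k₀ + i₀)) (v (FI.F, k₀)) c₁ c₂
      (n - v (FI.L1, k₀)) (n - v (FI.L2, k₀)) :=
    { adj := A.adj
      sub := hE1sub
      sub' := Finset.sdiff_subset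
      wt_pos := fun x => le_rfl
      wt_le := fun x => (H307.wB_le hW1 x).trans hWN
      leaf₁ := fun e he => leaf_annih (hleaf Prod.fst (fun i => (FI.L1, i)) U.famL1
        (A.winL1 _ (by omega) (by omega)) hL1le e he)
      leaf₂ := fun e he => leaf_annih (hleaf Prod.snd (fun i => (FI.L2, i)) U.famL2
        (A.winL2 _ (by omega) (by omega)) hL2le e he)
      f := f
      h := hh
      h' := hh'
      f_mem := fun j => by
        refine H580.Vw_mono _ ?_ (H580.rename_mem_Vw_of_total _ Sum.inl (fun _ => rfl)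
          (mem_van.1 (hf j)).1)
        refine (Nat.pow_le_pow_right hb1.le ?_).trans hWN
        exact H580.kap_le_of_lt (k₀ + 1) (fun i => v (FI.F, i)) hmonF j k₀ j.2
      h_mem := fun j => by
        refine H580.Vw_mono _ (Nat.pow_le_pow_right hb1.le ?_) (mem_van.1 (hF1c j)).1
        have := H580.kap_le_of_lt (i₀ + 1) (fun i => v (FI.H1 k₀, i)) hmonH1
          (v (FI.F, k₀) + j) i₀ (by rw [← hc₁]; have := j.2; omega)
        omega
      h'_mem := fun j => by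
        refine H580.Vw_mono _ (Nat.pow_le_pow_right hb1.le ?_) (mem_van.1 (hF2c j)).1
        have := H580.kap_le_of_lt (i₀ + 1) (fun i => v (FI.H2 k₀, i)) hmonH2
          (v (FI.F, k₀) + j) i₀ (by rw [← hc₂]; have := j.2; omega)
        omega
      f_zero := fun j e he => (mem_van.1 (hf j)).2 e he
      h_zero := fun j e he => (mem_van.1 (hF1c j)).2 e he
      h'_zero := fun j e he => by
        rw [← hx2 e he]
        exact (mem_van.1 (hF2c j)).2 e he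
      f_ind := fun e he => hfind e (hE1sub (hmem2 e he).1)
      h_ind := fun e he => (hY₁ e (hmem2 e he).1 (hmem2 e he).2.1).1
      h'_ind := fun e he => by
        rw [← hx2 e (hE1sub (hmem2 e he).1)]
        exact (hY₂ e (hmem2 e he).1 (hmem2 e he).2.2).1
      good₁ := fun e he P hP hP0 =>
        (hY₁ e (hmem2 e he).1 (hmem2 e he).2.1).2 P (H580.Vw_mono _ hlev hP) hP0
      good₂ := fun e he P hP hP0 => by
        rw [← hx2 e (hE1sub (hmem2 e he).1)]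
        refine (hY₂ e (hmem2 e he).1 (hmem2 e he).2.2).2 P (H580.Vw_mono _ hlev hP) ?_
        intro a ha
        rw [hx2 a (hE1sub ha)]
        exact hP0 a ha
      tight := by omega
      le₁ := by omega
      le₂ := by omega }
  refine ⟨E1, E2, v (FI.F, k₀), c₁, c₂, n - v (FI.L1, k₀), n - v (FI.L2, k₀),
    2 * (n + 1) - c₁, 2 * (n + 1) - c₂, Z, ?_, by omega, by omega, hE2card⟩
  exact
    { hc₀ := rfl
      hH1 := hc₁
      hH2 := hc₂
      hσ₁ := rfl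
      hσ₂ := rfl
      f_van := hf
      h_van := hF1c
      h'_van := hF2c
      f_ind := hfind
      H1_ind := fun e he => by
        show LinearIndependent ℝ (fun j => grad (xH1 e)
          ((Fin.append (fun i => rename Sum.inl (f i)) hh :
            Fin (v (FI.F, k₀) + c₁) → MvPolynomial (Crd n ⊕ Pt n) ℝ) j))
        rw [happ1]
        exact hF1d e he
      H2_ind := fun e he => by
        show LinearIndependent ℝ (fun j => grad (xH2 e)
          ((Fin.append (fun i => rename Sum.inl (f i)) hh' :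
            Fin (v (FI.F, k₀) + c₂) → MvPolynomial (Crd n ⊕ Pt n) ℝ) j))
        rw [happ2]
        exact hF2d e he }

end Vale.Agent.P054.T2.H930
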