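import Vale.Agent.P054.T2.H930.Germ

/-!
# Formal germs (P054, T2, leaf [F]), part 2: arbitrary points and coordinates
-/

set_option autoImplicit false
set_option linter.unusedSectionVars false

open MvPolynomial

namespace Vale.Agent.P054.T2.H930

variable {k : Type*} [Field k] {σ : Type*} [Fintype σ] [DecidableEq σ]

/-- the maximal ideal of the point `p` -/
noncomputable def mx (p : σ → k) : Ideal (MvPolynomial σ k) := RingHom.ker (eval p)

omit [Fintype σ] [DecidableEq σ] in
theorem mem_mx {p : σ → k} {F : MvPolynomial σ k} : F ∈ mx p ↔ eval p F = 0 := Iff.rfl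

omit [Fintype σ] [DecidableEq σ] in
theorem X_sub_mem_mx (p : σ → k) (j : σ) : (X j - C (p j) : MvPolynomial σ k) ∈ mx p := by
  rw [mem_mx]; simp

/-- gradient at `p` -/
noncomputable def grad (p : σ → k) (F : MvPolynomial σ k) : σ → k := fun j => eval p (pderiv j F)

omit [DecidableEq σ] in
/-- first order Taylor formula -/
theorem taylor_mem (p : σ → k) (F : MvPolynomial σ k) :
    F - C (eval p F) - ∑ j, C (grad p F j) * (X j - C (p j)) ∈ (mx p) ^ 2 := by
  classical
  induction F using MvPolynomial.induction_on with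
  | C a =>
    have : (C a : MvPolynomial σ k) - C (eval p (C a)) - ∑ j, C (grad p (C a) j) * (X j - C (p j))
        = 0 := by
      unfold grad
      simp
    rw [this]
    exact Ideal.zero_mem _
  | add a b ha hb =>
    have : a + b - C (eval p (a + b)) - ∑ j, C (grad p (a + b) j) * (X j - C (p j))
        = (a - C (eval p a) - ∑ j, C (grad p a j) * (X j - C (p j)))
        + (b - C (eval p b) - ∑ j, C (grad p b j) * (X j - C (p j))) := by
      unfold grad
      simp only [map_add, add_mul, Finset.sum_add_distrib]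
      ring
    rw [this]
    exact Ideal.add_mem _ ha hb
  | mul_X a i ha =>
    have hgrad : ∀ j, grad p (a * X i) j = grad p a j * p i + eval p a * (if i = j then 1 else 0) := by
      intro j
      unfold grad
      rw [pderiv_mul, map_add, map_mul, map_mul, eval_X, pderiv_X, Pi.single_apply]
      congr 2
      by_cases h : i = j
      · simp [h]
      · simp [h]
    have hsum : ∑ j, C (grad p (a * X i) j) * (X j - C (p j) : MvPolynomial σ k)
        = (∑ j, C (grad p a j) * (X j - C (p j))) * C (p i) + C (eval p a) * (X i - C (p i)) := by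
      have h1 : ∀ j, C (grad p (a * X i) j) * (X j - C (p j) : MvPolynomial σ k)
          = (C (grad p a j) * (X j - C (p j))) * C (p i)
            + (if i = j then C (eval p a) * (X i - C (p i)) else 0) := by
        intro j
        rw [hgrad j]
        by_cases h : i = j
        · subst h
          simp only [if_true, mul_one, map_add, map_mul]
          ring
        · simp only [h, if_false, mul_zero, add_zero, map_mul]
          ring
      rw [Finset.sum_congr rfl (fun j _ => h1 j), Finset.sum_add_distrib, ← Finset.sum_mul,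
        Finset.sum_ite_eq]
      simp
    have hev : (C (eval p (a * X i)) : MvPolynomial σ k) = C (eval p a) * C (p i) := by
      rw [map_mul, eval_X, map_mul]
    rw [hsum, hev]
    set S := ∑ j, C (grad p a j) * (X j - C (p j) : MvPolynomial σ k) with hS
    have hSm : S ∈ mx p := Ideal.sum_mem _ (fun j _ => Ideal.mul_mem_left _ _ (X_sub_mem_mx p j))
    have : a * X i - C (eval p a) * C (p i) - (S * C (p i) + C (eval p a) * (X i - C (p i)))
        = (a - C (eval p a) - S) * X i + S * (X i - C (p i)) := by ring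
    rw [this]
    refine Ideal.add_mem _ (Ideal.mul_mem_right _ _ ha) ?_
    rw [pow_two]
    exact Ideal.mul_mem_mul hSm (X_sub_mem_mx p i)

omit [Fintype σ] [DecidableEq σ] in
theorem mx_eq_span (p : σ → k) :
    mx p = Ideal.span (Set.range (fun j => (X j - C (p j) : MvPolynomial σ k))) := by
  apply le_antisymm
  · intro F hF
    have hle : (mx p) ^ 2 ≤ Ideal.span (Set.range (fun j => (X j - C (p j) : MvPolynomial σ k)))
        ∨ True := Or.inr trivial
    -- use the evaluation modulo the span
    have key : (Ideal.Quotient.mkₐ k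
        (Ideal.span (Set.range (fun j => (X j - C (p j) : MvPolynomial σ k)))))
        = (Algebra.ofId k _).comp (aeval p : MvPolynomial σ k →ₐ[k] k) := by
      apply MvPolynomial.algHom_ext
      intro j
      simp only [AlgHom.comp_apply, Ideal.Quotient.mkₐ_eq_mk, aeval_X]
      rw [Algebra.ofId_apply]
      have : (algebraMap k (MvPolynomial σ k ⧸
          Ideal.span (Set.range (fun j => (X j - C (p j) : MvPolynomial σ k))))) (p j)
          = Ideal.Quotient.mk _ (C (p j)) := rfl
      rw [this, Ideal.Quotient.eq]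
      exact Ideal.subset_span ⟨j, rfl⟩
    have h2 := DFunLike.congr_fun key F
    simp only [AlgHom.comp_apply, Ideal.Quotient.mkₐ_eq_mk] at h2
    have h3 : (aeval p : MvPolynomial σ k →ₐ[k] k) F = 0 := by
      have : (aeval p : MvPolynomial σ k →ₐ[k] k) F = eval p F := by
        rw [MvPolynomial.aeval_def, MvPolynomial.eval₂_eq_eval_map]; simp
      rw [this]; exact hF
    rw [h3, map_zero] at h2
    exact Ideal.Quotient.eq_zero_iff_mem.1 h2
  · rw [Ideal.span_le]
    rintro _ ⟨j, rfl⟩
    exact X_sub_mem_mx p j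

/-- adapted basis: the first `e` vectors are tangent, the last `c` are dual to the gradients -/
theorem exists_basis {c : ℕ} (G : Fin c → σ → k) (hG : LinearIndependent k G) :
    ∃ e : ℕ, e + c = Fintype.card σ ∧ ∃ b : Module.Basis (Fin e ⊕ Fin c) k (σ → k),
      (∀ l i, ∑ j, G i j * b (Sum.inl l) j = 0) ∧
      (∀ m i, ∑ j, G i j * b (Sum.inr m) j = if i = m then 1 else 0) := by
  classical
  let L : (σ → k) →ₗ[k] (Fin c → k) := Matrix.toLin' (Matrix.of G)
  have hL : ∀ v i, L v i = ∑ j, G i j * v j := by
    intro v i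
    simp [L, Matrix.toLin'_apply, Matrix.mulVec, dotProduct]
  have hsurj : Function.Surjective L := by
    have hrank : (Matrix.of G).rank = Fintype.card (Fin c) := by
      have h1 : LinearIndependent k (Matrix.of G).row := hG
      exact h1.rank_matrix
    have h2 : LinearMap.range L = ⊤ := by
      apply Submodule.eq_top_of_finrank_eq
      rw [Module.finrank_fintype_fun_eq_card]
      rw [Matrix.rank] at hrank
      rw [← hrank]
      rfl
    exact LinearMap.range_eq_top.1 h2
  choose ν hν using fun m : Fin c => hsurj (Pi.single m 1)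
  have hfin : Module.finrank k (LinearMap.ker L) + c = Fintype.card σ := by
    have := LinearMap.finrank_range_add_finrank_ker L
    rw [LinearMap.range_eq_top.2 hsurj, finrank_top, Module.finrank_fintype_fun_eq_card,
      Module.finrank_fintype_fun_eq_card] at this
    simp only [Fintype.card_fin] at this
    omega
  obtain ⟨e, he⟩ : ∃ e, e = Module.finrank k (LinearMap.ker L) := ⟨_, rfl⟩
  let τ : Module.Basis (Fin e) k (LinearMap.ker L) := Module.finBasisOfFinrankEq k _ he.symm
  let v : Fin e ⊕ Fin c → (σ → k) := Sum.elim (fun l => (τ l : σ → k)) ν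
  have hv : LinearIndependent k v := by
    rw [Fintype.linearIndependent_iff]
    intro g hg
    rw [Fintype.sum_sum_type] at hg
    simp only [v, Sum.elim_inl, Sum.elim_inr] at hg
    have h1 := congrArg L hg
    rw [map_add, map_sum, map_sum, map_zero] at h1
    have h2 : ∑ x, L (g (Sum.inl x) • (τ x : σ → k)) = 0 := by
      apply Finset.sum_eq_zero
      intro x _
      rw [map_smul]
      have : L (τ x : σ → k) = 0 := (τ x).2
      rw [this, smul_zero]
    rw [h2, zero_add] at h1
    have h3 : ∀ i, g (Sum.inr i) = 0 := by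
      intro i
      have h4 := congrFun h1 i
      rw [Finset.sum_apply] at h4
      simp only [map_smul, hν, Pi.smul_apply, Pi.zero_apply, smul_eq_mul, Pi.single_apply] at h4
      simpa using h4
    have h5 : ∑ x, g (Sum.inl x) • (τ x : σ → k) = 0 := by
      rw [← hg]
      simp [h3]
    have h6 : ∑ x, g (Sum.inl x) • τ x = 0 := by
      apply Subtype.ext
      rw [Submodule.coe_zero, ← h5]
      simp
    have h7 := Fintype.linearIndependent_iff.1 τ.linearIndependent _ h6
    intro i
    rcases i with l | i
    · exact h7 l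
    · exact h3 i
  have hcard : Fintype.card (Fin e ⊕ Fin c) = Module.finrank k (σ → k) := by
    rw [Module.finrank_fintype_fun_eq_card, Fintype.card_sum, Fintype.card_fin, Fintype.card_fin]
    omega
  refine ⟨e, by omega, ?_⟩
  refine ⟨Module.Basis.mk hv ?_, ?_, ?_⟩
  · have := hv.span_eq_top_of_card_eq_finrank' hcard
    rw [this]
  · intro l i
    rw [Module.Basis.mk_apply]
    simp only [v, Sum.elim_inl]
    rw [← hL]
    have : L (τ l : σ → k) = 0 := (τ l).2
    rw [this]; rfl
  · intro m i
    rw [Module.Basis.mk_apply]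
    simp only [v, Sum.elim_inr]
    rw [← hL, hν, Pi.single_apply]


section coord

variable {ι : Type*} [Fintype ι] [DecidableEq ι]

/-- affine coordinates at `p` -/
noncomputable def toC (p : σ → k) (b : Module.Basis ι k (σ → k)) :
    MvPolynomial σ k →ₐ[k] MvPolynomial ι k :=
  aeval (fun j => C (p j) + ∑ m, C (b m j) * X m)

noncomputable def zf (p : σ → k) (b : Module.Basis ι k (σ → k)) (m : ι) : MvPolynomial σ k :=
  ∑ j, C (b.repr (Pi.single j 1) m) * (X j - C (p j))

noncomputable def fromC (p : σ → k) (b : Module.Basis ι k (σ → k)) :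
    MvPolynomial ι k →ₐ[k] MvPolynomial σ k :=
  aeval (zf p b)

omit [DecidableEq ι] [DecidableEq σ] [Fintype σ] in
theorem toC_X_sub (p : σ → k) (b : Module.Basis ι k (σ → k)) (j : σ) :
    toC p b (X j - C (p j)) = ∑ m, C (b m j) * X m := by
  unfold toC
  rw [map_sub, aeval_X, MvPolynomial.algHom_C]
  simp [MvPolynomial.algebraMap_eq]

omit [DecidableEq ι] in
theorem basis_id1 (b : Module.Basis ι k (σ → k)) (j j' : σ) :
    ∑ m, b.repr (Pi.single j' 1) m * b m j = if j = j' then 1 else 0 := by
  have h := b.sum_repr (Pi.single j' (1 : k))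
  have h2 := congrFun h j
  rw [Finset.sum_apply] at h2
  simp only [Pi.smul_apply, smul_eq_mul] at h2
  rw [h2, Pi.single_apply]

theorem basis_id2 (b : Module.Basis ι k (σ → k)) (m m' : ι) :
    ∑ j, b m' j * b.repr (Pi.single j 1) m = if m = m' then 1 else 0 := by
  have h : b m' = ∑ j, b m' j • (Pi.single j (1 : k) : σ → k) := by
    ext x
    rw [Finset.sum_apply]
    simp [Pi.single_apply]
  have h2 := congrArg (fun v => b.repr v m) h
  simp only [map_sum, map_smul, Finsupp.coe_finsetSum, Finset.sum_apply, Finsupp.coe_smul,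
    Pi.smul_apply, smul_eq_mul, Module.Basis.repr_self, Finsupp.single_apply] at h2
  rw [← h2]
  by_cases h : m = m'
  · simp [h]
  · simp [h, Ne.symm h]

omit [DecidableEq ι] in
theorem fromC_toC (p : σ → k) (b : Module.Basis ι k (σ → k)) :
    (fromC p b).comp (toC p b) = AlgHom.id k _ := by
  apply MvPolynomial.algHom_ext
  intro j
  rw [AlgHom.comp_apply, AlgHom.id_apply]
  unfold toC fromC
  rw [aeval_X, map_add, MvPolynomial.algHom_C, map_sum]
  have h1 : ∀ m, (aeval (zf p b)) (C (b m j) * X m : MvPolynomial ι k)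
      = ∑ j', C (b.repr (Pi.single j' 1) m * b m j) * (X j' - C (p j') : MvPolynomial σ k) := by
    intro m
    rw [map_mul, aeval_X, MvPolynomial.algHom_C]
    unfold zf
    rw [Finset.mul_sum]
    refine Finset.sum_congr rfl (fun j' _ => ?_)
    rw [map_mul, MvPolynomial.algebraMap_eq]
    ring
  rw [Finset.sum_congr rfl (fun m _ => h1 m), Finset.sum_comm]
  have h2 : ∀ j', ∑ m, C (b.repr (Pi.single j' 1) m * b m j) * (X j' - C (p j') : MvPolynomial σ k)
      = if j = j' then (X j - C (p j) : MvPolynomial σ k) else 0 := by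
    intro j'
    rw [← Finset.sum_mul, ← map_sum, basis_id1 b j j']
    by_cases h : j = j'
    · subst h; simp
    · simp [h]
  rw [Finset.sum_congr rfl (fun j' _ => h2 j'), Finset.sum_ite_eq]
  simp [MvPolynomial.algebraMap_eq]

theorem toC_fromC (p : σ → k) (b : Module.Basis ι k (σ → k)) :
    (toC p b).comp (fromC p b) = AlgHom.id k _ := by
  apply MvPolynomial.algHom_ext
  intro m
  rw [AlgHom.comp_apply, AlgHom.id_apply]
  unfold fromC
  rw [aeval_X]
  unfold zf
  rw [map_sum]
  have h1 : ∀ j, toC p b (C (b.repr (Pi.single j 1) m) * (X j - C (p j)) : MvPolynomial σ k)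
      = ∑ m', C (b m' j * b.repr (Pi.single j 1) m) * (X m' : MvPolynomial ι k) := by
    intro j
    rw [map_mul, toC_X_sub, MvPolynomial.algHom_C, Finset.mul_sum]
    refine Finset.sum_congr rfl (fun m' _ => ?_)
    rw [map_mul, MvPolynomial.algebraMap_eq]
    ring
  rw [Finset.sum_congr rfl (fun j _ => h1 j), Finset.sum_comm]
  have h2 : ∀ m', ∑ j, C (b m' j * b.repr (Pi.single j 1) m) * (X m' : MvPolynomial ι k)
      = if m = m' then X m' else 0 := by
    intro m'
    rw [← Finset.sum_mul, ← map_sum, basis_id2 b m m']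
    by_cases h : m = m'
    · subst h; simp
    · simp [h]
  rw [Finset.sum_congr rfl (fun m' _ => h2 m'), Finset.sum_ite_eq]
  simp

/-- the affine change of coordinates -/
noncomputable def thC (p : σ → k) (b : Module.Basis ι k (σ → k)) :
    MvPolynomial σ k ≃ₐ[k] MvPolynomial ι k :=
  AlgEquiv.ofAlgHom (toC p b) (fromC p b) (toC_fromC p b) (fromC_toC p b)

theorem thC_map_mx (p : σ → k) (b : Module.Basis ι k (σ → k)) :
    (mx p).map (thC p b : MvPolynomial σ k →+* MvPolynomial ι k) = idealOfVars ι k := by
  apply le_antisymm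
  · rw [mx_eq_span, Ideal.map_span, Ideal.span_le]
    rintro _ ⟨_, ⟨j, rfl⟩, rfl⟩
    change toC p b (X j - C (p j)) ∈ _
    rw [toC_X_sub]
    refine Ideal.sum_mem _ (fun m _ => Ideal.mul_mem_left _ _ ?_)
    exact Ideal.subset_span ⟨m, rfl⟩
  · unfold idealOfVars
    rw [Ideal.span_le]
    rintro _ ⟨m, rfl⟩
    have h1 : zf p b m ∈ mx p := by
      unfold zf
      exact Ideal.sum_mem _ (fun j _ => Ideal.mul_mem_left _ _ (X_sub_mem_mx p j))
    have h2 : (thC p b : MvPolynomial σ k →+* MvPolynomial ι k) (zf p b m) = X m := by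
      change toC p b (zf p b m) = X m
      have h3 := DFunLike.congr_fun (toC_fromC p b) (X m)
      rw [AlgHom.comp_apply, AlgHom.id_apply] at h3
      have h4 : fromC p b (X m) = zf p b m := by
        unfold fromC; rw [aeval_X]
      rw [h4] at h3
      exact h3
    rw [← h2]
    exact Ideal.mem_map_of_mem _ h1

theorem mem_thC {p : σ → k} {b : Module.Basis ι k (σ → k)} {I : Ideal (MvPolynomial σ k)}
    {F : MvPolynomial σ k} :
    thC p b F ∈ I.map (thC p b : MvPolynomial σ k →+* MvPolynomial ι k) ↔ F ∈ I := by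
  constructor
  · intro h
    have h2 := Ideal.mem_map_of_mem ((thC p b).symm : MvPolynomial ι k →+* MvPolynomial σ k) h
    rw [Ideal.map_map] at h2
    have h3 : ((thC p b).symm : MvPolynomial ι k →+* MvPolynomial σ k).comp
        (thC p b : MvPolynomial σ k →+* MvPolynomial ι k) = RingHom.id _ := by
      ext x <;> simp
    rw [h3, Ideal.map_id] at h2
    have h4 : ((thC p b).symm : MvPolynomial ι k →+* MvPolynomial σ k) (thC p b F) = F := by simp
    rw [h4] at h2
    exact h2
  · intro h
    exact Ideal.mem_map_of_mem (thC p b : MvPolynomial σ k →+* MvPolynomial ι k) h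

end coord

/-- `J p f n = (f) + 𝔪_p^n` -/
noncomputable def J {c : ℕ} (p : σ → k) (f : Fin c → MvPolynomial σ k) (n : ℕ) :
    Ideal (MvPolynomial σ k) := Ideal.span (Set.range f) ⊔ (mx p) ^ n

/-- the germ ideal at `p` of `{f = 0}` -/
noncomputable def germ {c : ℕ} (p : σ → k) (f : Fin c → MvPolynomial σ k) :
    Ideal (MvPolynomial σ k) := ⨅ n, J p f n

/-- **Formal implicit function theorem with local coordinates.** -/
theorem exists_germ {c : ℕ} (p : σ → k) (f : Fin c → MvPolynomial σ k)
    (hf : ∀ i, eval p (f i) = 0) (hind : LinearIndependent k (fun i => grad p (f i))) :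
    ∃ e : ℕ, e + c = Fintype.card σ ∧
      ∃ (φ : MvPolynomial σ k →ₐ[k] MvPowerSeries (Fin e) k) (a : Fin e → σ → k)
        (ζ : Fin e → MvPolynomial σ k),
        (∀ l, ζ l = ∑ j, C (a l j) * (X j - C (p j))) ∧
        (∀ A : MvPolynomial (Fin e) k, φ (aeval ζ A) = (A : MvPowerSeries (Fin e) k)) ∧
        (∀ i, φ (f i) = 0) ∧
        (∀ n F, φ F ∈ (ordI n : Ideal (MvPowerSeries (Fin e) k)) ↔ F ∈ J p f n) ∧
        (∀ n F, ∃ A : MvPolynomial (Fin e) k, (∀ d ∈ A.support, d.degree < n) ∧
          F - aeval ζ A ∈ J p f n) := by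
  classical
  obtain ⟨e, he, b, hb1, hb2⟩ := exists_basis (fun i => grad p (f i)) hind
  have hf2 : ∀ i, thC p b (f i) - X (Sum.inr i) ∈ (idealOfVars (Fin e ⊕ Fin c) k) ^ 2 := by
    intro i
    have h1 := taylor_mem p (f i)
    rw [hf i, map_zero, sub_zero] at h1
    have h2 := Ideal.mem_map_of_mem (thC p b : MvPolynomial σ k →+* MvPolynomial (Fin e ⊕ Fin c) k) h1
    rw [Ideal.map_pow, thC_map_mx] at h2
    have h3 : (thC p b : MvPolynomial σ k →+* MvPolynomial (Fin e ⊕ Fin c) k)
        (f i - ∑ j, C (grad p (f i) j) * (X j - C (p j)))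
        = thC p b (f i) - X (Sum.inr i) := by
      change toC p b (f i - ∑ j, C (grad p (f i) j) * (X j - C (p j)))
        = toC p b (f i) - X (Sum.inr i)
      rw [map_sub, map_sum]
      congr 1
      have h4 : ∀ j, toC p b (C (grad p (f i) j) * (X j - C (p j)) : MvPolynomial σ k)
          = ∑ m, C (grad p (f i) j * b m j) * (X m : MvPolynomial (Fin e ⊕ Fin c) k) := by
        intro j
        rw [map_mul, toC_X_sub, MvPolynomial.algHom_C, Finset.mul_sum]
        refine Finset.sum_congr rfl (fun m _ => ?_)
        rw [map_mul, MvPolynomial.algebraMap_eq]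
        ring
      rw [Finset.sum_congr rfl (fun j _ => h4 j), Finset.sum_comm]
      have h5 : ∀ m, ∑ j, C (grad p (f i) j * b m j) * (X m : MvPolynomial (Fin e ⊕ Fin c) k)
          = if m = Sum.inr i then X m else 0 := by
        intro m
        rw [← Finset.sum_mul, ← map_sum]
        rcases m with l | m
        · rw [hb1 l i]; simp
        · rw [hb2 m i]
          by_cases h : i = m
          · subst h; simp
          · simp [h, Ne.symm h]
      rw [Finset.sum_congr rfl (fun m _ => h5 m), Finset.sum_ite_eq']
      simp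
    rw [h3] at h2
    exact h2
  obtain ⟨φ', h1, h2, h3⟩ := norm_germ (fun i => thC p b (f i)) hf2
  have hJ : ∀ n, (J p f n).map (thC p b : MvPolynomial σ k →+* MvPolynomial (Fin e ⊕ Fin c) k)
      = Ideal.span (Set.range (fun i => thC p b (f i))) ⊔ (idealOfVars (Fin e ⊕ Fin c) k) ^ n := by
    intro n
    unfold J
    rw [Ideal.map_sup, Ideal.map_pow, thC_map_mx, Ideal.map_span]
    congr 2
    ext x
    constructor
    · rintro ⟨_, ⟨i, rfl⟩, rfl⟩
      exact ⟨i, rfl⟩
    · rintro ⟨i, rfl⟩
      exact ⟨_, ⟨i, rfl⟩, rfl⟩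
  have haev : ∀ A : MvPolynomial (Fin e) k,
      thC p b (aeval (fun l => zf p b (Sum.inl l)) A) = rename Sum.inl A := by
    intro A
    have key : ((thC p b : MvPolynomial σ k →ₐ[k] MvPolynomial (Fin e ⊕ Fin c) k)).comp
        (aeval (fun l => zf p b (Sum.inl l)))
        = (rename Sum.inl : MvPolynomial (Fin e) k →ₐ[k] _) := by
      apply MvPolynomial.algHom_ext
      intro l
      rw [AlgHom.comp_apply, aeval_X, rename_X]
      change toC p b (zf p b (Sum.inl l)) = X (Sum.inl l)
      have h3 := DFunLike.congr_fun (toC_fromC p b) (X (Sum.inl l))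
      rw [AlgHom.comp_apply, AlgHom.id_apply] at h3
      have h4 : fromC p b (X (Sum.inl l)) = zf p b (Sum.inl l) := by
        unfold fromC; rw [aeval_X]
      rw [h4] at h3
      exact h3
    exact DFunLike.congr_fun key A
  refine ⟨e, he, φ'.comp (thC p b : MvPolynomial σ k →ₐ[k] MvPolynomial (Fin e ⊕ Fin c) k),
    fun l j => b.repr (Pi.single j 1) (Sum.inl l), fun l => zf p b (Sum.inl l),
    fun l => rfl, ?_, ?_, ?_, ?_⟩
  · intro A
    rw [AlgHom.comp_apply]
    have := haev A
    change φ' (thC p b (aeval (fun l => zf p b (Sum.inl l)) A)) = _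
    rw [this, h1]
  · intro i
    exact h2 i
  · intro n F
    rw [AlgHom.comp_apply]
    change φ' (thC p b F) ∈ _ ↔ _
    rw [h3, ← hJ n, mem_thC]
  · intro n F
    obtain ⟨A, hA, hA'⟩ := J_repr (fun i => thC p b (f i)) hf2 n (thC p b F)
    refine ⟨A, hA, ?_⟩
    rw [← haev A, ← map_sub, ← hJ n, mem_thC] at hA'
    exact hA'

end Vale.Agent.P054.T2.H930
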