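import Mathlib

/-!
# Formal germs (P054, T2, leaf [F])

`p` a point of `k^σ`, `f_1..f_c` polynomials vanishing at `p` with linearly independent gradients.
`mx p` is the maximal ideal of `p`, `J p f n = (f) + (mx p)^n`, `germ p f = ⨅ n, J p f n`.
-/

set_option autoImplicit false

open MvPolynomial

namespace Vale.Agent.P054.T2.H930

/-- power series of order at least `n`, as an ideal -/
noncomputable def ordI {τ k : Type*} [CommRing k] (n : ℕ) : Ideal (MvPowerSeries τ k) where
  carrier := {F | (n : ℕ∞) ≤ F.order}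
  add_mem' := by
    intro a b ha hb
    exact le_trans (le_min ha hb) MvPowerSeries.min_order_le_add
  zero_mem' := by
    simp
  smul_mem' := by
    intro c x hx
    have h1 : c.order + x.order ≤ (c * x).order := MvPowerSeries.le_order_mul
    exact le_trans (le_trans hx le_add_self) h1

theorem mem_ordI {τ k : Type*} [CommRing k] {n : ℕ} {F : MvPowerSeries τ k} :
    F ∈ (ordI n : Ideal (MvPowerSeries τ k)) ↔ (n : ℕ∞) ≤ F.order := Iff.rfl

theorem mem_ordI' {τ k : Type*} [CommRing k] {n : ℕ} {F : MvPowerSeries τ k} :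
    F ∈ (ordI n : Ideal (MvPowerSeries τ k)) ↔
      ∀ d : τ →₀ ℕ, d.degree < n → MvPowerSeries.coeff d F = 0 := by
  constructor
  · intro h d hd
    refine MvPowerSeries.coeff_of_lt_order (lt_of_lt_of_le ?_ h)
    exact_mod_cast hd
  · intro h
    exact MvPowerSeries.nat_le_order h

theorem mul_mem_ordI {τ k : Type*} [CommRing k] {a b : ℕ} {F G : MvPowerSeries τ k}
    (hF : F ∈ (ordI a : Ideal (MvPowerSeries τ k))) (hG : G ∈ (ordI b : Ideal (MvPowerSeries τ k))) :
    F * G ∈ (ordI (a + b) : Ideal (MvPowerSeries τ k)) := by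
  rw [mem_ordI] at *
  have h1 : F.order + G.order ≤ (F * G).order := MvPowerSeries.le_order_mul
  push_cast
  exact le_trans (add_le_add hF hG) h1

theorem ordI_mono {τ k : Type*} [CommRing k] {a b : ℕ} (h : a ≤ b) :
    (ordI b : Ideal (MvPowerSeries τ k)) ≤ ordI a := by
  intro F hF
  rw [mem_ordI] at *
  exact le_trans (by exact_mod_cast h) hF

theorem eq_zero_of_mem_ordI {τ k : Type*} [CommRing k] {F : MvPowerSeries τ k}
    (h : ∀ n : ℕ, F ∈ (ordI n : Ideal (MvPowerSeries τ k))) : F = 0 := by
  ext d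
  have := mem_ordI'.1 (h (d.degree + 1)) d (Nat.lt_succ_self _)
  simpa using this

/-- evaluation `Z_l ↦ Z_l`, `Y_i ↦ y_i` -/
noncomputable def ev {k α β : Type*} [CommRing k] (y : β → MvPowerSeries α k) :
    MvPolynomial (α ⊕ β) k →ₐ[k] MvPowerSeries α k :=
  aeval (Sum.elim (fun l => MvPowerSeries.X l) y)

theorem ev_mem_pow {k α β : Type*} [CommRing k] (y : β → MvPowerSeries α k)
    (hy : ∀ i, y i ∈ (ordI 1 : Ideal (MvPowerSeries α k))) (n : ℕ) (F : MvPolynomial (α ⊕ β) k)
    (hF : F ∈ (idealOfVars (α ⊕ β) k) ^ n) : ev y F ∈ (ordI n : Ideal (MvPowerSeries α k)) := by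
  have hX : ∀ l : α, (MvPowerSeries.X l : MvPowerSeries α k) ∈ (ordI 1 : Ideal (MvPowerSeries α k)) := by
    intro l
    rw [mem_ordI']
    intro d hd
    have hd0 : d = 0 := by
      have : d.degree = 0 := by omega
      exact (Finsupp.degree_eq_zero_iff d).1 this
    subst hd0
    rw [MvPowerSeries.coeff_zero_X]
  have h1 : (idealOfVars (α ⊕ β) k) ≤ (ordI 1 : Ideal (MvPowerSeries α k)).comap (ev y).toRingHom := by
    unfold idealOfVars
    rw [Ideal.span_le]
    rintro _ ⟨m, rfl⟩
    change ev y (X m) ∈ (ordI 1 : Ideal (MvPowerSeries α k))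
    unfold ev
    rw [aeval_X]
    rcases m with l | i
    · exact hX l
    · exact hy i
  induction n generalizing F with
  | zero =>
    rw [mem_ordI]
    simp
  | succ n ih =>
    rw [pow_succ] at hF
    induction hF using Submodule.mul_induction_on' with
    | mem_mul_mem a ha b hb =>
      rw [map_mul]
      exact mul_mem_ordI (ih a ha) (h1 hb)
    | add a _ b _ ha hb =>
      rw [map_add]
      exact Ideal.add_mem _ ha hb

theorem ev_sub_mem {k α β : Type*} [CommRing k] (y y' : β → MvPowerSeries α k) (n : ℕ)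
    (hyy : ∀ i, y i - y' i ∈ (ordI n : Ideal (MvPowerSeries α k)))
    (F : MvPolynomial (α ⊕ β) k) : ev y F - ev y' F ∈ (ordI n : Ideal (MvPowerSeries α k)) := by
  have key : ((Ideal.Quotient.mkₐ k (ordI n : Ideal (MvPowerSeries α k))).comp (ev y))
      = ((Ideal.Quotient.mkₐ k (ordI n : Ideal (MvPowerSeries α k))).comp (ev y')) := by
    apply MvPolynomial.algHom_ext
    intro m
    simp only [AlgHom.comp_apply, Ideal.Quotient.mkₐ_eq_mk]
    rw [Ideal.Quotient.eq]
    unfold ev
    rw [aeval_X, aeval_X]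
    rcases m with l | i
    · simp
    · exact hyy i
  have h2 := DFunLike.congr_fun key F
  simp only [AlgHom.comp_apply, Ideal.Quotient.mkₐ_eq_mk] at h2
  exact Ideal.Quotient.eq.1 h2

theorem ev_sub_mem_sq {k α β : Type*} [CommRing k] (y y' : β → MvPowerSeries α k)
    (hy : ∀ i, y i ∈ (ordI 1 : Ideal (MvPowerSeries α k)))
    (hy' : ∀ i, y' i ∈ (ordI 1 : Ideal (MvPowerSeries α k))) (n : ℕ)
    (hyy : ∀ i, y i - y' i ∈ (ordI n : Ideal (MvPowerSeries α k)))
    (F : MvPolynomial (α ⊕ β) k) (hF : F ∈ (idealOfVars (α ⊕ β) k) ^ 2) :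
    ev y F - ev y' F ∈ (ordI (n + 1) : Ideal (MvPowerSeries α k)) := by
  rw [pow_two] at hF
  induction hF using Submodule.mul_induction_on' with
  | mem_mul_mem a ha b hb =>
    rw [map_mul, map_mul]
    have h1 : ev y a * ev y b - ev y' a * ev y' b
        = (ev y a - ev y' a) * ev y b + (ev y b - ev y' b) * ev y' a := by ring
    rw [h1]
    refine Ideal.add_mem _ ?_ ?_
    · exact mul_mem_ordI (ev_sub_mem y y' n hyy a)
        (ev_mem_pow y hy 1 b (by rw [pow_one]; exact hb))
    · exact mul_mem_ordI (ev_sub_mem y y' n hyy b)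
        (ev_mem_pow y' hy' 1 a (by rw [pow_one]; exact ha))
  | add a _ b _ ha hb =>
    have h1 : ev y (a + b) - ev y' (a + b) = (ev y a - ev y' a) + (ev y b - ev y' b) := by
      rw [map_add, map_add]; ring
    rw [h1]
    exact Ideal.add_mem _ ha hb

/-- the iteration -/
noncomputable def it {k α β : Type*} [CommRing k] (g : β → MvPolynomial (α ⊕ β) k) :
    ℕ → β → MvPowerSeries α k
  | 0 => 0
  | n + 1 => fun i => ev (it g n) (g i)

theorem it_mem {k α β : Type*} [CommRing k] (g : β → MvPolynomial (α ⊕ β) k)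
    (hg : ∀ i, g i ∈ (idealOfVars (α ⊕ β) k) ^ 2) (n : ℕ) (i : β) :
    it g n i ∈ (ordI 2 : Ideal (MvPowerSeries α k)) := by
  induction n generalizing i with
  | zero => exact Ideal.zero_mem _
  | succ n ih =>
    exact ev_mem_pow _ (fun j => ordI_mono (by omega) (ih j)) 2 _ (hg i)

theorem it_succ_sub {k α β : Type*} [CommRing k] (g : β → MvPolynomial (α ⊕ β) k)
    (hg : ∀ i, g i ∈ (idealOfVars (α ⊕ β) k) ^ 2) (n : ℕ) (i : β) :
    it g (n + 1) i - it g n i ∈ (ordI (n + 1) : Ideal (MvPowerSeries α k)) := by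
  induction n generalizing i with
  | zero =>
    have h1 := it_mem g hg 1 i
    have h0 : it g 0 i = 0 := rfl
    rw [h0, sub_zero]
    exact ordI_mono (by omega) h1
  | succ n ih =>
    exact ev_sub_mem_sq _ _ (fun j => ordI_mono (by omega) (it_mem g hg (n + 1) j))
      (fun j => ordI_mono (by omega) (it_mem g hg n j)) (n + 1) (fun j => ih j) _ (hg i)

theorem it_sub_of_le {k α β : Type*} [CommRing k] (g : β → MvPolynomial (α ⊕ β) k)
    (hg : ∀ i, g i ∈ (idealOfVars (α ⊕ β) k) ^ 2) {n m : ℕ} (h : n ≤ m) (i : β) :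
    it g m i - it g n i ∈ (ordI (n + 1) : Ideal (MvPowerSeries α k)) := by
  induction m, h using Nat.le_induction with
  | base => rw [sub_self]; exact Ideal.zero_mem _
  | succ m hm ih =>
    have h1 : it g (m + 1) i - it g n i = (it g (m + 1) i - it g m i) + (it g m i - it g n i) := by
      ring
    rw [h1]
    exact Ideal.add_mem _ (ordI_mono (by omega) (it_succ_sub g hg m i)) ih

/-- formal implicit function theorem, normalised form `y = g(z,y)`, `g ∈ 𝔪²` -/
theorem exists_fix {k α β : Type*} [CommRing k] (g : β → MvPolynomial (α ⊕ β) k)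
    (hg : ∀ i, g i ∈ (idealOfVars (α ⊕ β) k) ^ 2) :
    ∃ y : β → MvPowerSeries α k, (∀ i, y i ∈ (ordI 2 : Ideal (MvPowerSeries α k))) ∧
      ∀ i, ev y (g i) = y i := by
  classical
  let y : β → MvPowerSeries α k := fun i d => MvPowerSeries.coeff d (it g (d.degree + 1) i)
  have hyc : ∀ i d, MvPowerSeries.coeff d (y i) = MvPowerSeries.coeff d (it g (d.degree + 1) i) :=
    fun i d => rfl
  have hyn : ∀ n i, y i - it g n i ∈ (ordI n : Ideal (MvPowerSeries α k)) := by
    intro n i
    rw [mem_ordI']
    intro d hd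
    rw [map_sub, hyc]
    have h1 := mem_ordI'.1 (it_sub_of_le g hg (show d.degree + 1 ≤ n by omega) i) d (by omega)
    rw [map_sub] at h1
    rw [sub_eq_zero] at h1 ⊢
    exact h1.symm
  have hy2 : ∀ i, y i ∈ (ordI 2 : Ideal (MvPowerSeries α k)) := by
    intro i
    have h1 : y i = (y i - it g 2 i) + it g 2 i := by ring
    rw [h1]
    exact Ideal.add_mem _ (hyn 2 i) (it_mem g hg 2 i)
  refine ⟨y, hy2, fun i => ?_⟩
  have h0 : ∀ n : ℕ, ev y (g i) - y i ∈ (ordI n : Ideal (MvPowerSeries α k)) := by
    intro n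
    have h1 : ev y (g i) - y i
        = (ev y (g i) - ev (it g n) (g i)) - (y i - it g (n + 1) i) := by
      have : it g (n + 1) i = ev (it g n) (g i) := rfl
      rw [this]; ring
    rw [h1]
    refine Ideal.sub_mem _ (ev_sub_mem y (it g n) n (fun j => hyn n j) (g i)) ?_
    exact ordI_mono (by omega) (hyn (n + 1) i)
  have := eq_zero_of_mem_ordI h0
  exact sub_eq_zero.1 this


theorem J_step {k α β : Type*} [CommRing k] (f : β → MvPolynomial (α ⊕ β) k)
    (hf2 : ∀ i, f i - X (Sum.inr i) ∈ (idealOfVars (α ⊕ β) k) ^ 2) (n : ℕ)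
    (r : MvPolynomial (α ⊕ β) k) (hr : r ∈ (idealOfVars (α ⊕ β) k) ^ n) :
    ∃ B : MvPolynomial α k, (∀ d ∈ B.support, d.degree = n) ∧
      r - rename Sum.inl B ∈ Ideal.span (Set.range f) ⊔ (idealOfVars (α ⊕ β) k) ^ (n + 1) := by
  classical
  let P : MvPolynomial (α ⊕ β) k → Prop := fun r =>
    ∃ B : MvPolynomial α k, (∀ d ∈ B.support, d.degree = n) ∧
      r - rename Sum.inl B ∈ Ideal.span (Set.range f) ⊔ (idealOfVars (α ⊕ β) k) ^ (n + 1)
  have hadd : ∀ a b, P a → P b → P (a + b) := by
    rintro a b ⟨A, hA, hA'⟩ ⟨B, hB, hB'⟩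
    refine ⟨A + B, ?_, ?_⟩
    · intro d hd
      rcases Finset.mem_union.1 (MvPolynomial.support_add hd) with h | h
      · exact hA d h
      · exact hB d h
    · have : a + b - rename Sum.inl (A + B) = (a - rename Sum.inl A) + (b - rename Sum.inl B) := by
        rw [map_add]; ring
      rw [this]
      exact Ideal.add_mem _ hA' hB'
  have h0 : P 0 := ⟨0, by simp, by simp⟩
  have hmon : ∀ d ∈ r.support, P (monomial d (coeff d r)) := by
    intro d hd
    have hdn : n ≤ d.degree := by
      by_contra hlt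
      have := (mem_pow_idealOfVars_iff' n r).1 hr d (by omega)
      exact (mem_support_iff.1 hd) this
    rcases Nat.lt_or_ge n d.degree with hlt | hge
    · refine ⟨0, by simp, ?_⟩
      rw [map_zero, sub_zero]
      refine Ideal.mem_sup_right ?_
      exact (monomial_mem_pow_idealOfVars_iff (n + 1) d (mem_support_iff.1 hd)).2 hlt
    · have hdeg : d.degree = n := le_antisymm hge hdn
      by_cases hex : ∃ i : β, d (Sum.inr i) ≠ 0
      · obtain ⟨i, hi⟩ := hex
        refine ⟨0, by simp, ?_⟩
        rw [map_zero, sub_zero]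
        set d' : (α ⊕ β) →₀ ℕ := d - Finsupp.single (Sum.inr i) 1 with hd'
        have hdd : Finsupp.single (Sum.inr i) 1 + d' = d := by
          rw [hd']
          refine add_tsub_cancel_of_le ?_
          rw [Finsupp.single_le_iff]
          omega
        have hdeg' : d'.degree + 1 = n := by
          have := congrArg Finsupp.degree hdd
          rw [map_add, Finsupp.degree_single] at this
          omega
        have hmono : monomial d (coeff d r) = X (Sum.inr i) * monomial d' (coeff d r) := by
          rw [X, monomial_mul, one_mul, hdd]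
        have hsplit : monomial d (coeff d r)
            = monomial d' (coeff d r) * f i - (f i - X (Sum.inr i)) * monomial d' (coeff d r) := by
          rw [hmono]; ring
        rw [hsplit]
        refine Ideal.sub_mem _ (Ideal.mem_sup_left ?_) (Ideal.mem_sup_right ?_)
        · exact Ideal.mul_mem_left _ _ (Ideal.subset_span ⟨i, rfl⟩)
        · have h1 : monomial d' (coeff d r) ∈ (idealOfVars (α ⊕ β) k) ^ d'.degree :=
            (monomial_mem_pow_idealOfVars_iff _ d' (mem_support_iff.1 hd)).2 le_rfl
          have h2 := Ideal.mul_mem_mul (hf2 i) h1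
          rw [← pow_add] at h2
          have : 2 + d'.degree = n + 1 := by omega
          rw [this] at h2
          exact h2
      · push Not at hex
        have hinj : Function.Injective (Sum.inl : α → α ⊕ β) := Sum.inl_injective
        refine ⟨monomial (Finsupp.comapDomain Sum.inl d (hinj.injOn)) (coeff d r), ?_, ?_⟩
        · intro e he
          have := support_monomial_subset he
          rw [Finset.mem_singleton] at this
          subst this
          rw [← hdeg]
          have hmap : Finsupp.mapDomain (Sum.inl : α → α ⊕ β)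
              (Finsupp.comapDomain Sum.inl d (hinj.injOn)) = d := by
            refine Finsupp.mapDomain_comapDomain _ hinj d ?_
            intro x hx
            rcases x with l | i
            · exact ⟨l, rfl⟩
            · exact absurd (hex i) (Finsupp.mem_support_iff.1 hx)
          conv_rhs => rw [← hmap]
          rw [Finsupp.degree_mapDomain]
        · rw [rename_monomial]
          have hmap : Finsupp.mapDomain (Sum.inl : α → α ⊕ β)
              (Finsupp.comapDomain Sum.inl d (hinj.injOn)) = d := by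
            refine Finsupp.mapDomain_comapDomain _ hinj d ?_
            intro x hx
            rcases x with l | i
            · exact ⟨l, rfl⟩
            · exact absurd (hex i) (Finsupp.mem_support_iff.1 hx)
          rw [hmap, sub_self]
          exact Ideal.zero_mem _
  have hsum : P (∑ d ∈ r.support, monomial d (coeff d r)) :=
    Finset.sum_induction _ P hadd h0 hmon
  rw [← r.as_sum] at hsum
  exact hsum

theorem J_repr {k α β : Type*} [CommRing k] (f : β → MvPolynomial (α ⊕ β) k)
    (hf2 : ∀ i, f i - X (Sum.inr i) ∈ (idealOfVars (α ⊕ β) k) ^ 2) (n : ℕ)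
    (F : MvPolynomial (α ⊕ β) k) :
    ∃ A : MvPolynomial α k, (∀ d ∈ A.support, d.degree < n) ∧
      F - rename Sum.inl A ∈ Ideal.span (Set.range f) ⊔ (idealOfVars (α ⊕ β) k) ^ n := by
  classical
  induction n with
  | zero => exact ⟨0, by simp, by simp⟩
  | succ n ih =>
    obtain ⟨A, hA, hA'⟩ := ih
    obtain ⟨a, ha, r, hr, har⟩ := Submodule.mem_sup.1 hA'
    obtain ⟨B, hB, hB'⟩ := J_step f hf2 n r hr
    refine ⟨A + B, ?_, ?_⟩
    · intro d hd
      rcases Finset.mem_union.1 (MvPolynomial.support_add hd) with h | h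
      · have := hA d h; omega
      · have := hB d h; omega
    · have : F - rename Sum.inl (A + B) = a + (r - rename Sum.inl B) := by
        rw [map_add, ← sub_sub, ← har]; ring
      rw [this]
      exact Ideal.add_mem _ (Ideal.mem_sup_left ha) hB'

theorem ev_rename {k α β : Type*} [CommRing k] (y : β → MvPowerSeries α k)
    (A : MvPolynomial α k) : ev y (rename Sum.inl A) = (A : MvPowerSeries α k) := by
  have key : (ev y).comp (rename Sum.inl) = MvPolynomial.coeToMvPowerSeries.algHom (σ := α) (R := k) k := by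
    apply MvPolynomial.algHom_ext
    intro m
    simp [ev]
  have := DFunLike.congr_fun key A
  simpa using this

/-- formal germ, normalised coordinates -/
theorem norm_germ {k α β : Type*} [CommRing k] (f : β → MvPolynomial (α ⊕ β) k)
    (hf2 : ∀ i, f i - X (Sum.inr i) ∈ (idealOfVars (α ⊕ β) k) ^ 2) :
    ∃ φ : MvPolynomial (α ⊕ β) k →ₐ[k] MvPowerSeries α k,
      (∀ A : MvPolynomial α k, φ (rename Sum.inl A) = (A : MvPowerSeries α k)) ∧
      (∀ i, φ (f i) = 0) ∧
      (∀ n F, φ F ∈ (ordI n : Ideal (MvPowerSeries α k)) ↔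
        F ∈ Ideal.span (Set.range f) ⊔ (idealOfVars (α ⊕ β) k) ^ n) := by
  classical
  obtain ⟨y, hy2, hy⟩ := exists_fix (fun i => X (Sum.inr i) - f i) (by
    intro i
    have : X (Sum.inr i) - f i = - (f i - X (Sum.inr i)) := by ring
    simp only [this]
    exact Ideal.neg_mem_iff _ |>.2 (hf2 i))
  have hfi : ∀ i, ev y (f i) = 0 := by
    intro i
    have h1 := hy i
    simp only [map_sub] at h1
    have h2 : ev y (X (Sum.inr i)) = y i := by
      unfold ev
      rw [aeval_X]
      rfl
    rw [h2] at h1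
    exact sub_eq_self.1 h1
  have hy1 : ∀ i, y i ∈ (ordI 1 : Ideal (MvPowerSeries α k)) :=
    fun i => ordI_mono (by omega) (hy2 i)
  have hback : ∀ n F, F ∈ Ideal.span (Set.range f) ⊔ (idealOfVars (α ⊕ β) k) ^ n →
      ev y F ∈ (ordI n : Ideal (MvPowerSeries α k)) := by
    intro n F hF
    obtain ⟨a, ha, r, hr, rfl⟩ := Submodule.mem_sup.1 hF
    rw [map_add]
    refine Ideal.add_mem _ ?_ (ev_mem_pow y hy1 n r hr)
    have hspan : Ideal.span (Set.range f) ≤ RingHom.ker (ev y).toRingHom := by
      rw [Ideal.span_le]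
      rintro _ ⟨i, rfl⟩
      exact hfi i
    have : ev y a = 0 := hspan ha
    rw [this]
    exact Ideal.zero_mem _
  refine ⟨ev y, ev_rename y, hfi, fun n F => ⟨fun hF => ?_, hback n F⟩⟩
  obtain ⟨A, hA, hA'⟩ := J_repr f hf2 n F
  have h1 := hback n _ hA'
  rw [map_sub, ev_rename] at h1
  have h2 : (A : MvPowerSeries α k) ∈ (ordI n : Ideal (MvPowerSeries α k)) := by
    have := Ideal.sub_mem _ hF h1
    rwa [sub_sub_cancel] at this
  have hA0 : A = 0 := by
    ext d
    by_cases hd : d ∈ A.support
    · have := mem_ordI'.1 h2 d (hA d hd)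
      rw [MvPolynomial.coeff_coe] at this
      rw [this, coeff_zero]
    · rw [notMem_support_iff.1 hd, coeff_zero]
  rw [hA0, map_zero, sub_zero] at hA'
  exact hA'

end Vale.Agent.P054.T2.H930
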