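import Vale.Agent.P054.T2.H275.Horiz
import Vale.Agent.P054.T2.H580.Hat

/-!
# The vertical gradients of the vertical equations of a hat are independent at most edges

No family of vertical ranks is needed: pigeonhole on the vertical rank of the system itself.
-/

set_option autoImplicit false
set_option linter.unusedSectionVars false

open MvPolynomial Module

namespace Vale.Agent.P054.T2.H930

open Vale.Agent.P054.T2.H580 (Vw wh hilbF rkF)

section rk

variable {K : Type*} [Field K] {α β : Type*} [Fintype α] [DecidableEq α] [Fintype β]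
  [DecidableEq β]

/-- the matrix of the vertical gradients -/
noncomputable def vmat {c : ℕ} (f : Fin c → MvPolynomial (α ⊕ β) K) (z : α ⊕ β → K) :
    Matrix (Fin c) β K :=
  (Matrix.of fun i b => pderiv (Sum.inr b) (f i) :
    Matrix (Fin c) β (MvPolynomial (α ⊕ β) K)).map (eval z)

theorem vmat_apply {c : ℕ} (f : Fin c → MvPolynomial (α ⊕ β) K) (z : α ⊕ β → K) (i : Fin c)
    (b : β) : vmat f z i b = eval z (pderiv (Sum.inr b) (f i)) := rfl

theorem pderiv_inr_rename_inl (b : β) (g : MvPolynomial α K) :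
    pderiv (Sum.inr b) (rename Sum.inl g : MvPolynomial (α ⊕ β) K) = 0 := by
  classical
  apply pderiv_eq_zero_of_notMem_vars
  intro hmem
  have := vars_rename Sum.inl g hmem
  rw [Finset.mem_image] at this
  obtain ⟨y, _, hy⟩ := this
  exact absurd hy (by simp)

/-- if the vertical rank of the whole system is at least `m`, the last `m` vertical gradients are
independent -/
theorem linInd_of_rank {c₀ m : ℕ} (g : Fin c₀ → MvPolynomial α K)
    (h : Fin m → MvPolynomial (α ⊕ β) K) (z : α ⊕ β → K)
    (hr : m ≤ (vmat (Fin.append (fun i => rename Sum.inl (g i)) h) z).rank) :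
    LinearIndependent K (fun (i : Fin m) (b : β) => eval z (pderiv (Sum.inr b) (h i))) := by
  classical
  rw [linearIndependent_iff_card_le_finrank_span, Fintype.card_fin]
  refine hr.trans ?_
  rw [Matrix.rank_eq_finrank_span_row]
  have hfin : Module.Finite K (Submodule.span K (Set.range
      (fun (i : Fin m) (b : β) => eval z (pderiv (Sum.inr b) (h i))))) :=
    Module.Finite.span_of_finite K (Set.finite_range _)
  refine Submodule.finrank_mono (Submodule.span_le.2 ?_)
  rintro _ ⟨i, rfl⟩
  refine Fin.addCases (fun i => ?_) (fun i => ?_) i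
  · have : (vmat (Fin.append (fun i => rename Sum.inl (g i)) h) z).row (Fin.castAdd m i) = 0 := by
      funext b
      show vmat (Fin.append (fun i => rename Sum.inl (g i)) h) z (Fin.castAdd m i) b = 0
      rw [vmat_apply, Fin.append_left, pderiv_inr_rename_inl, map_zero]
    rw [this]
    exact Submodule.zero_mem _
  · refine Submodule.subset_span ⟨i, ?_⟩
    funext b
    show _ = vmat (Fin.append (fun i => rename Sum.inl (g i)) h) z (Fin.natAdd c₀ i) b
    rw [vmat_apply, Fin.append_right]

end rk

section main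

variable {K : Type*} [Field K] [CharZero K] {α β : Type*} [Fintype α] [DecidableEq α]
  [Fintype β] [DecidableEq β]

/-- **[HAT-VERT].**  `f` the equations of the base (levels `δ j`), `h` the `m` further equations of
the hat (level `W * D`).  For all but `m / β₁` of the edges the vertical gradients of `h` are
linearly independent. -/
theorem hat_vert {ι : Type*} [DecidableEq (α → K)] (E' : Finset ι) (x : ι → α ⊕ β → K)
    {c₀ m : ℕ} (hc₀ : c₀ ≤ Fintype.card α) (g : Fin c₀ → MvPolynomial α K)
    (h : Fin m → MvPolynomial (α ⊕ β) K) (δ : ℕ → ℕ) (hδ : ∀ j < c₀, 1 ≤ δ j)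
    (W D : ℕ) (hW : 1 ≤ W) (hD : 1 ≤ D)
    (hg : ∀ j : Fin c₀, (g j).totalDegree ≤ δ j) (hδW : ∀ j < c₀, δ j ≤ W * D)
    (hh : ∀ j, h j ∈ Vw K (wh α β W) (W * D))
    (h0 : ∀ e ∈ E', ∀ i, eval (x e) ((Fin.append (fun i => rename Sum.inl (g i)) h :
      Fin (c₀ + m) → MvPolynomial (α ⊕ β) K) i) = 0)
    (hind : ∀ e ∈ E', LinearIndependent K (fun i => H930.grad (x e)
      ((Fin.append (fun i => rename Sum.inl (g i)) h :
        Fin (c₀ + m) → MvPolynomial (α ⊕ β) K) i)))
    (β₁ : ℕ)
    (hG : ∀ A ⊆ E', E'.card < β₁ * A.card → ∃ A₁ ⊆ A, A.card ≤ 2 * A₁.card ∧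
      ∀ e ∈ A₁, ∀ F ∈ Vw K (wh α β W) ((Fintype.card β + 1) * (W * D)),
        (∀ a ∈ A, eval (x a) F = 0) →
          F ∈ H930.germ (x e) (Fin.append (fun i => rename Sum.inl (g i)) h :
            Fin (c₀ + m) → MvPolynomial (α ⊕ β) K))
    (q L : ℕ) (hq : 1 ≤ q)
    (hlow : ∀ A' ⊆ E', E'.card < (2 * β₁ * Fintype.card β ^ Fintype.card β + 1) * A'.card →
      (∏ j ∈ Finset.range c₀, δ j) * (q * W) ^ (Fintype.card α - c₀)
        ≤ L * H441.rkY (A'.image fun e => fun a => x e (Sum.inl a)) (q * W))
    (hbig : 2 ^ (Fintype.card α + (c₀ + m)) * L *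
      (Fintype.card β + 1 + (c₀ + m)) ^ (Fintype.card α + Fintype.card β) * D ^ m ≤ q) :
    ∃ Y ⊆ E', β₁ * Y.card ≤ m * E'.card ∧ ∀ e ∈ E', e ∉ Y →
      LinearIndependent K (fun (i : Fin m) (b : β) =>
        eval (x e) (pderiv (Sum.inr b) (h i))) := by
  classical
  set f : Fin (c₀ + m) → MvPolynomial (α ⊕ β) K := Fin.append (fun i => rename Sum.inl (g i)) h
    with hf
  let Er : ℕ → Finset ι := fun r => E'.filter (fun e => (vmat f (x e)).rank = r)
  have hEr : ∀ r < m, β₁ * (Er r).card ≤ E'.card := by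
    intro r hr
    by_contra hcon
    push Not at hcon
    obtain ⟨A₁, hA₁, hcard, hgood⟩ := hG (Er r) (Finset.filter_subset _ _) hcon
    have hA₁E : A₁ ⊆ E' := hA₁.trans (Finset.filter_subset _ _)
    have hne : (Er r).Nonempty := by
      rw [Finset.nonempty_iff_ne_empty]
      intro he
      rw [he] at hcon
      simp at hcon
    obtain ⟨e₁, he₁⟩ := hne
    have hrM : r ≤ Fintype.card β := by
      have h1 := (Finset.mem_filter.1 he₁).2
      rw [← h1]
      exact Matrix.rank_le_card_width _
    have hMv : Fintype.card β ^ (Fintype.card β - r) ≤ Fintype.card β ^ Fintype.card β := by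
      rcases Nat.eq_zero_or_pos (Fintype.card β) with h | h
      · rw [h]; simp
      · exact Nat.pow_le_pow_right h (Nat.sub_le _ _)
    have hmem : ∀ j : Fin (c₀ + m), (j : ℕ) < c₀ → f j ∈ Vw K (wh α β W) (δ j) := by
      intro j
      refine Fin.addCases (fun i => ?_) (fun i => ?_) j
      · intro _
        rw [hf, Fin.append_left]
        exact H275.rename_mem_Vw W (hg i)
      · intro hj
        simp at hj
    have hmem2 : ∀ j : Fin (c₀ + m), c₀ ≤ (j : ℕ) → f j ∈ Vw K (wh α β W) (W * D) := by
      intro j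
      refine Fin.addCases (fun i => ?_) (fun i => ?_) j
      · intro hj
        exact absurd hj (by simp)
      · intro _
        rw [hf, Fin.append_right]
        exact hh i
    have hmem3 : ∀ j : Fin (c₀ + m), f j ∈ Vw K (wh α β W) (W * D) := by
      intro j
      by_cases hj : (j : ℕ) < c₀
      · exact H580.Vw_mono _ (hδW j hj) (hmem j hj)
      · exact hmem2 j (by omega)
    have key := H275.horiz (K := K) (↑(Er r) : Set ι) A₁ x (c := c₀ + m) (c₁ := c₀)
      (Nat.le_add_right _ _) hc₀ f δ hδ W D hW hD hmem hmem2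
      (fun i hi j => h0 i (hA₁E hi) j) (fun i hi => hind i (hA₁E hi)) (W * D)
      (Fintype.card β - r) (Nat.sub_le _ _)
      (fun j b => H580.Vw_mono _ (Nat.sub_le _ _) (H580.pderiv_mem_Vw _ (hmem3 j) (Sum.inr b)))
      (fun i hi F hF hF0 => hgood i hi F
        (H580.Vw_mono _ (Nat.mul_le_mul_right _ (by omega)) hF) (fun a ha => hF0 a ha))
      (fun e he => by
        have h1 := (Finset.mem_filter.1 (Finset.mem_coe.1 he)).2
        show (vmat f (x e)).rank ≤ _
        rw [h1]; omega)
      q L hq
      (fun A' hA' hc => by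
        refine hlow A' (hA'.trans hA₁E) ?_
        have e1 : β₁ * (Er r).card ≤ β₁ * (2 * A₁.card) := Nat.mul_le_mul_left _ hcard
        have e2 : β₁ * (2 * A₁.card) ≤
            β₁ * (2 * (Fintype.card β ^ Fintype.card β * A'.card)) :=
          Nat.mul_le_mul_left _ (Nat.mul_le_mul_left _
            (hc.trans (Nat.mul_le_mul_right _ hMv)))
        calc E'.card < β₁ * (2 * (Fintype.card β ^ Fintype.card β * A'.card)) :=
              lt_of_lt_of_le hcon (e1.trans e2)
          _ = (2 * β₁ * Fintype.card β ^ Fintype.card β) * A'.card := by ring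
          _ ≤ _ := Nat.mul_le_mul_right _ (Nat.le_succ _))
      (by
        refine le_trans ?_ hbig
        have e3 : (c₀ + m) - c₀ = m := by omega
        rw [e3]
        refine Nat.mul_le_mul_right _ (Nat.mul_le_mul_left _ (Nat.pow_le_pow_left ?_ _))
        omega)
    omega
  refine ⟨(Finset.range m).biUnion Er, ?_, ?_, ?_⟩
  · intro e he
    obtain ⟨r, _, hr⟩ := Finset.mem_biUnion.1 he
    exact (Finset.mem_filter.1 hr).1
  · calc β₁ * ((Finset.range m).biUnion Er).card
        ≤ β₁ * ∑ r ∈ Finset.range m, (Er r).card := Nat.mul_le_mul_left _ Finset.card_biUnion_le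
      _ = ∑ r ∈ Finset.range m, β₁ * (Er r).card := Finset.mul_sum _ _ _
      _ ≤ ∑ _r ∈ Finset.range m, E'.card :=
          Finset.sum_le_sum fun r hr => hEr r (Finset.mem_range.1 hr)
      _ = m * E'.card := by rw [Finset.sum_const, Finset.card_range, smul_eq_mul]
  · intro e he hY
    apply linInd_of_rank g h (x e)
    by_contra hcon
    push Not at hcon
    exact hY (Finset.mem_biUnion.2 ⟨_, Finset.mem_range.2 hcon,
      Finset.mem_filter.2 ⟨he, rfl⟩⟩)

end main

end Vale.Agent.P054.T2.H930
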