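import Vale.Agent.P054.T2.H930.Tan2

/-!
# [TAN] (T4): on the germ of `hat X₁ ×_X hat X₂` every derivation is `D₁ + D₂`, `D₁ r = 0`, `D₂ s = 0`
-/

set_option autoImplicit false
set_option linter.unusedSectionVars false

open MvPolynomial Module

namespace Vale.Agent.P054.T2.H930

variable {k : Type*} [Field k] {γ ς ς' : Type*} [Fintype γ] [DecidableEq γ] [Fintype ς]
  [DecidableEq ς] [Fintype ς'] [DecidableEq ς'] {L : Type*} [Field L]

/-- covector of the polynomial `P` over `L` -/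
noncomputable def cf {X : Type*} [DecidableEq X] {A : Type*} [CommRing A] [Algebra k A]
    (φ : MvPolynomial X k →ₐ[k] A) (ι : A →+* L) (P : MvPolynomial X k) (j : X) : L :=
  ι (φ (pderiv j P))

/-- tangent space of `hat X₁` : equations `f` (in `g` only) and `h` (in `g`, `s`) -/
def T1sub {I0 I1 : Type*} (c0 : I0 → γ → L) (c1 : I1 → γ → L) (c1' : I1 → ς → L) :
    Submodule L ((γ → L) × (ς → L)) where
  carrier := {w | (∀ i, ∑ x, c0 i x * w.1 x = 0) ∧
    ∀ i, ∑ x, c1 i x * w.1 x + ∑ y, c1' i y * w.2 y = 0}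
  add_mem' := by
    rintro a b ⟨h1, h2⟩ ⟨h3, h4⟩
    refine ⟨fun i => ?_, fun i => ?_⟩
    · have := h1 i; have := h3 i
      simp only [Prod.fst_add, Pi.add_apply, mul_add, Finset.sum_add_distrib]
      rw [h1 i, h3 i, add_zero]
    · simp only [Prod.fst_add, Prod.snd_add, Pi.add_apply, mul_add, Finset.sum_add_distrib]
      have e1 := h2 i
      have e2 := h4 i
      linear_combination e1 + e2
  zero_mem' := by
    refine ⟨fun i => ?_, fun i => ?_⟩ <;> simp
  smul_mem' := by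
    rintro c a ⟨h1, h2⟩
    refine ⟨fun i => ?_, fun i => ?_⟩
    · simp only [Prod.smul_fst, Pi.smul_apply, smul_eq_mul]
      have : ∑ x, c0 i x * (c * a.1 x) = c * ∑ x, c0 i x * a.1 x := by
        rw [Finset.mul_sum]; exact Finset.sum_congr rfl (fun x _ => by ring)
      rw [this, h1 i, mul_zero]
    · simp only [Prod.smul_fst, Prod.smul_snd, Pi.smul_apply, smul_eq_mul]
      have e1 : ∑ x, c1 i x * (c * a.1 x) = c * ∑ x, c1 i x * a.1 x := by
        rw [Finset.mul_sum]; exact Finset.sum_congr rfl (fun x _ => by ring)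
      have e2 : ∑ x, c1' i x * (c * a.2 x) = c * ∑ x, c1' i x * a.2 x := by
        rw [Finset.mul_sum]; exact Finset.sum_congr rfl (fun x _ => by ring)
      rw [e1, e2, ← mul_add, h2 i, mul_zero]

/-- kernel of a covector family as a submodule -/
def Ksub {I : Type*} (c : I → γ → L) : Submodule L (γ → L) where
  carrier := {w | ∀ i, ∑ x, c i x * w x = 0}
  add_mem' := by
    intro a b h1 h2 i
    simp only [Pi.add_apply, mul_add, Finset.sum_add_distrib]
    rw [h1 i, h2 i, add_zero]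
  zero_mem' := by intro i; simp
  smul_mem' := by
    intro c' a h1 i
    simp only [Pi.smul_apply, smul_eq_mul]
    have : ∑ x, c i x * (c' * a x) = c' * ∑ x, c i x * a x := by
      rw [Finset.mul_sum]; exact Finset.sum_congr rfl (fun x _ => by ring)
    rw [this, h1 i, mul_zero]

omit [DecidableEq γ] in
theorem mem_Ksub {I : Type*} {c : I → γ → L} {w : γ → L} :
    w ∈ Ksub c ↔ ∀ i, ∑ x, c i x * w x = 0 := Iff.rfl

/-- dimension of the kernel = number of columns minus the rank -/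
theorem finrank_Ksub {I : Type*} [Finite I] (c : I → γ → L) :
    finrank L (Ksub c) + (Matrix.of c).rank = Fintype.card γ := by
  have h1 := LinearMap.finrank_range_add_finrank_ker (Matrix.of c).mulVecLin
  rw [Module.finrank_fintype_fun_eq_card] at h1
  have h2 : finrank L (LinearMap.range (Matrix.of c).mulVecLin) = (Matrix.of c).rank := rfl
  have h3 : LinearMap.ker (Matrix.of c).mulVecLin = Ksub c := by
    ext w
    rw [LinearMap.mem_ker, mem_Ksub]
    constructor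
    · intro h i
      exact congrFun h i
    · intro h
      funext i
      exact h i
  rw [h3] at h1
  omega

/-- **(T4)** splitting of the derivations. `f` : equations of `X` (in the `g`-variables), `h` : the
equations of `hat X₁` (not involving `r`), `h'` : those of `hat X₂` (not involving `s`); all of them,
and the incidence equations `inc`, vanish on the germ `φ`, and the system `F` of the germ is taken
from `f`, `h`, `h'`. -/
theorem exists_split {c e : ℕ} (p : γ ⊕ (ς ⊕ ς') → k)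
    (F : Fin c → MvPolynomial (γ ⊕ (ς ⊕ ς')) k)
    (he : e + c = Fintype.card (γ ⊕ (ς ⊕ ς')))
    (hind : LinearIndependent k (fun i => grad p (F i)))
    (φ : MvPolynomial (γ ⊕ (ς ⊕ ς')) k →ₐ[k] MvPowerSeries (Fin e) k)
    (hφ0 : ∀ G, MvPowerSeries.constantCoeff (φ G) = eval p G)
    (a : Fin e → γ ⊕ (ς ⊕ ς') → k)
    (ha : ∀ l, φ (∑ j, C (a l j) * (MvPolynomial.X j - C (p j))) = MvPowerSeries.X l)
    (ι : MvPowerSeries (Fin e) k →+* L) (hι : Function.Injective ι)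
    {I0 I1 I2 I3 : Type*} [Finite I0] [Finite I1] [Finite I2]
    (f : I0 → MvPolynomial (γ ⊕ (ς ⊕ ς')) k) (h : I1 → MvPolynomial (γ ⊕ (ς ⊕ ς')) k)
    (h' : I2 → MvPolynomial (γ ⊕ (ς ⊕ ς')) k) (inc : I3 → MvPolynomial (γ ⊕ (ς ⊕ ς')) k)
    (hf : ∀ i, φ (f i) = 0) (hh : ∀ i, φ (h i) = 0) (hh' : ∀ i, φ (h' i) = 0)
    (hinc : ∀ i, φ (inc i) = 0)
    (hF : ∀ i, (∃ j, F i = f j) ∨ (∃ j, F i = h j) ∨ ∃ j, F i = h' j)
    (hf1 : ∀ i y, pderiv (Sum.inr y) (f i) = 0)
    (hh1 : ∀ i y, pderiv (Sum.inr (Sum.inr y)) (h i) = 0)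
    (hh1' : ∀ i y, pderiv (Sum.inr (Sum.inl y)) (h' i) = 0)
    (hinj : ∀ g : γ → L, (∀ i, ∑ x, cf φ ι (inc i) (Sum.inl x) * g x = 0) → g = 0)
    (σ₁ σ₂ : ℕ)
    (h1 : (Matrix.of (Sum.elim (fun i x => cf φ ι (f i) (Sum.inl x))
      (fun i x => cf φ ι (h i) (Sum.inl x)) : I0 ⊕ I1 → γ → L)).rank + σ₁ ≤ Fintype.card γ)
    (h2 : (Matrix.of (Sum.elim (fun i x => cf φ ι (f i) (Sum.inl x))
      (fun i x => cf φ ι (h' i) (Sum.inl x)) : I0 ⊕ I2 → γ → L)).rank + σ₂ ≤ Fintype.card γ)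
    (h3 : Fintype.card γ ≤
      (Matrix.of (fun i x => cf φ ι (f i) (Sum.inl x) : I0 → γ → L)).rank + (σ₁ + σ₂))
    (l : Fin e) :
    ∃ α : Fin e → L,
      (∀ x : ς', ∑ m, α m * ι (MvPowerSeries.pderiv k m
        (φ (MvPolynomial.X (Sum.inr (Sum.inr x))))) = 0) ∧
      (∀ x : ς, ∑ m, α m * ι (MvPowerSeries.pderiv k m (φ (MvPolynomial.X (Sum.inr (Sum.inl x)))))
        = ι (MvPowerSeries.pderiv k l (φ (MvPolynomial.X (Sum.inr (Sum.inl x)))))) := by
  classical
  have hφF : ∀ i, φ (F i) = 0 := by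
    intro i
    rcases hF i with ⟨j, hj⟩ | ⟨j, hj⟩ | ⟨j, hj⟩
    · rw [hj]; exact hf j
    · rw [hj]; exact hh j
    · rw [hj]; exact hh' j
  have tan := tangent_eq p F he hind φ hφ0 hφF a ha ι hι
  -- velocities kill every polynomial of the germ
  have hvel : ∀ (P : MvPolynomial (γ ⊕ (ς ⊕ ς')) k), φ P = 0 → ∀ m : Fin e,
      ∑ j, cf φ ι P j * ι (MvPowerSeries.pderiv k m (φ (MvPolynomial.X j))) = 0 := by
    intro P hP m
    have e1 := chain_rule (MvPowerSeries.pderiv k m) φ P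
    rw [hP, map_zero] at e1
    have e2 := congrArg ι e1
    rw [map_zero, map_sum] at e2
    rw [e2]
    refine Finset.sum_congr rfl (fun j _ => ?_)
    rw [map_mul]; rfl
  have hvel' : ∀ (P : MvPolynomial (γ ⊕ (ς ⊕ ς')) k), φ P = 0 → ∀ τ : γ ⊕ (ς ⊕ ς') → L,
      (∃ α : Fin e → L, ∀ j, τ j = ∑ l, α l * ι (MvPowerSeries.pderiv k l (φ (MvPolynomial.X j)))) →
      ∑ j, cf φ ι P j * τ j = 0 := by
    rintro P hP τ ⟨α, hα⟩
    have e1 : ∀ j, cf φ ι P j * τ j
        = ∑ l, α l * (cf φ ι P j * ι (MvPowerSeries.pderiv k l (φ (MvPolynomial.X j)))) := by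
      intro j
      rw [hα j, Finset.mul_sum]
      exact Finset.sum_congr rfl (fun m _ => by ring)
    rw [Finset.sum_congr rfl (fun j _ => e1 j), Finset.sum_comm]
    apply Finset.sum_eq_zero
    intro m _
    rw [← Finset.mul_sum, hvel P hP m, mul_zero]
  -- the two tangent spaces
  let c0 : I0 → γ → L := fun i x => cf φ ι (f i) (Sum.inl x)
  let c1 : I1 → γ → L := fun i x => cf φ ι (h i) (Sum.inl x)
  let c1' : I1 → ς → L := fun i x => cf φ ι (h i) (Sum.inr (Sum.inl x))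
  let c2 : I2 → γ → L := fun i x => cf φ ι (h' i) (Sum.inl x)
  let c2' : I2 → ς' → L := fun i x => cf φ ι (h' i) (Sum.inr (Sum.inr x))
  have zf1 : ∀ i y, cf φ ι (f i) (Sum.inr y) = 0 := by
    intro i y; unfold cf; rw [hf1, map_zero, map_zero]
  have zh1 : ∀ i y, cf φ ι (h i) (Sum.inr (Sum.inr y)) = 0 := by
    intro i y; unfold cf; rw [hh1, map_zero, map_zero]
  have zh1' : ∀ i y, cf φ ι (h' i) (Sum.inr (Sum.inl y)) = 0 := by
    intro i y; unfold cf; rw [hh1', map_zero, map_zero]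
  have sumf : ∀ i (τ : γ ⊕ (ς ⊕ ς') → L), ∑ j, cf φ ι (f i) j * τ j
      = ∑ x, c0 i x * τ (Sum.inl x) := by
    intro i τ
    rw [Fintype.sum_sum_type]
    simp [zf1, c0]
  have sumh : ∀ i (τ : γ ⊕ (ς ⊕ ς') → L), ∑ j, cf φ ι (h i) j * τ j
      = ∑ x, c1 i x * τ (Sum.inl x) + ∑ y, c1' i y * τ (Sum.inr (Sum.inl y)) := by
    intro i τ
    rw [Fintype.sum_sum_type, Fintype.sum_sum_type]
    simp [zh1, c1, c1']
  have sumh' : ∀ i (τ : γ ⊕ (ς ⊕ ς') → L), ∑ j, cf φ ι (h' i) j * τ j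
      = ∑ x, c2 i x * τ (Sum.inl x) + ∑ y, c2' i y * τ (Sum.inr (Sum.inr y)) := by
    intro i τ
    rw [Fintype.sum_sum_type, Fintype.sum_sum_type]
    simp [zh1', c2, c2']
  -- vectors killed by everything are velocities
  have tanZ : ∀ (g : γ → L) (s : ς → L) (r : ς' → L), (g, s) ∈ T1sub c0 c1 c1' →
      (g, r) ∈ T1sub c0 c2 c2' → ∃ α : Fin e → L, ∀ j,
        (Sum.elim g (Sum.elim s r) : γ ⊕ (ς ⊕ ς') → L) j
          = ∑ l, α l * ι (MvPowerSeries.pderiv k l (φ (MvPolynomial.X j))) := by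
    intro g s r hgs hgr
    apply tan
    intro i
    have e0 : ∑ j, ι (φ (pderiv j (F i))) * (Sum.elim g (Sum.elim s r) : γ ⊕ (ς ⊕ ς') → L) j
        = ∑ j, cf φ ι (F i) j * (Sum.elim g (Sum.elim s r) : γ ⊕ (ς ⊕ ς') → L) j := rfl
    rw [e0]
    rcases hF i with ⟨j, hj⟩ | ⟨j, hj⟩ | ⟨j, hj⟩
    · rw [hj, sumf]
      exact hgs.1 j
    · rw [hj, sumh]
      exact hgs.2 j
    · rw [hj, sumh']
      exact hgr.2 j
  -- the split
  let τ : γ ⊕ (ς ⊕ ς') → L := fun j => ι (MvPowerSeries.pderiv k l (φ (MvPolynomial.X j)))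
  have hτ : ∀ P : MvPolynomial (γ ⊕ (ς ⊕ ς')) k, φ P = 0 → ∑ j, cf φ ι P j * τ j = 0 :=
    fun P hP => hvel P hP l
  let g : γ → L := fun x => τ (Sum.inl x)
  let s : ς → L := fun x => τ (Sum.inr (Sum.inl x))
  let r : ς' → L := fun x => τ (Sum.inr (Sum.inr x))
  have hgs : (g, s) ∈ T1sub c0 c1 c1' := by
    refine ⟨fun i => ?_, fun i => ?_⟩
    · rw [← sumf i τ]; exact hτ _ (hf i)
    · rw [← sumh i τ]; exact hτ _ (hh i)
  have hgr : (g, r) ∈ T1sub c0 c2 c2' := by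
    refine ⟨fun i => ?_, fun i => ?_⟩
    · rw [← sumf i τ]; exact hτ _ (hf i)
    · rw [← sumh' i τ]; exact hτ _ (hh' i)
  have hΘ : finrank L (Ksub c0) ≤ σ₁ + σ₂ := by
    have := finrank_Ksub c0
    have h3' : Fintype.card γ ≤ (Matrix.of c0).rank + (σ₁ + σ₂) := h3
    omega
  have hK1 : (T1sub c0 c1 c1').comap (LinearMap.inl L (γ → L) (ς → L))
      = Ksub (Sum.elim c0 c1) := by
    ext w
    rw [Submodule.mem_comap, mem_Ksub]
    constructor
    · rintro ⟨e1, e2⟩ i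
      rcases i with i | i
      · exact e1 i
      · have := e2 i
        simpa using this
    · intro e1
      refine ⟨fun i => e1 (Sum.inl i), fun i => ?_⟩
      have := e1 (Sum.inr i)
      simpa using this
  have hK2 : (T1sub c0 c2 c2').comap (LinearMap.inl L (γ → L) (ς' → L))
      = Ksub (Sum.elim c0 c2) := by
    ext w
    rw [Submodule.mem_comap, mem_Ksub]
    constructor
    · rintro ⟨e1, e2⟩ i
      rcases i with i | i
      · exact e1 i
      · have := e2 i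
        simpa using this
    · intro e1
      refine ⟨fun i => e1 (Sum.inl i), fun i => ?_⟩
      have := e1 (Sum.inr i)
      simpa using this
  have hd1 : σ₁ ≤ finrank L ((T1sub c0 c1 c1').comap (LinearMap.inl L (γ → L) (ς → L))) := by
    rw [hK1]
    have e1 := finrank_Ksub (Sum.elim c0 c1)
    have e2 : (Matrix.of (Sum.elim c0 c1)).rank + σ₁ ≤ Fintype.card γ := h1
    omega
  have hd2 : σ₂ ≤ finrank L ((T1sub c0 c2 c2').comap (LinearMap.inl L (γ → L) (ς' → L))) := by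
    rw [hK2]
    have e1 := finrank_Ksub (Sum.elim c0 c2)
    have e2 : (Matrix.of (Sum.elim c0 c2)).rank + σ₂ ≤ Fintype.card γ := h2
    omega
  have hDD : ∀ w : γ → L, w ∈ (T1sub c0 c1 c1').comap (LinearMap.inl L (γ → L) (ς → L)) →
      w ∈ (T1sub c0 c2 c2').comap (LinearMap.inl L (γ → L) (ς' → L)) → w = 0 := by
    intro w hw1 hw2
    apply hinj
    intro i
    have e1 := tanZ w 0 0 hw1 hw2
    have e2 := hvel' (inc i) (hinc i) _ e1
    rw [Fintype.sum_sum_type, Fintype.sum_sum_type] at e2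
    simpa using e2
  obtain ⟨g₁, g₂, -, q1, q2, -, -⟩ := fibre_split (T1sub c0 c1 c1') (T1sub c0 c2 c2') (Ksub c0)
    ((T1sub c0 c1 c1').comap (LinearMap.inl L (γ → L) (ς → L)))
    ((T1sub c0 c2 c2').comap (LinearMap.inl L (γ → L) (ς' → L)))
    (fun w v hw => hw.1) (fun w v hw => hw.1) (fun w hw => hw) (fun w hw => hw) hDD σ₁ σ₂ hd1 hd2 hΘ
    g s r hgs hgr
  obtain ⟨α, hα⟩ := tanZ g₁ s 0 q1 q2
  refine ⟨α, fun x => ?_, fun x => ?_⟩
  · rw [← hα]; simp
  · rw [← hα]; simp [s, τ]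

end Vale.Agent.P054.T2.H930
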