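import Vale.Agent.P054.T2.H930.TanEdge

/-!
# [TAN] main theorem on the edges: splitting of the derivations of the germ of `Z⁺`
-/

set_option autoImplicit false
set_option linter.unusedSectionVars false

open MvPolynomial Module

namespace Vale.Agent.P054.T2.H930

open Vale.Agent.P054.T2.H686 Vale.Agent.P054.T2.H580

variable {k : Type*} [Field k] {n : ℕ}

/-- the annihilator of a small space of gradients -/
theorem exists_annih (S : Submodule k (Fin n → k)) (σ : ℕ) (h : finrank k S + σ ≤ n) :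
    ∃ W : Submodule k (Fin n → k), σ ≤ finrank k W ∧ ∀ w ∈ W, ∀ v ∈ S, ∑ i, w i * v i = 0 := by
  classical
  let b := Module.finBasis k S
  let c : Fin (finrank k S) → Fin n → k := fun i => (b i : Fin n → k)
  have h1 := finrank_Ksub c
  rw [Fintype.card_fin] at h1
  have h2 : (Matrix.of c).rank ≤ finrank k S := by
    have := Matrix.rank_le_card_height (Matrix.of c)
    rwa [Fintype.card_fin] at this
  refine ⟨Ksub c, by omega, ?_⟩
  intro w hw v hv
  have h3 : v = ∑ i, b.repr ⟨v, hv⟩ i • c i := by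
    have := congrArg (Subtype.val) (b.sum_repr ⟨v, hv⟩)
    rw [Submodule.coe_sum] at this
    simpa [c] using this.symm
  rw [h3]
  have h4 : ∀ j, w j * (∑ i, b.repr ⟨v, hv⟩ i • c i) j
      = ∑ i, b.repr ⟨v, hv⟩ i * (c i j * w j) := by
    intro j
    rw [Finset.sum_apply, Finset.mul_sum]
    refine Finset.sum_congr rfl (fun i _ => ?_)
    rw [Pi.smul_apply, smul_eq_mul]; ring
  rw [Finset.sum_congr rfl (fun j _ => h4 j), Finset.sum_comm]
  apply Finset.sum_eq_zero
  intro i _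
  rw [← Finset.mul_sum, hw i, mul_zero]

/-- tangent vectors of the leaf germ are killed by the `g`-gradients of every polynomial in `(g,s)`
vanishing at the hat points -/
theorem leaf_killed (E0 : Finset (((Fin (n + 1) → k) × (Fin (n + 1) → k)) ×
      ((Fin (n + 1) → k) × (Fin (n + 1) → k)))) (s : (Fin (n + 1) → k) × (Fin (n + 1) → k))
    (μ : Fin n → k) (wt : Crd n ⊕ Pt n → ℕ) (hwt : ∀ x, 1 ≤ wt (Sum.inl x)) {N : ℕ}
    (W : Submodule k (Fin n → k))
    (hW : ∀ G : MvPolynomial (Fin n) k, G.totalDegree ≤ N →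
      (∀ e ∈ E0, e.1 = s → eval (mu e.1 e.2) G = 0) →
      ∀ w ∈ W, ∑ i, w i * eval μ (pderiv i G) = 0)
    {P : MvPolynomial (Crd n ⊕ Pt n) k} (hP : P ∈ Vw k wt N)
    (hP0 : ∀ e ∈ E0, eval (hatPt e.1 (mu e.1 e.2)) P = 0) :
    ∀ w ∈ W, ∑ x, leafDir s w x * eval (hatPt s μ) (pderiv (Sum.inl x) P) = 0 := by
  intro w hw
  rw [← sum_pderiv_pull1 s μ w P]
  refine hW (pull1 s P) (totalDegree_pull1_le s wt hwt hP) ?_ w hw
  intro e he hes
  rw [eval_pull1, ← hes]
  exact hP0 e he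

/-- (T1) on the edges: the rank over the germ of the `g`-gradients of finitely many polynomials in
`(g,s)` which vanish at the hat points of `E0` is at most `2n+1-σ`. -/
theorem rank_hat_le (E0 E1 : Finset (((Fin (n + 1) → k) × (Fin (n + 1) → k)) ×
      ((Fin (n + 1) → k) × (Fin (n + 1) → k))))
    (wt : Crd n ⊕ Pt n → ℕ) (hwt : ∀ x, 1 ≤ wt (Sum.inl x)) {N σ : ℕ}
    (hleaf : ∀ e ∈ E1, ∃ W : Submodule k (Fin n → k), σ ≤ finrank k W ∧
      ∀ G : MvPolynomial (Fin n) k, G.totalDegree ≤ N →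
        (∀ e' ∈ E0, e'.1 = e.1 → eval (mu e'.1 e'.2) G = 0) →
        ∀ w ∈ W, ∑ i, w i * eval (mu e.1 e.2) (pderiv i G) = 0)
    {I : Type*} [Fintype I] (h : I → MvPolynomial (Crd n ⊕ Pt n) k) (hh : ∀ i, h i ∈ Vw k wt N)
    (hh0 : ∀ i, ∀ e ∈ E0, eval (hatPt e.1 (mu e.1 e.2)) (h i) = 0)
    {L : Type*} [Field L] (φ : MvPolynomial (Crd n ⊕ Pt n) k →+* L)
    (hgood : ∀ P ∈ Vw k wt ((2 * n + 2) * N),
      (∀ e ∈ E1, eval (hatPt e.1 (mu e.1 e.2)) P = 0) → φ P = 0)
    (hσ : σ ≤ 2 * n + 1) :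
    (Matrix.of (fun i x => φ (pderiv (Sum.inl x) (h i)) : I → Crd n → L)).rank + σ
      ≤ Fintype.card (Crd n) := by
  classical
  have hcard : Fintype.card (Crd n) = 2 * n + 1 := by
    simp only [Fintype.card_sum, Fintype.card_fin, Fintype.card_unit]; omega
  let M : Matrix I (Crd n) (MvPolynomial (Crd n ⊕ Pt n) k) :=
    Matrix.of (fun i x => pderiv (Sum.inl x) (h i))
  have key := rank_le_of_points (k := k)
    (fun e : (((Fin (n + 1) → k) × (Fin (n + 1) → k)) ×
      ((Fin (n + 1) → k) × (Fin (n + 1) → k))) => (eval (hatPt e.1 (mu e.1 e.2)) :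
        MvPolynomial (Crd n ⊕ Pt n) k →+* k)) (E1 : Set _) φ (Vw k wt)
    (by rw [← C_1]; exact C_mem_Vw wt 1 0)
    (fun a b x y hx hy => mul_mem_Vw wt hx hy) M N (2 * n + 1 - σ)
    (fun i x => Vw_mono wt (Nat.sub_le _ _) (pderiv_mem_Vw wt (hh i) (Sum.inl x)))
    (by
      intro F hF hF0
      refine hgood F (Vw_mono wt ?_ hF) (fun e he => hF0 e he)
      exact Nat.mul_le_mul_right _ (by omega))
    (by
      intro e he
      obtain ⟨W, hWσ, hW⟩ := hleaf e he
      have h1 := rank_add_le_of_leafDir e.1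
        (fun i x => eval (hatPt e.1 (mu e.1 e.2)) (pderiv (Sum.inl x) (h i))) W
        (fun i w hw => leaf_killed E0 e.1 (mu e.1 e.2) wt hwt W hW (hh i) (hh0 i) w hw)
      have h2 : (M.map (eval (hatPt e.1 (mu e.1 e.2)))) = Matrix.of
        (fun i x => eval (hatPt e.1 (mu e.1 e.2)) (pderiv (Sum.inl x) (h i))) := rfl
      rw [h2]
      omega)
  have h3 : M.map φ = Matrix.of (fun i x => φ (pderiv (Sum.inl x) (h i)) : I → Crd n → L) := rfl
  rw [h3] at key
  omega

/-- **[TAN], main theorem.** `E0 ⊇ E1` sets of edges (images under `zt`), `e₀ = (s, r)` one edge.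
`f` : equations of `X` (in `g`), `h`, `h'` : equations of `hat X₁`, `hat X₂` at `e₀`, all of level
`≤ N`, vanishing on `E0`; `φ` : the germ at `(g, s, r)` of a system taken from them (`exists_germ`);
`hgood₁`, `hgood₂` : polynomials in `(g,s)` resp. `(g,r)` of level `≤ (2n+2)N` vanishing on `E1`
vanish on the germ. `hleaf₁`, `hleaf₂` : the leaf germs have dimension `≥ σ₁`, `≥ σ₂` at the edges of
`E1`. Tightness: `2n+1 ≤ c₀ + σ₁ + σ₂`. Then every derivation splits. -/
theorem split_at_edge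
    (E0 E1 : Finset (((Fin (n + 1) → k) × (Fin (n + 1) → k)) ×
      ((Fin (n + 1) → k) × (Fin (n + 1) → k))))
    (hadj : ∀ e ∈ E0, e.1.1 0 ≠ e.2.1 0 ∧ Qf (e.1 - e.2) = 0) (hE : E1 ⊆ E0)
    (wt : Crd n ⊕ Pt n → ℕ) (hwt : ∀ x, 1 ≤ wt (Sum.inl x)) {N σ₁ σ₂ : ℕ}
    (hleaf₁ : ∀ e ∈ E1, ∃ W : Submodule k (Fin n → k), σ₁ ≤ finrank k W ∧
      ∀ G : MvPolynomial (Fin n) k, G.totalDegree ≤ N →
        (∀ e' ∈ E0, e'.1 = e.1 → eval (mu e'.1 e'.2) G = 0) →
        ∀ w ∈ W, ∑ i, w i * eval (mu e.1 e.2) (pderiv i G) = 0)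
    (hleaf₂ : ∀ e ∈ E1, ∃ W : Submodule k (Fin n → k), σ₂ ≤ finrank k W ∧
      ∀ G : MvPolynomial (Fin n) k, G.totalDegree ≤ N →
        (∀ e' ∈ E0, e'.2 = e.2 → eval (mu e'.1 e'.2) G = 0) →
        ∀ w ∈ W, ∑ i, w i * eval (mu e.1 e.2) (pderiv i G) = 0)
    {c₀ c₁ c₂ : ℕ} (f : Fin c₀ → MvPolynomial (Crd n) k)
    (h : Fin c₁ → MvPolynomial (Crd n ⊕ Pt n) k) (h' : Fin c₂ → MvPolynomial (Crd n ⊕ Pt n) k)
    (hfN : ∀ i, rename Sum.inl (f i) ∈ Vw k wt N) (hhN : ∀ i, h i ∈ Vw k wt N)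
    (hhN' : ∀ i, h' i ∈ Vw k wt N)
    (hf0 : ∀ i, ∀ e ∈ E0, eval (meet e.1 e.2) (f i) = 0)
    (hh0 : ∀ i, ∀ e ∈ E0, eval (hatPt e.1 (mu e.1 e.2)) (h i) = 0)
    (hh0' : ∀ i, ∀ e ∈ E0, eval (hatPt e.2 (mu e.2 e.1)) (h' i) = 0)
    (s r : (Fin (n + 1) → k) × (Fin (n + 1) → k)) (hsr : (s, r) ∈ E0)
    {c e : ℕ} (F : Fin c → MvPolynomial (Crd n ⊕ (Pt n ⊕ Pt n)) k)
    (he : e + c = Fintype.card (Crd n ⊕ (Pt n ⊕ Pt n)))
    (hF : ∀ i, (∃ j, F i = rename Sum.inl (f j)) ∨ (∃ j, F i = rename (j1 n) (h j)) ∨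
      ∃ j, F i = rename (j2 n) (h' j))
    (hind : LinearIndependent k (fun i => grad (edgePt s r) (F i)))
    (φ : MvPolynomial (Crd n ⊕ (Pt n ⊕ Pt n)) k →ₐ[k] MvPowerSeries (Fin e) k)
    (hφ0 : ∀ G, MvPowerSeries.constantCoeff (φ G) = eval (edgePt s r) G)
    (a : Fin e → Crd n ⊕ (Pt n ⊕ Pt n) → k)
    (ha : ∀ l, φ (∑ j, C (a l j) * (MvPolynomial.X j - C (edgePt s r j))) = MvPowerSeries.X l)
    (hgood₁ : ∀ P ∈ Vw k wt ((2 * n + 2) * N + 2 * N),
      (∀ e ∈ E1, eval (hatPt e.1 (mu e.1 e.2)) P = 0) → φ (rename (j1 n) P) = 0)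
    (hgood₂ : ∀ P ∈ Vw k wt ((2 * n + 2) * N + 2 * N),
      (∀ e ∈ E1, eval (hatPt e.2 (mu e.2 e.1)) P = 0) → φ (rename (j2 n) P) = 0)
    (hwN : ∀ x, wt x ≤ N)
    (hfind : LinearIndependent k (fun i => grad (meet s r) (f i)))
    (htight : 2 * n + 1 ≤ c₀ + (σ₁ + σ₂)) (hσ₁ : σ₁ ≤ 2 * n + 1) (hσ₂ : σ₂ ≤ 2 * n + 1)
    {L : Type*} [Field L] (ι : MvPowerSeries (Fin e) k →+* L) (hι : Function.Injective ι)
    (l : Fin e) :
    ∃ α : Fin e → L,
      (∀ x : Pt n, ∑ m, α m * ι (MvPowerSeries.pderiv k m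
        (φ (MvPolynomial.X (Sum.inr (Sum.inr x))))) = 0) ∧
      (∀ x : Pt n, ∑ m, α m * ι (MvPowerSeries.pderiv k m (φ (MvPolynomial.X (Sum.inr (Sum.inl x)))))
        = ι (MvPowerSeries.pderiv k l (φ (MvPolynomial.X (Sum.inr (Sum.inl x)))))) := by
  classical
  have hlvl : ∀ P, P ∈ Vw k wt N → P ∈ Vw k wt ((2 * n + 2) * N + 2 * N) := fun P hP =>
    Vw_mono wt (by nlinarith [Nat.zero_le N, Nat.zero_le n]) hP
  have hmeet1 : ∀ e ∈ E0, ∀ G : MvPolynomial (Crd n) k,
      eval (hatPt e.1 (mu e.1 e.2)) (rename Sum.inl G) = eval (meet e.1 e.2) G := by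
    intro e _ G
    rw [eval_rename]; rfl
  have hmeet2 : ∀ e ∈ E0, ∀ G : MvPolynomial (Crd n) k,
      eval (hatPt e.2 (mu e.2 e.1)) (rename Sum.inl G) = eval (meet e.1 e.2) G := by
    intro e he G
    rw [eval_rename, meet_comm (hadj e he).1 (hadj e he).2]; rfl
  have hj1inl : ∀ G : MvPolynomial (Crd n) k, rename (j1 n) (rename Sum.inl G)
      = (rename Sum.inl G : MvPolynomial (Crd n ⊕ (Pt n ⊕ Pt n)) k) := by
    intro G; rw [rename_rename]; rfl
  have hj2inl : ∀ G : MvPolynomial (Crd n) k, rename (j2 n) (rename Sum.inl G)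
      = (rename Sum.inl G : MvPolynomial (Crd n ⊕ (Pt n ⊕ Pt n)) k) := by
    intro G; rw [rename_rename]; rfl
  -- vanishing on the germ
  have vf : ∀ i, φ (rename Sum.inl (f i)) = 0 := by
    intro i
    rw [← hj1inl]
    exact hgood₁ _ (hlvl _ (hfN i)) (fun e he => by rw [hmeet1 e (hE he)]; exact hf0 i e (hE he))
  have vh : ∀ i, φ (rename (j1 n) (h i)) = 0 := fun i =>
    hgood₁ _ (hlvl _ (hhN i)) (fun e he => hh0 i e (hE he))
  have vh' : ∀ i, φ (rename (j2 n) (h' i)) = 0 := fun i =>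
    hgood₂ _ (hlvl _ (hhN' i)) (fun e he => hh0' i e (hE he))
  have hincN : ∀ i, incP k n i ∈ Vw k wt ((2 * n + 2) * N + 2 * N) := fun i =>
    Vw_mono wt (by omega) (incP_mem_Vw wt (g := N) (t := N) (fun x => hwN _) (fun y => hwN _) i)
  have vi1 : ∀ i, φ (rename (j1 n) (incP k n i)) = 0 := fun i =>
    hgood₁ _ (hincN i) (fun e _ => eval_incP _ _ i)
  have vi2 : ∀ i, φ (rename (j2 n) (incP k n i)) = 0 := fun i =>
    hgood₂ _ (hincN i) (fun e _ => eval_incP _ _ i)
  -- pderiv of renamed polynomials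
  have pj1 : ∀ (G : MvPolynomial (Crd n ⊕ Pt n) k) x, pderiv (Sum.inl x) (rename (j1 n) G)
      = rename (j1 n) (pderiv (Sum.inl x) G) := fun G x =>
    pderiv_rename (j1_injective n) (Sum.inl x) G
  have pj2 : ∀ (G : MvPolynomial (Crd n ⊕ Pt n) k) x, pderiv (Sum.inl x) (rename (j2 n) G)
      = rename (j2 n) (pderiv (Sum.inl x) G) := fun G x =>
    pderiv_rename (j2_injective n) (Sum.inl x) G
  have pz : ∀ {A : Type} (jj : A → Crd n ⊕ (Pt n ⊕ Pt n)) (G : MvPolynomial A k)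
      (y : Crd n ⊕ (Pt n ⊕ Pt n)), y ∉ Set.range jj → pderiv y (rename jj G) = 0 := by
    intro A jj G y hy
    apply pderiv_eq_zero_of_notMem_vars
    intro hmem
    have := vars_rename jj G hmem
    rw [Finset.mem_image] at this
    obtain ⟨x, _, hx⟩ := this
    exact hy ⟨x, hx⟩
  -- ranks
  have r1 : (Matrix.of (Sum.elim
      (fun i x => cf φ ι (rename Sum.inl (f i)) (Sum.inl x))
      (fun i x => cf φ ι (rename (j1 n) (h i)) (Sum.inl x)) : Fin c₀ ⊕ Fin c₁ → Crd n → L)).rank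
      + σ₁ ≤ Fintype.card (Crd n) := by
    have key := rank_hat_le (k := k) E0 E1 wt hwt (N := N) (σ := σ₁) hleaf₁
      (I := Fin c₀ ⊕ Fin c₁) (Sum.elim (fun i => rename Sum.inl (f i)) h)
      (by rintro (i | i); exacts [hfN i, hhN i])
      (by
        rintro (i | i) e he
        · rw [Sum.elim_inl, hmeet1 e he]; exact hf0 i e he
        · exact hh0 i e he)
      ((ι.comp φ.toRingHom).comp (rename (j1 n)).toRingHom)
      (by
        intro P hP hP0
        have := hgood₁ P (Vw_mono wt (by omega) hP) hP0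
        change ι (φ (rename (j1 n) P)) = 0
        rw [this, map_zero]) hσ₁
    convert key using 3
    congr 1
    funext i x
    rcases i with i | i
    · change ι (φ (pderiv (Sum.inl x) (rename Sum.inl (f i)))) = _
      rw [← hj1inl, pj1]; rfl
    · change ι (φ (pderiv (Sum.inl x) (rename (j1 n) (h i)))) = _
      rw [pj1]; rfl
  have hleaf₂' : ∀ e ∈ E1.image Prod.swap, ∃ W : Submodule k (Fin n → k), σ₂ ≤ finrank k W ∧
      ∀ G : MvPolynomial (Fin n) k, G.totalDegree ≤ N →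
        (∀ e' ∈ E0.image Prod.swap, e'.1 = e.1 → eval (mu e'.1 e'.2) G = 0) →
        ∀ w ∈ W, ∑ i, w i * eval (mu e.1 e.2) (pderiv i G) = 0 := by
    intro e he
    obtain ⟨e', he', rfl⟩ := Finset.mem_image.1 he
    obtain ⟨W, hW1, hW2⟩ := hleaf₂ e' he'
    refine ⟨W, hW1, fun G hG hG0 w hw => ?_⟩
    rw [Prod.fst_swap, Prod.snd_swap, mu_comm]
    refine hW2 G hG (fun e'' he'' h2 => ?_) w hw
    have := hG0 e''.swap (Finset.mem_image_of_mem _ he'') (by
      rw [Prod.fst_swap, Prod.fst_swap]; exact h2)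
    rw [Prod.fst_swap, Prod.snd_swap, mu_comm] at this
    exact this
  have r2 : (Matrix.of (Sum.elim
      (fun i x => cf φ ι (rename Sum.inl (f i)) (Sum.inl x))
      (fun i x => cf φ ι (rename (j2 n) (h' i)) (Sum.inl x)) : Fin c₀ ⊕ Fin c₂ → Crd n → L)).rank
      + σ₂ ≤ Fintype.card (Crd n) := by
    have key := rank_hat_le (k := k) (E0.image Prod.swap) (E1.image Prod.swap) wt hwt (N := N)
      (σ := σ₂) hleaf₂'
      (I := Fin c₀ ⊕ Fin c₂) (Sum.elim (fun i => rename Sum.inl (f i)) h')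
      (by rintro (i | i); exacts [hfN i, hhN' i])
      (by
        rintro i e he
        obtain ⟨e', he', rfl⟩ := Finset.mem_image.1 he
        rcases i with i | i
        · rw [Sum.elim_inl, Prod.fst_swap, Prod.snd_swap, hmeet2 e' he']; exact hf0 i e' he'
        · rw [Prod.fst_swap, Prod.snd_swap]; exact hh0' i e' he')
      ((ι.comp φ.toRingHom).comp (rename (j2 n)).toRingHom)
      (by
        intro P hP hP0
        have := hgood₂ P (Vw_mono wt (by omega) hP) (fun e he => by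
          have := hP0 e.swap (Finset.mem_image_of_mem _ he)
          rwa [Prod.fst_swap, Prod.snd_swap] at this)
        change ι (φ (rename (j2 n) P)) = 0
        rw [this, map_zero]) hσ₂
    convert key using 3
    congr 1
    funext i x
    rcases i with i | i
    · change ι (φ (pderiv (Sum.inl x) (rename Sum.inl (f i)))) = _
      rw [← hj2inl, pj2]; rfl
    · change ι (φ (pderiv (Sum.inl x) (rename (j2 n) (h' i)))) = _
      rw [pj2]; rfl
  -- rank of `f`: full, because it is full at the closed point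
  have r3 : Fintype.card (Crd n) ≤
      (Matrix.of (fun i x => cf φ ι (rename Sum.inl (f i)) (Sum.inl x) :
        Fin c₀ → Crd n → L)).rank + (σ₁ + σ₂) := by
    have hcard : Fintype.card (Crd n) = 2 * n + 1 := by
      simp only [Fintype.card_sum, Fintype.card_fin, Fintype.card_unit]; omega
    let M : Matrix (Fin c₀) (Crd n) (MvPolynomial (Crd n ⊕ (Pt n ⊕ Pt n)) k) :=
      Matrix.of (fun i x => pderiv (Sum.inl x) (rename Sum.inl (f i)))
    have hM0 : (M.map (eval (edgePt s r))).rank = c₀ := by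
      have e1 : M.map (eval (edgePt s r)) = Matrix.of (fun i => grad (meet s r) (f i)) := by
        ext i x
        change eval (edgePt s r) (pderiv (Sum.inl x) (rename Sum.inl (f i))) = _
        rw [pderiv_rename Sum.inl_injective, eval_rename]
        rfl
      rw [e1]
      have e2 : LinearIndependent k (Matrix.of (fun i => grad (meet s r) (f i))).row := hfind
      rw [e2.rank_matrix, Fintype.card_fin]
    obtain ⟨fr, gc, hdet⟩ := exists_minor (M.map (eval (edgePt s r))) c₀ hM0.ge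
    let ML : Matrix (Fin c₀) (Crd n) L := M.map (ι.comp φ.toRingHom)
    have h2 : (ML.submatrix fr gc).det ≠ 0 := by
      have h3 : (ML.submatrix fr gc).det = ι (φ ((M.submatrix fr gc).det)) := by
        rw [show φ ((M.submatrix fr gc).det) = φ.toRingHom ((M.submatrix fr gc).det) from rfl,
          RingHom.map_det, RingHom.map_det]
        rfl
      rw [h3]
      intro h0
      have h4 : φ ((M.submatrix fr gc).det) = 0 := by
        apply hι; rw [h0, map_zero]
      have h5 := hφ0 ((M.submatrix fr gc).det)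
      rw [h4, map_zero, RingHom.map_det] at h5
      exact hdet h5.symm
    have h6 : (ML.submatrix fr gc).rank = c₀ := by
      rw [Matrix.rank_of_det_ne_zero h2, Fintype.card_fin]
    have h7 := Matrix.rank_submatrix_le ML fr gc
    have h8 : ML = Matrix.of (fun i x => cf φ ι (rename Sum.inl (f i)) (Sum.inl x)) := rfl
    rw [← h8]
    omega
  have hne : ι (φ (X (Sum.inr (Sum.inl (Sum.inl 0))))) ≠
      ι (φ (X (Sum.inr (Sum.inr (Sum.inl 0))))) := by
    intro h0
    have h1 := hι h0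
    have h2 := congrArg (MvPowerSeries.constantCoeff) h1
    rw [hφ0, hφ0, eval_X, eval_X] at h2
    exact (hadj (s, r) hsr).1 h2
  exact exists_split (edgePt s r) F he hind φ hφ0 a ha ι hι
    (fun i => rename Sum.inl (f i)) (fun i => rename (j1 n) (h i))
    (fun i => rename (j2 n) (h' i))
    (Sum.elim (fun i => rename (j1 n) (incP k n i)) (fun i => rename (j2 n) (incP k n i)))
    vf vh vh' (by rintro (i | i); exacts [vi1 i, vi2 i]) hF
    (fun i y => pz Sum.inl (f i) (Sum.inr y) (by rintro ⟨x, hx⟩; exact absurd hx (by simp)))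
    (fun i y => pz (j1 n) (h i) (Sum.inr (Sum.inr y)) (by
      rintro ⟨x, hx⟩; rcases x with x | x <;> simp [j1] at hx))
    (fun i y => pz (j2 n) (h' i) (Sum.inr (Sum.inl y)) (by
      rintro ⟨x, hx⟩; rcases x with x | x <;> simp [j2] at hx))
    (fun g hg => inc_inj φ ι hne g hg) σ₁ σ₂ r1 r2 r3 l

end Vale.Agent.P054.T2.H930
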